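import Vale.Agent.P151.Zd.Unique

/-!
# Translations and the infinite cluster

Automorphisms preserve the percolation measure. If an automorphism shifts a height function by a
nonzero constant and there are no two infinite clusters, then almost surely no infinite cluster is
bounded above, or bounded, in that height.
-/

open MeasureTheory ProbabilityTheory

namespace Vale.Agent.P151.Zt

open Vale.Agent.P165

variable {V : Type} {G : SimpleGraph V}

/-- The configuration seen through an automorphism. -/
def pull (φ : G ≃g G) (ω : Config G) : Config G := fun e => ω (φ.mapEdgeSet e)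

theorem measurable_pull (φ : G ≃g G) : Measurable (pull φ) :=
  measurable_pi_lambda _ fun _ => measurable_pi_apply _

theorem map_pull (φ : G ≃g G) (p : unitInterval) : (perc G p).map (pull φ) = perc G p := by
  have hf : pull φ = MeasurableEquiv.piCongrLeft (fun _ : G.edgeSet => Bool) φ.mapEdgeSet.symm := by
    funext ω e
    obtain ⟨e', rfl⟩ := φ.mapEdgeSet.symm.surjective e
    rw [MeasurableEquiv.piCongrLeft_apply_apply]
    exact congrArg ω (φ.mapEdgeSet.apply_symm_apply e')
  rw [hf]
  exact Measure.infinitePi_map_piCongrLeft (fun _ : G.edgeSet => bernoulliMeasure true false p)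
    φ.mapEdgeSet.symm

theorem perc_pull_preimage (φ : G ≃g G) (p : unitInterval) {A : Set (Config G)}
    (hA : MeasurableSet A) : perc G p (pull φ ⁻¹' A) = perc G p A := by
  rw [← Measure.map_apply (measurable_pull φ) hA, map_pull]

theorem openGraph_pull_adj (φ : G ≃g G) (ω : Config G) (a b : V) :
    (openGraph G (pull φ ω)).Adj a b ↔ (openGraph G ω).Adj (φ a) (φ b) := by
  constructor
  · rintro ⟨h, hv⟩
    refine ⟨φ.map_adj_iff.2 h, ?_⟩
    have : φ.mapEdgeSet ⟨s(a, b), h⟩ = ⟨s(φ a, φ b), φ.map_adj_iff.2 h⟩ := rfl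
    rw [← this]; exact hv
  · rintro ⟨h, hv⟩
    exact ⟨φ.map_adj_iff.1 h, hv⟩

/-- The automorphism, between the open graphs. -/
def pullIso (φ : G ≃g G) (ω : Config G) : openGraph G (pull φ ω) ≃g openGraph G ω where
  toEquiv := φ.toEquiv
  map_rel_iff' := fun {a b} => (openGraph_pull_adj φ ω a b).symm

theorem reachable_pull (φ : G ≃g G) (ω : Config G) (a b : V) :
    (openGraph G (pull φ ω)).Reachable a b ↔ (openGraph G ω).Reachable (φ a) (φ b) :=
  ((pullIso φ ω).reachable_iff (u := a) (v := b)).symm

theorem infAt_pull (φ : G ≃g G) (ω : Config G) (y : V) :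
    pull φ ω ∈ infAt G y ↔ ω ∈ infAt G (φ y) := by
  have hset : {z | (openGraph G ω).Reachable (φ y) z}
      = φ '' {z | (openGraph G (pull φ ω)).Reachable y z} := by
    ext z
    obtain ⟨x, rfl⟩ := φ.surjective z
    rw [φ.injective.mem_set_image]
    exact (reachable_pull φ ω y x).symm
  show Set.Infinite _ ↔ Set.Infinite _
  rw [hset, Set.infinite_image_iff φ.injective.injOn]

/-- Some infinite cluster has supremum of the height in `(a, b]`. -/
def supIn (G : SimpleGraph V) (h : V → ℝ) (a b : ℝ) : Set (Config G) :=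
  ⋃ x, infAt G x ∩ ({ω | ∀ z, (openGraph G ω).Reachable x z → h z ≤ b} ∩
    {ω | ∃ z, (openGraph G ω).Reachable x z ∧ a < h z})

/-- Some infinite cluster is bounded above in the height. -/
def boundedAbove (G : SimpleGraph V) (h : V → ℝ) : Set (Config G) :=
  ⋃ x, infAt G x ∩ {ω | ∃ b : ℕ, ∀ z, (openGraph G ω).Reachable x z → h z ≤ b}

section

variable {ι : Type} [Fintype ι] [Countable V] {nb : V → ι → V}

theorem measurableSet_supIn (hl : Listing G nb) (h : V → ℝ) (a b : ℝ) :
    MeasurableSet (supIn G h a b) := by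
  classical
  have h1 : ∀ x, {ω : Config G | ∀ z, (openGraph G ω).Reachable x z → h z ≤ b}
      = ⋂ z, {ω | (openGraph G ω).Reachable x z → h z ≤ b} := fun x => by ext; simp
  have h2 : ∀ x, {ω : Config G | ∃ z, (openGraph G ω).Reachable x z ∧ a < h z}
      = ⋃ z, {ω | (openGraph G ω).Reachable x z ∧ a < h z} := fun x => by ext; simp
  refine MeasurableSet.iUnion fun x => (measurableSet_infAt hl x).inter (.inter ?_ ?_)
  · rw [h1]
    refine MeasurableSet.iInter fun z => ?_
    by_cases hz : h z ≤ b
    · simp [hz]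
    · rw [show {ω : Config G | (openGraph G ω).Reachable x z → h z ≤ b} = (reach G x z)ᶜ by
        ext; simp [reach, hz]]
      exact (measurableSet_reach hl x z).compl
  · rw [h2]
    refine MeasurableSet.iUnion fun z => ?_
    by_cases hz : a < h z
    · rw [show {ω : Config G | (openGraph G ω).Reachable x z ∧ a < h z} = reach G x z by
        ext; simp [reach, hz]]
      exact measurableSet_reach hl x z
    · simp [hz]

/-- Almost surely no infinite cluster has its height bounded above. -/
theorem boundedAbove_null (hl : Listing G nb) (p : unitInterval)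
    (hu : perc G p (Zd.twoInfinite G) = 0) (h : V → ℝ) (φ : G ≃g G) (c : ℝ) (hc : 0 < c)
    (hφ : ∀ v, h (φ v) = h v + c) : perc G p (boundedAbove G h) = 0 := by
  set μ := perc G p
  -- the translates of one slice are almost surely disjoint and equally likely
  have slice : ∀ s : ℝ, μ (supIn G h s (s + c)) = 0 := by
    intro s
    let A : ℕ → Set (Config G) := fun k => supIn G h (s + k * c) (s + (k + 1) * c)
    have hshift : ∀ a b, pull φ ⁻¹' supIn G h a b = supIn G h (a + c) (b + c) := by
      intro a b
      ext ω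
      simp only [supIn, Set.mem_preimage, Set.mem_iUnion, Set.mem_inter_iff, Set.mem_ofPred_eq,
        infAt_pull, reachable_pull]
      constructor
      · rintro ⟨x, hx, hb, z, hz, ha⟩
        refine ⟨φ x, hx, fun w hw => ?_, φ z, hz, by rw [hφ]; linarith⟩
        obtain ⟨v, rfl⟩ := φ.surjective w
        rw [hφ]; linarith [hb v hw]
      · rintro ⟨x, hx, hb, z, hz, ha⟩
        obtain ⟨x, rfl⟩ := φ.surjective x
        obtain ⟨z, rfl⟩ := φ.surjective z
        refine ⟨x, hx, fun w hw => ?_, z, hz, by rw [hφ] at ha; linarith⟩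
        have := hb (φ w) hw
        rw [hφ] at this; linarith
    have heq : ∀ k, μ (A k) = μ (A 0) := by
      intro k
      induction k with
      | zero => rfl
      | succ k ih =>
        have := perc_pull_preimage φ p
          (measurableSet_supIn hl h (s + k * c) (s + (k + 1) * c))
        rw [hshift] at this
        rw [← ih, ← this]
        simp only [A]
        congr 2 <;> push_cast <;> ring
    have hdis : Pairwise (Function.onFun (AEDisjoint μ) A) := by
      intro i j hij
      refine measure_mono_null (fun ω hω => ?_) hu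
      obtain ⟨x, hx, hxb, zx, hzx, hxa⟩ := Set.mem_iUnion.1 hω.1
      obtain ⟨y, hy, hyb, zy, hzy, hya⟩ := Set.mem_iUnion.1 hω.2
      refine Set.mem_iUnion.2 ⟨x, Set.mem_iUnion.2 ⟨y, ⟨hx, hy⟩, fun hxy => hij ?_⟩⟩
      have e1 : h zy ≤ s + ((i : ℝ) + 1) * c := hxb zy (hxy.trans hzy)
      have e2 : h zx ≤ s + ((j : ℝ) + 1) * c := hyb zx (hxy.symm.trans hzx)
      have l1 : (j : ℝ) < i + 1 := by nlinarith [hya]
      have l2 : (i : ℝ) < j + 1 := by nlinarith [hxa]
      norm_cast at l1 l2
      omega
    have hsum : ∑' k, μ (A k) ≤ 1 := by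
      rw [← measure_iUnion₀ hdis fun k => (measurableSet_supIn hl h _ _).nullMeasurableSet]
      haveI : IsProbabilityMeasure μ := by simp only [μ, perc]; infer_instance
      exact prob_le_one
    simp only [heq] at hsum
    have hA0 : μ (A 0) = 0 := by
      by_contra hne
      rw [ENNReal.tsum_const_eq_top_of_ne_zero hne] at hsum
      exact absurd hsum (by simp)
    simpa [A] using hA0
  -- every infinite cluster that is bounded above lies in one slice
  refine measure_mono_null (t := ⋃ k : ℤ, supIn G h (k * c) (k * c + c)) (fun ω hω => ?_)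
    (measure_iUnion_null fun k => slice _)
  obtain ⟨x, hx, b, hb⟩ := Set.mem_iUnion.1 hω
  have hne : (h '' {z | (openGraph G ω).Reachable x z}).Nonempty :=
    ⟨h x, x, SimpleGraph.Reachable.refl _, rfl⟩
  have hbd : BddAbove (h '' {z | (openGraph G ω).Reachable x z}) :=
    ⟨b, by rintro _ ⟨z, hz, rfl⟩; exact hb z hz⟩
  set S := sSup (h '' {z | (openGraph G ω).Reachable x z})
  set k : ℤ := ⌈S / c⌉ - 1
  have hk1 : (k : ℝ) * c < S := by
    have := Int.ceil_lt_add_one (S / c)
    rw [← lt_div_iff₀ hc]; simp only [k]; push_cast; linarith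
  have hk2 : S ≤ k * c + c := by
    have := Int.le_ceil (S / c)
    rw [div_le_iff₀ hc] at this
    simp only [k]; push_cast; linarith
  obtain ⟨_, ⟨z, hz, rfl⟩, hzlt⟩ := exists_lt_of_lt_csSup hne hk1
  exact Set.mem_iUnion.2 ⟨k, Set.mem_iUnion.2 ⟨x, hx,
    fun w hw => (le_csSup hbd ⟨w, hw, rfl⟩).trans hk2, z, hz, hzlt⟩⟩

/-- Almost surely no infinite cluster lies in a strip. -/
theorem strip_null (hl : Listing G nb) (p : unitInterval)
    (hu : perc G p (Zd.twoInfinite G) = 0) (h : V → ℝ) (φ : G ≃g G) (c : ℝ) (hc : c ≠ 0)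
    (hφ : ∀ v, h (φ v) = h v + c) :
    perc G p (⋃ x, infAt G x ∩
      {ω | ∃ w : ℕ, ∀ z, (openGraph G ω).Reachable x z → |h z| ≤ w}) = 0 := by
  rcases lt_or_gt_of_ne hc with hneg | hpos
  · refine measure_mono_null ?_
      (boundedAbove_null hl p hu (fun v => -h v) φ (-c) (by linarith) fun v => by
        simp only [hφ]; ring)
    exact Set.iUnion_mono fun x => Set.inter_subset_inter_right _
      fun ω ⟨w, hw⟩ => ⟨w, fun z hz => (neg_le_abs (h z)).trans (hw z hz)⟩
  · refine measure_mono_null ?_ (boundedAbove_null hl p hu h φ c hpos hφ)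
    exact Set.iUnion_mono fun x => Set.inter_subset_inter_right _
      fun ω ⟨w, hw⟩ => ⟨w, fun z hz => (le_abs_self (h z)).trans (hw z hz)⟩

end

end Vale.Agent.P151.Zt
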