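import Vale.Agent.P151.Zt.Exits
import Vale.Agent.P151.Zt.Shift

/-!
# Thin strips are left through their sides

Every vertex has a position in the plane. If some translation moves every linear functional of
the position and there are no two infinite clusters, then, uniformly in the direction of a strip,
a large seed reaches many points on the sides of a wide strip within a large enough disc.
-/

open MeasureTheory ProbabilityTheory Filter Topology

namespace Vale.Agent.P151.Zt

open Vale.Agent.P165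

variable {V : Type} {G : SimpleGraph V} (pos : V → ℝ × ℝ)

/-- The linear functional `v` of the position. -/
def lin (v : ℝ × ℝ) (x : V) : ℝ := v.1 * (pos x).1 + v.2 * (pos x).2

/-- The square of radius `R`. -/
def square (R : ℝ) : Set V := {x | |(pos x).1| ≤ R ∧ |(pos x).2| ≤ R}

theorem square_mono {R R' : ℝ} (h : R ≤ R') : square pos R ⊆ square pos R' :=
  fun _ hx => ⟨hx.1.trans h, hx.2.trans h⟩

theorem exists_square (x : V) : ∃ n : ℕ, x ∈ square pos n := by
  obtain ⟨n, hn⟩ := exists_nat_ge (max |(pos x).1| |(pos x).2|)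
  exact ⟨n, (le_max_left _ _).trans hn, (le_max_right _ _).trans hn⟩

/-- Everything joined to `K` inside the square lies in the strip. -/
def confined (G : SimpleGraph V) (K : Finset V) (v : ℝ × ℝ) (R w : ℝ) : Set (Config G) :=
  {ω | ∀ y ∈ inner G (square pos R) K ω, |lin pos v y| ≤ w}

theorem inner_mono {P P' : Set V} (h : P ⊆ P') (K : Finset V) (ω : Config G) :
    inner G P K ω ⊆ inner G P' K ω :=
  fun _ ⟨x, hx, w, hw⟩ => ⟨x, hx, w, fun z hz => h (hw z hz)⟩

section

variable {ι : Type} [Fintype ι] [DecidableEq V] [Countable V] {nb : V → ι → V}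

theorem measurableSet_confined (hl : Listing G nb) (K : Finset V) (v : ℝ × ℝ) (R w : ℝ) :
    MeasurableSet (confined pos G K v R w) := by
  classical
  have : confined pos G K v R w = ⋂ y, ⋂ _ : ¬|lin pos v y| ≤ w,
      {ω : Config G | y ∈ inner G (square pos R) K ω}ᶜ := by
    ext ω
    simp only [confined, Set.mem_ofPred_eq, Set.mem_iInter, Set.mem_compl_iff]
    exact forall_congr' fun y => not_imp_not.symm
  rw [this]
  exact MeasurableSet.iInter fun y => MeasurableSet.iInter fun _ =>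
    (measurableSet_mem_inner hl _ K y).compl

/-- Uniformly in the direction, infinite clusters of `K` are not confined in a large square. -/
theorem confined_small (hl : Listing G nb) (p : unitInterval)
    (hu : perc G p (Zd.twoInfinite G) = 0)
    (hshift : ∀ v : ℝ × ℝ, v ≠ 0 →
      ∃ (φ : G ≃g G) (c : ℝ), c ≠ 0 ∧ ∀ x, lin pos v (φ x) = lin pos v x + c)
    (K : Finset V) (w : ℝ) {η : ℝ} (hη : 0 < η) :
    ∃ R0 : ℝ, ∀ v : ℝ × ℝ, v.1 ^ 2 + v.2 ^ 2 = 1 → ∀ R, R0 ≤ R →
      (perc G p).real (confined pos G K v R w ∩ ⋃ x ∈ K, infAt G x) ≤ η := by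
  classical
  haveI : IsProbabilityMeasure (perc G p) := by unfold perc; infer_instance
  set μ := perc G p
  by_contra hcon
  push Not at hcon
  choose v hv R hR hbig using fun n : ℕ => hcon n
  have hmem : ∀ n, v n ∈ Set.Icc (-1 : ℝ) 1 ×ˢ Set.Icc (-1 : ℝ) 1 := fun n => by
    have h := hv n
    refine ⟨⟨?_, ?_⟩, ⟨?_, ?_⟩⟩ <;> nlinarith [sq_nonneg (v n).1, sq_nonneg (v n).2]
  obtain ⟨v0, -, φ, hφ, hlim⟩ := (isCompact_Icc.prod isCompact_Icc).tendsto_subseq hmem
  have hv0 : v0.1 ^ 2 + v0.2 ^ 2 = 1 := by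
    have hc : Continuous fun u : ℝ × ℝ => u.1 ^ 2 + u.2 ^ 2 := by fun_prop
    have := (hc.tendsto v0).comp hlim
    exact tendsto_nhds_unique this
      (tendsto_const_nhds.congr fun n => (hv (φ n)).symm)
  have hv00 : v0 ≠ 0 := fun h => by rw [h] at hv0; simp at hv0
  set A : ℕ → Set (Config G) := fun m =>
    confined pos G K v0 m (w + 1) ∩ ⋃ x ∈ K, infAt G x with hA
  have hAbig : ∀ m, η ≤ μ.real (A m) := by
    intro m
    have hev : ∀ᶠ n in atTop, ‖v (φ n) - v0‖ < 1 / (2 * ((m : ℝ) + 1)) :=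
      (tendsto_iff_norm_sub_tendsto_zero.1 hlim).eventually
        (gt_mem_nhds (by positivity))
    obtain ⟨n, hn, hnm⟩ := (hev.and (eventually_ge_atTop m)).exists
    refine (hbig (φ n)).le.trans (measureReal_mono ?_ (measure_ne_top _ _))
    rintro ω ⟨hω, hi⟩
    refine ⟨fun y hy => ?_, hi⟩
    have hmR : (m : ℝ) ≤ R (φ n) := by
      refine le_trans ?_ (hR (φ n))
      exact_mod_cast hnm.trans (hφ.id_le n)
    have h1 := hω y (inner_mono (square_mono pos hmR) K ω hy)
    obtain ⟨hy1, hy2⟩ := inner_subset hy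
    rw [Prod.norm_def, max_lt_iff, Real.norm_eq_abs, Real.norm_eq_abs, Prod.fst_sub,
      Prod.snd_sub] at hn
    have hsmall : |lin pos v0 y - lin pos (v (φ n)) y| ≤ 1 := by
      have e : lin pos v0 y - lin pos (v (φ n)) y
          = (v0.1 - (v (φ n)).1) * (pos y).1 + (v0.2 - (v (φ n)).2) * (pos y).2 := by
        simp [lin]; ring
      rw [e]
      refine (abs_add_le _ _).trans ?_
      rw [abs_mul, abs_mul, abs_sub_comm, abs_sub_comm v0.2]
      have hd : 1 / (2 * ((m : ℝ) + 1)) * ((m : ℝ) + 1) = 1 / 2 := by field_simp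
      nlinarith [mul_le_mul hn.1.le (hy1.trans (le_add_of_nonneg_right zero_le_one))
        (abs_nonneg _) (by positivity), mul_le_mul hn.2.le
        (hy2.trans (le_add_of_nonneg_right zero_le_one)) (abs_nonneg _) (by positivity)]
    have h3 := abs_sub_abs_le_abs_sub (lin pos v0 y) (lin pos (v (φ n)) y)
    linarith
  have hAm : ∀ m, MeasurableSet (A m) := fun m => (measurableSet_confined pos hl K _ _ _).inter
    (MeasurableSet.biUnion (Finset.countable_toSet _) fun x _ => measurableSet_infAt hl x)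
  have hanti : Antitone A := fun a b hab ω hω =>
    ⟨fun y hy => hω.1 y (inner_mono (square_mono pos (by exact_mod_cast hab)) K ω hy), hω.2⟩
  obtain ⟨ψ, c, hc, hψ⟩ := hshift v0 hv00
  have hsub : (⋂ m, A m) ⊆ ⋃ x, infAt G x ∩
      {ω | ∃ k : ℕ, ∀ z, (openGraph G ω).Reachable x z → |lin pos v0 z| ≤ k} := by
    intro ω hω
    rw [Set.mem_iInter] at hω
    obtain ⟨x, hx, hxi⟩ := Set.mem_iUnion₂.1 (hω 0).2
    obtain ⟨k, hk⟩ := exists_nat_ge (w + 1)
    refine Set.mem_iUnion.2 ⟨x, hxi, k, fun z ⟨walk⟩ => le_trans ?_ hk⟩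
    choose f hf using exists_square pos
    exact (hω (walk.support.toFinset.sup f)).1 z ⟨x, hx, walk, fun y hy =>
      square_mono pos (by exact_mod_cast Finset.le_sup (List.mem_toFinset.2 hy)) (hf y)⟩
  have h0 : μ (⋂ m, A m) = 0 :=
    measure_mono_null hsub (strip_null hl p hu (lin pos v0) ψ c hc hψ)
  have hlimA : Tendsto (fun m => μ.real (A m)) atTop (𝓝 0) := by
    have := tendsto_measure_iInter_atTop (μ := μ) (fun m => (hAm m).nullMeasurableSet) hanti
      ⟨0, measure_ne_top _ _⟩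
    rw [h0] at this
    exact (ENNReal.tendsto_toReal ENNReal.zero_ne_top).comp this
  exact absurd (ge_of_tendsto hlimA (Eventually.of_forall hAbig)) (not_le.2 hη)

/-- After cutting, what is joined to `K` inside the square lies by the strip. -/
theorem inner_square_of_cut {P Side : Set V} {K : Finset V} (hK : ∀ x ∈ K, x ∈ P) {R : ℝ}
    (hside : ∀ z, z ∉ P → z ∈ square pos R → z ∈ Side) {ω : Config G}
    (hcut : ∀ e : G.edgeSet, (∃ z ∈ (e : Sym2 V), z ∈ exits G P K ω ∩ Side) →
      ω ∈ cutAt G P K e)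
    {y : V} (hy : y ∈ inner G (square pos R) K ω) :
    y ∈ inner G P K ω ∨ y ∈ exits G P K ω := by
  obtain ⟨x, hx, w, hw⟩ := hy
  suffices H : ∀ {a b : V} (w : (openGraph G ω).Walk a b),
      (∀ z ∈ w.support, z ∈ square pos R) →
      (a ∈ inner G P K ω ∨ a ∈ exits G P K ω ∩ Side) →
      (b ∈ inner G P K ω ∨ b ∈ exits G P K ω ∩ Side) by
    refine (H w hw (Or.inl ⟨x, hx, .nil, fun z hz => ?_⟩)).imp_right (·.1)
    rw [SimpleGraph.Walk.support_nil, List.mem_singleton] at hz
    exact hz ▸ hK x hx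
  intro a b w
  induction w with
  | nil => exact fun _ h => h
  | @cons a c b hac w ih =>
    intro hs ha
    have hcR : c ∈ square pos R := hs c (List.mem_cons_of_mem _ w.start_mem_support)
    refine ih (fun z hz => hs z (List.mem_cons_of_mem _ hz)) ?_
    rcases ha with ha | ha
    · by_cases hc : c ∈ P
      · exact Or.inl (mem_inner_of_adj ha hac hc)
      · exact Or.inr ⟨⟨hc, a, ha, hac⟩, hside c hc hcR⟩
    · obtain ⟨hG, ho⟩ := hac
      rcases hcut ⟨s(a, c), hG⟩ ⟨a, Sym2.mem_mk_left a c, ha⟩ with hf | ⟨u, hu, hui⟩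
      · rw [ho] at hf; exact Bool.noConfusion hf
      · rcases Sym2.mem_iff.1 hu with rfl | rfl
        · exact absurd (inner_subset hui) ha.1.1
        · exact Or.inl hui

/-- A wide strip is left at many points of its sides inside a large square, whatever its
direction. -/
theorem many_side_exits (hl : Listing G nb) (p : unitInterval) (hp : (p : ℝ) < 1)
    (hu : perc G p (Zd.twoInfinite G) = 0)
    (hshift : ∀ v : ℝ × ℝ, v ≠ 0 →
      ∃ (φ : G ≃g G) (c : ℝ), c ≠ 0 ∧ ∀ x, lin pos v (φ x) = lin pos v x + c)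
    (E : ℝ) (hE0 : 0 ≤ E) (hE : ∀ x y, G.Adj x y →
      |(pos x).1 - (pos y).1| ≤ E ∧ |(pos x).2 - (pos y).2| ≤ E)
    (K : Finset V) (t : ℕ) {η : ℝ} (hη : 0 < η) :
    ∃ ρ : ℝ, ∀ w : ℝ, ∃ R0 : ℝ, ∀ v : ℝ × ℝ, v.1 ^ 2 + v.2 ^ 2 = 1 → ∀ P Side : Set V,
      (∀ x ∈ K, x ∈ P) → square pos ρ ⊆ P → (∀ x ∈ P, |lin pos v x| ≤ w) →
      (∀ z, z ∉ P → z ∈ square pos R0 → z ∈ Side) →
      (perc G p).real {ω | (exits G P K ω ∩ Side).encard ≤ t}
        ≤ (perc G p).real (⋃ x ∈ K, infAt G x)ᶜ + η := by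
  classical
  haveI : IsProbabilityMeasure (perc G p) := by unfold perc; infer_instance
  set μ := perc G p
  have hq0 : 0 ≤ 1 - (p : ℝ) := sub_nonneg.2 p.2.2
  set cst := (1 - (p : ℝ)) ^ (Fintype.card ι * t) with hcst
  have hc : 0 < cst := pow_pos (sub_pos.2 hp) _
  have hc1 : cst ≤ 1 := pow_le_one₀ hq0 (by linarith [p.2.1])
  -- finite clusters rarely leave a large square
  have hev : ∀ S : Finset V, ∃ n1 : ℕ, ∀ x ∈ S, x ∈ square pos n1 := fun S => by
    choose f hf using exists_square pos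
    exact ⟨S.sup f, fun x hx =>
      square_mono pos (by exact_mod_cast Finset.le_sup hx) (hf x)⟩
  let L : ℕ → Set (Config G) := fun n => leaveFinite G (square pos n) K
  have hLm : ∀ n, MeasurableSet (L n) := fun n =>
    (MeasurableSet.biUnion (Finset.countable_toSet _) fun x _ => by
      rw [Zd.arm_eq]
      exact MeasurableSet.iUnion fun z => MeasurableSet.iUnion fun _ =>
        measurableSet_reach hl x z).diff
    (MeasurableSet.biUnion (Finset.countable_toSet _) fun x _ => measurableSet_infAt hl x)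
  have hLanti : Antitone L := fun a b hab =>
    Set.sdiff_subset_sdiff_left (Set.iUnion₂_mono fun x _ ω ⟨z, hz, hr⟩ =>
      ⟨z, fun h => hz (square_mono pos (by exact_mod_cast hab) h), hr⟩)
  have hLempty : (⋂ n, L n) = ∅ := by
    refine Set.eq_empty_iff_forall_notMem.2 fun ω hω => ?_
    rw [Set.mem_iInter] at hω
    have hfin : ∀ x ∈ K, {z | (openGraph G ω).Reachable x z}.Finite := fun x hx => by
      refine Set.not_infinite.1 fun hi => (hω 0).2 ?_
      exact Set.mem_iUnion₂.2 ⟨x, hx, hi⟩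
    set U : Set V := ⋃ x ∈ K, {z | (openGraph G ω).Reachable x z}
    have hU : U.Finite := K.finite_toSet.biUnion hfin
    obtain ⟨n2, hn2⟩ := hev hU.toFinset
    obtain ⟨x, hx, z, hz, hr⟩ := Set.mem_iUnion₂.1 (hω n2).1
    exact hz (hn2 z (hU.mem_toFinset.2 (Set.mem_iUnion₂.2 ⟨x, hx, hr⟩)))
  have hlim : Tendsto (fun n => μ.real (L n)) atTop (𝓝 0) := by
    have := tendsto_measure_iInter_atTop (μ := μ) (fun n => (hLm n).nullMeasurableSet) hLanti
      ⟨0, measure_ne_top _ _⟩
    rw [hLempty, measure_empty] at this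
    exact (ENNReal.tendsto_toReal ENNReal.zero_ne_top).comp this
  obtain ⟨n0, hn0⟩ := eventually_atTop.1
    (hlim.eventually (eventually_le_nhds (show (0 : ℝ) < cst * η / 4 by positivity)))
  refine ⟨n0, fun w => ?_⟩
  obtain ⟨R1, hR1⟩ := confined_small pos hl p hu hshift K (max w 0 + 2 * E)
    (show (0 : ℝ) < cst * η / 4 by positivity)
  refine ⟨R1, fun v hv P Side hK hρ hstrip hside => ?_⟩
  set C := confined pos G K v R1 (max w 0 + 2 * E) ∩ ⋃ x ∈ K, infAt G x with hC
  have hCs : μ.real C ≤ cst * η / 4 := hR1 v hv R1 le_rfl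
  have hLs : μ.real (L n0) ≤ cst * η / 4 := hn0 n0 le_rfl
  -- what is joined to `K` inside the square lies by the strip
  have hnear : ∀ ω y, (y ∈ inner G P K ω ∨ y ∈ exits G P K ω) →
      |lin pos v y| ≤ max w 0 + 2 * E := by
    intro ω y hy
    rcases hy with hy | ⟨-, u, hu', hA, -⟩
    · have := hstrip y (inner_subset hy)
      linarith [le_max_left w 0]
    · have h1 := hstrip u (inner_subset hu')
      obtain ⟨hx, hy'⟩ := hE u y hA
      have hv1 : |v.1| ≤ 1 := abs_le_of_sq_le_sq (by nlinarith [sq_nonneg v.2]) zero_le_one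
      have hv2 : |v.2| ≤ 1 := abs_le_of_sq_le_sq (by nlinarith [sq_nonneg v.1]) zero_le_one
      have e : lin pos v y
          = lin pos v u + (v.1 * ((pos y).1 - (pos u).1) + v.2 * ((pos y).2 - (pos u).2)) := by
        simp [lin]; ring
      rw [e]
      refine (abs_add_le _ _).trans ?_
      have h2 := abs_add_le (v.1 * ((pos y).1 - (pos u).1)) (v.2 * ((pos y).2 - (pos u).2))
      rw [abs_mul, abs_mul, abs_sub_comm (pos y).1, abs_sub_comm (pos y).2] at h2
      nlinarith [le_max_left w 0, mul_le_mul hv1 hx (abs_nonneg _) zero_le_one,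
        mul_le_mul hv2 hy' (abs_nonneg _) zero_le_one]
  let idx := {S : Finset V // S.Nonempty ∧ S.card ≤ t}
  let cutE : Finset V → Finset G.edgeSet := fun S =>
    (S ×ˢ (Finset.univ : Finset ι)).image fun q =>
      (⟨s(q.1, nb q.1 q.2), (SimpleGraph.mem_edgeSet _).2 (hl.adj_nb q.1 q.2)⟩ : G.edgeSet)
  let Ev : Finset V → Set (Config G) := fun S => {ω | exits G P K ω ∩ Side = ↑S}
  have hEvm : ∀ S, MeasurableSet (Ev S) := fun S => by
    have : Ev S = ⋂ z, {ω : Config G | z ∈ exits G P K ω ∩ Side ↔ z ∈ S} := by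
      ext ω; simp [Ev, Set.ext_iff]
    rw [this]
    refine MeasurableSet.iInter fun z => ?_
    by_cases hz : z ∈ Side <;> by_cases hzS : z ∈ S
    · simpa [hz, hzS] using measurableSet_mem_exits hl P K z
    · rw [show {ω : Config G | z ∈ exits G P K ω ∩ Side ↔ z ∈ S}
          = {ω : Config G | z ∈ exits G P K ω}ᶜ by ext; simp [hz, hzS]]
      exact (measurableSet_mem_exits hl P K z).compl
    all_goals simp [hz, hzS]
  let B : idx → Set (Config G) := fun S => Ev S.1 ∩ ⋂ e ∈ cutE S.1, cutAt G P K e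
  have hBm : ∀ S, MeasurableSet (B S) := fun S => (hEvm _).inter
    (MeasurableSet.biInter (Finset.countable_toSet _) fun i _ => measurableSet_cutAt hl P K i)
  have hsub : (⋃ S, B S) ⊆ L n0 ∪ C := by
    intro ω hω
    obtain ⟨S, hS, hcut⟩ := Set.mem_iUnion.1 hω
    by_cases hinf : ω ∈ ⋃ x ∈ K, infAt G x
    · refine Or.inr ⟨fun y hy => hnear ω y
        (inner_square_of_cut pos hK hside (fun e ⟨u, hu', hue⟩ => ?_) hy), hinf⟩
      rw [show exits G P K ω ∩ Side = ↑S.1 from hS, Finset.mem_coe] at hue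
      obtain ⟨z, hz⟩ := Sym2.mem_iff_exists.1 hu'
      have hA : G.Adj u z := by
        have := e.2
        rwa [hz, SimpleGraph.mem_edgeSet] at this
      obtain ⟨i, rfl⟩ := (hl.adj u z).1 hA
      exact Set.mem_iInter₂.1 hcut e (Finset.mem_image.2
        ⟨(u, i), Finset.mem_product.2 ⟨hue, Finset.mem_univ _⟩, Subtype.ext hz.symm⟩)
    · obtain ⟨z, hz⟩ := S.2.1
      have hz' : z ∈ exits G P K ω ∩ Side := by
        rw [show exits G P K ω ∩ Side = ↑S.1 from hS]; exact hz
      obtain ⟨⟨hzP, y, ⟨x, hx, walk, -⟩, hA⟩, -⟩ := hz'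
      exact Or.inl ⟨Set.mem_iUnion₂.2 ⟨x, hx, z, fun h => hzP (hρ h),
        walk.reachable.trans hA.reachable⟩, hinf⟩
  have hdis : Pairwise (Function.onFun Disjoint B) := fun S S' hne =>
    Set.disjoint_left.2 fun ω h h' =>
      hne (Subtype.ext (Finset.coe_injective (h.1.symm.trans h'.1)))
  have key : ∀ S : idx, ENNReal.ofReal cst * μ (Ev S.1) ≤ μ (B S) := by
    intro S
    have h := cut_gen hl p P K (Ev S.1) (hEvm _) (fun ω ω' _ he => by simp [Ev, he]) (cutE S.1)
    have hcard : (cutE S.1).card ≤ Fintype.card ι * t := by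
      refine Finset.card_image_le.trans ?_
      rw [Finset.card_product, Finset.card_univ, Nat.mul_comm]
      exact Nat.mul_le_mul le_rfl S.2.2
    have h2 : cst * μ.real (Ev S.1) ≤ μ.real (B S) := le_trans
      (mul_le_mul_of_nonneg_right (pow_le_pow_of_le_one hq0 (by linarith [p.2.1]) hcard)
        measureReal_nonneg) h
    rw [← ofReal_measureReal (μ := μ) (measure_ne_top _ _), ← ENNReal.ofReal_mul hc.le,
      ← ofReal_measureReal (μ := μ) (s := B S) (measure_ne_top _ _)]
    exact ENNReal.ofReal_le_ofReal h2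
  have main : ENNReal.ofReal cst * μ (⋃ S : idx, Ev S.1) ≤ μ (⋃ S, B S) := by
    rw [measure_iUnion hdis hBm]
    calc _ ≤ ENNReal.ofReal _ * ∑' S : idx, μ (Ev S.1) :=
          mul_le_mul' le_rfl (measure_iUnion_le _)
      _ ≤ _ := by rw [← ENNReal.tsum_mul_left]; exact ENNReal.tsum_le_tsum key
  have main' := ENNReal.toReal_mono (measure_ne_top _ _) main
  rw [ENNReal.toReal_mul, ENNReal.toReal_ofReal hc.le] at main'
  have hfew : μ.real (⋃ S : idx, Ev S.1) ≤ η / 2 := by
    refine le_of_mul_le_mul_left (main'.trans ?_) hc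
    refine ((measureReal_mono hsub (measure_ne_top _ _)).trans (measureReal_union_le _ _)).trans ?_
    linarith
  have hsplit : {ω | (exits G P K ω ∩ Side).encard ≤ t} ⊆
      ((⋃ x ∈ K, infAt G x)ᶜ ∪ C) ∪ ⋃ S : idx, Ev S.1 := by
    intro ω hω
    by_cases hne : (exits G P K ω ∩ Side).Nonempty
    · have hle : (exits G P K ω ∩ Side).encard ≤ t := hω
      have hfin := Set.finite_of_encard_le_coe hle
      refine Or.inr (Set.mem_iUnion.2 ⟨⟨hfin.toFinset, by simpa using hne, ?_⟩, by simp [Ev]⟩)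
      rw [hfin.encard_eq_coe_toFinset_card] at hle
      exact_mod_cast hle
    refine Or.inl ?_
    by_cases hinf : ω ∈ ⋃ x ∈ K, infAt G x
    · exact Or.inr ⟨fun y hy => hnear ω y (inner_square_of_cut pos hK hside
        (fun e ⟨u, _, hue⟩ => absurd ⟨u, hue⟩ hne) hy), hinf⟩
    · exact Or.inl hinf
  refine (measureReal_mono hsplit (measure_ne_top _ _)).trans ?_
  refine (measureReal_union_le _ _).trans ?_
  have h5 := measureReal_union_le (μ := μ) (⋃ x ∈ K, infAt G x)ᶜ C
  nlinarith

end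

end Vale.Agent.P151.Zt
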