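import Vale.Agent.P151.Zt.WindowExits
import Vale.Agent.P151.Zt.Thin

/-!
# Two additive coordinates on a graph: shared definitions

A graph with an equivariant position in the plane and finitely many orbits; cuts of the plane
into two sides, fuzzy by a bounded amount, with seeds that complete every exit; and the two
finite criteria `Legs` (elementary moves) and `Steer` (a forward move with a lateral aim).
-/

open Finset

namespace Vale.Agent.P151.Zt

open Glue0

variable {V : Type}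

/-- The size of a pair. -/
def size (x : ℝ × ℝ) : ℝ := |x.1| + |x.2|

/-- An integer point of the plane. -/
def gridPt (z : ℤ × ℤ) : ℝ × ℝ := ((z.1 : ℝ), (z.2 : ℝ))

/-- The forward unit forms. -/
def IsAxis (t : ℝ × ℝ) : Prop := t = (1, 0) ∨ t = (-1, 0)

/-- The automorphism moves every position by `z`. -/
def Shifts (G : SimpleGraph V) (pos : V → ℝ × ℝ) (φ : G ≃g G) (z : ℤ × ℤ) : Prop :=
  ∀ v, pos (φ v) = pos v + gridPt z

/-- An equivariant position: all integer shifts occur, finitely many orbits, bounded steps. -/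
structure Chart (G : SimpleGraph V) where
  /-- The position of a vertex. -/
  pos : V → ℝ × ℝ
  /-- The base vertex. -/
  o : V
  pos_o : pos o = 0
  shift : ∀ z : ℤ × ℤ, ∃ φ : G ≃g G, Shifts G pos φ z
  orbits : ∃ R : Finset V, ∀ v, ∃ (φ : G ≃g G) (z : ℤ × ℤ), Shifts G pos φ z ∧ ∃ r ∈ R, φ r = v
  short : ∃ L : ℝ, ∀ x y, G.Adj x y → size (pos x - pos y) ≤ L

variable {G : SimpleGraph V}

/-- For every form and level a set between `{f ≤ X}` and `{f ≤ X + D |f|}`, increasing in the
level and compatible with the shifts. -/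
structure Cut (Ch : Chart G) where
  /-- The near side of the level. -/
  side : ℝ × ℝ → ℝ → Set V
  /-- The fuzziness. -/
  D : ℝ
  D_nonneg : 0 ≤ D
  mono : ∀ f X X', X ≤ X' → side f X ⊆ side f X'
  le_subset : ∀ f X v, lin Ch.pos f v ≤ X → v ∈ side f X
  bounded : ∀ f X v, v ∈ side f X → lin Ch.pos f v ≤ X + D * size f
  shifts : ∀ (φ : G ≃g G) (z : ℤ × ℤ), Shifts G Ch.pos φ z → ∀ f X v,
    φ v ∈ side f X ↔ v ∈ side f (X - (f.1 * z.1 + f.2 * z.2))

/-- Cuts with seeds: from every vertex just beyond a cut, exactly `m` edges beyond it join the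
vertex to a translate of `K`; on an axis, the translate is on an exact integer plane. -/
structure Seeding (Ch : Chart G) (K : Finset V) extends Cut Ch where
  /-- The number of edges of a seed. -/
  m : ℕ
  /-- The radius of a seed. -/
  R : ℕ
  /-- The depth of the centres beyond an integer plane. -/
  ρ : ℕ
  seed : ∀ (f : ℝ × ℝ), f ≠ 0 → ∀ (X : ℝ) (y y' : V), y ∉ side f X → y' ∈ side f X → G.Adj y' y →
    ∃ (φ : G ≃g G) (z : ℤ × ℤ) (edges : Finset (Sym2 V)), Shifts G Ch.pos φ z ∧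
      edges.card = m ∧
      (∀ e ∈ edges, e ∈ G.edgeSet ∧
        ∀ v ∈ e, v ∉ side f X ∧ ∃ w : G.Walk y v, w.length ≤ R) ∧
      (∃ w : G.Walk y (φ Ch.o), w.length ≤ R) ∧
      (∀ x ∈ K, ∃ w : G.Walk y (φ x), ∀ e ∈ w.edges, e ∈ edges) ∧
      (IsAxis f → (∃ k : ℤ, X = k) → lin Ch.pos f (φ Ch.o) = X + ρ)

variable (G) in
/-- The points of `Side` outside `P` joined to `K` by open edges with an end in `P`. -/
def hitSet (Λ : Finset V) (P Side : Set V) (K : Finset V) (w : WE G Λ → Bool) : Set (WV Λ) :=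
  {z | (z : V) ∉ P ∧ (z : V) ∈ Side ∧ ∃ x : WV Λ, (x : V) ∈ K ∧
    z ∈ cluster (wEnds G Λ) (shut (touching G Λ P)ᶜ w) x}

variable (G) in
/-- At least `M` such points. -/
def hitEv (Λ : Finset V) (P Side : Set V) (K : Finset V) (M : ℕ) : Set (WE G Λ → Bool) :=
  {w | M ≤ (hitSet G Λ P Side K w).ncard}

variable {Ch : Chart G}

/-- The region `-a ≤ t ≤ k`, `-a' ≤ f ≤ l`, up to the fuzziness of the cut. -/
def Cut.cyl (C : Cut Ch) (t f : ℝ × ℝ) (a k a' l : ℝ) : Set V :=
  C.side (-t) a ∩ C.side t k ∩ (C.side (-f) a' ∩ C.side f l)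

variable (G) in
/-- In some window, at least `M` exits of `K` from `P` on `Side` with probability at least
`1 - ε`. -/
def Likely (p : ℝ) (K : Finset V) (M : ℕ) (ε : ℝ) (P Side : Set V) : Prop :=
  ∃ Λ : Finset V, 1 - ε ≤ Pr (fun _ : WE G Λ => p) (exitHits G Λ P Side K M)

/-- Elementary moves at scale `n`, with half width `L`: two halves and every length forward,
every length sideways. -/
def Legs (C : Cut Ch) (p : ℝ) (K : Finset V) (M : ℕ) (ε η : ℝ) (t f : ℝ × ℝ) (n : ℕ) (L : ℝ) :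
    Prop :=
  (∀ b : Bool, Likely G p K M ε (C.cyl t f (2 * n) n (3 * L) (3 * L))
    {v | v ∉ C.side t n ∧ |lin Ch.pos f v| ≤ 4 * L ∧
      (if b then lin Ch.pos f v ≤ η * L else -(η * L) ≤ lin Ch.pos f v)}) ∧
  (∀ k : ℕ, n ≤ k → k ≤ 2 * n → Likely G p K M ε (C.cyl t f (2 * n) k (3 * L) (3 * L))
    {v | v ∉ C.side t k ∧ |lin Ch.pos f v| ≤ 4 * L}) ∧
  ∀ l : ℝ, L / 4 ≤ l → l ≤ L / 2 → Likely G p K M ε (C.cyl t f (2 * n) (2 * n) L l)
    {v | v ∉ C.side f l ∧ |lin Ch.pos t v| ≤ 3 * n}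

variable (G) in
/-- In some window, at least `M` hits with probability at least `1 - ε`. -/
def LikelyHit (p : ℝ) (K : Finset V) (M : ℕ) (ε : ℝ) (P Side : Set V) : Prop :=
  ∃ Λ : Finset V, 1 - ε ≤ Pr (fun _ : WE G Λ => p) (hitEv G Λ P Side K M)

/-- The finite criterion: whatever the lateral aim `d`, many exits beyond the plane `T` within
two units of it, from a region reaching forty units beyond the interval between `0` and `d`. -/
def Steer (C : Cut Ch) (p : ℝ) (K : Finset V) (M : ℕ) (ε : ℝ) (t s : ℝ × ℝ) (T : ℕ) : Prop :=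
  ∀ d : ℤ, |d| ≤ 150 →
    LikelyHit G p K M ε (C.cyl t s T T (40 - min (0 : ℝ) d) (40 + max (0 : ℝ) d))
      {v | v ∉ C.side t T ∧ |lin Ch.pos s v - d| ≤ 2}

end Vale.Agent.P151.Zt
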