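import Vale.Agent.P151.Zt.Cayley
import Vale.Agent.P151.Zt.Defs

/-!
# Charts on Cayley graphs

A homomorphism of a finite-index subgroup onto `ℤ ^ 2` gives a chart on every Cayley graph of the
group.
-/

namespace Vale.Agent.P151.Zt

open Vale.Agent.P165

variable {Γ : Type} [Group Γ] [DecidableEq Γ] {S : Finset Γ}

theorem toPlane_eq_gridPt (z : Z2) : toPlane z = gridPt z.toAdd := rfl

theorem size_le_two_norm (x : ℝ × ℝ) : size x ≤ 2 * ‖x‖ := by
  have h1 := norm_fst_le x
  have h2 := norm_snd_le x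
  rw [Real.norm_eq_abs] at h1 h2
  rw [size]
  linarith

omit [DecidableEq Γ] in
/-- The chart of a finite-index subgroup with a homomorphism onto `ℤ ^ 2`. -/
theorem chart_of_map (hS : Gens S) (H : Subgroup Γ) [H.FiniteIndex] (f : H →* Z2)
    (hf : Function.Surjective f) : Nonempty (Chart (cayley S)) := by
  obtain ⟨pos, heq, ⟨R, hR⟩, ⟨L, hL⟩, -⟩ := exists_pos S H f hf
  refine ⟨{
    pos := fun v => pos v - pos 1
    o := 1
    pos_o := sub_self _
    shift := fun z => ?_
    orbits := ⟨R, fun v => ?_⟩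
    short := ⟨2 * L, fun x y hxy => ?_⟩ }⟩
  · obtain ⟨h, hh⟩ := hf (Multiplicative.ofAdd z)
    refine ⟨translate hS h.1, fun v => ?_⟩
    show pos (h.1 * v) - pos 1 = pos v - pos 1 + gridPt z
    rw [heq, hh, toPlane_eq_gridPt, toAdd_ofAdd]
    abel
  · obtain ⟨h, r, hr, rfl⟩ := hR v
    refine ⟨translate hS h.1, (f h).toAdd, fun v => ?_, r, hr, rfl⟩
    show pos (h.1 * v) - pos 1 = pos v - pos 1 + gridPt _
    rw [heq, toPlane_eq_gridPt]
    abel
  · refine (size_le_two_norm _).trans (mul_le_mul_of_nonneg_left ?_ zero_le_two)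
    show ‖pos x - pos 1 - (pos y - pos 1)‖ ≤ L
    rw [sub_sub_sub_cancel_right, norm_sub_rev]
    have h := hL x _ (hS.adj.1 hxy)
    rwa [mul_inv_cancel_left] at h

/-- A finitely generated virtually nilpotent group that is not virtually cyclic has amenable
Cayley graphs with charts. -/
theorem chart_of_virtuallyNilpotent (hS : Gens S) (hconn : (cayley S).Connected)
    (hnil : Group.IsVirtuallyNilpotent Γ) (hcyc : ∀ x : Γ, ¬(Subgroup.zpowers x).FiniteIndex) :
    Zd.Amenable (cayley S) ∧ Nonempty (Chart (cayley S)) := by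
  refine ⟨amenable_of_folner hS (folner_of_virtuallyNilpotent hnil), ?_⟩
  have := fg_of_connected hS hconn
  obtain ⟨H, hH, f, hf⟩ := exists_map_Z2 Γ hnil hcyc
  exact chart_of_map hS H f hf

omit [DecidableEq Γ] in
/-- An amenable group that maps onto `ℤ ^ 2` has charts on its Cayley graphs. -/
theorem chart_of_surjective (hS : Gens S) (f : Γ →* Z2) (hf : Function.Surjective f) :
    Nonempty (Chart (cayley S)) :=
  chart_of_map hS ⊤ (f.comp (⊤ : Subgroup Γ).subtype)
    fun z => ⟨⟨(hf z).choose, Subgroup.mem_top _⟩, (hf z).choose_spec⟩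

end Vale.Agent.P151.Zt
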