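import Vale.Agent.P151.Zt.Subcritical

/-!
# Periodic lattices

A connected graph placed in `ℝ ^ k`, invariant under all integer shifts, with bounded steps and
finitely many vertices in a unit cell, is locally finite, amenable, and has a chart when `k ≥ 2`.
-/

open Finset Filter Topology

namespace Vale.Agent.P151.Zt

open Vale.Agent.P165

variable {V : Type} {G : SimpleGraph V}

/-- A locally finite connected graph with finitely many orbits has a listing of neighbours. -/
theorem exists_listing [Nontrivial V] (hc : G.Connected) (hfin : ∀ v, (G.neighborSet v).Finite)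
    {R : Finset V} (hR : ∀ v, ∃ φ : G ≃g G, ∃ r ∈ R, φ r = v) :
    ∃ (N : ℕ) (nb : V → Fin N → V), Listing G nb := by
  classical
  set N := R.sup fun r => (hfin r).toFinset.card with hN
  have hne : ∀ v, (hfin v).toFinset.Nonempty := fun v => by
    obtain ⟨w, hw⟩ := hc.preconnected.exists_adj_of_nontrivial v
    exact ⟨w, (hfin v).mem_toFinset.2 hw⟩
  have hcard : ∀ v, (hfin v).toFinset.card ≤ N := fun v => by
    obtain ⟨φ, r, hr, rfl⟩ := hR v
    refine le_trans ?_ (Finset.le_sup (f := fun r => (hfin r).toFinset.card) hr)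
    refine Finset.card_le_card_of_injOn φ.symm (fun w hw => ?_) φ.symm.injective.injOn
    have h : G.Adj (φ r) w := (hfin (φ r)).mem_toFinset.1 hw
    refine (hfin r).mem_toFinset.2 ?_
    have h' := φ.symm.map_adj_iff.2 h
    rwa [φ.symm_apply_apply] at h'
  have hlist : ∀ v, ∃ f : Fin N → V, ∀ w, G.Adj v w ↔ ∃ a, f a = w := by
    intro v
    obtain ⟨w₀, hw₀⟩ := hne v
    refine ⟨fun a => if h : (a : ℕ) < (hfin v).toFinset.card then
      ((hfin v).toFinset.equivFin.symm ⟨a, h⟩ : V) else w₀, fun w => ⟨fun h => ?_, ?_⟩⟩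
    · set i := (hfin v).toFinset.equivFin ⟨w, (hfin v).mem_toFinset.2 h⟩ with hi
      refine ⟨⟨i, i.2.trans_le (hcard v)⟩, ?_⟩
      dsimp only
      rw [dif_pos i.2, Fin.eta, hi, Equiv.symm_apply_apply]
    · rintro ⟨a, rfl⟩
      dsimp only
      split
      · exact (hfin v).mem_toFinset.1 (Finset.coe_mem _)
      · exact (hfin v).mem_toFinset.1 hw₀
  choose nb hnb using hlist
  exact ⟨N, nb, ⟨fun u v => hnb u v⟩⟩

/-- A chart makes the vertex type nontrivial. -/
theorem Chart.nontrivial (Ch : Chart G) : Nontrivial V := by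
  obtain ⟨φ, hφ⟩ := Ch.shift (1, 0)
  refine ⟨φ Ch.o, Ch.o, fun h => ?_⟩
  have e := hφ Ch.o
  rw [h, Ch.pos_o] at e
  simpa [gridPt] using congrArg Prod.fst e

/-- On a graph with a chart that is locally finite and amenable, `pc < 1` and there is no
infinite cluster at `pc`. -/
theorem critical_chart (hc : G.Connected) (hfin : ∀ v, (G.neighborSet v).Finite)
    (ha : Zd.Amenable G) (Ch : Chart G) :
    pc G < 1 ∧ ∀ p : unitInterval, (p : ℝ) = pc G →
      perc G p (hasInfinite G) = 0 := by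
  have := Ch.nontrivial
  obtain ⟨R, hR⟩ := Ch.orbits
  obtain ⟨N, nb, hl⟩ := exists_listing hc hfin (R := R) fun v => by
    obtain ⟨φ, z, -, r, hr, h⟩ := hR v
    exact ⟨φ, r, hr, h⟩
  exact ⟨pc_lt_one hl hc Ch, fun p hp =>
    critical_of_chart hl hc ha Ch (pc_lt_one hl hc Ch) p hp⟩

section Lattice

variable {k : ℕ} {pos : V → Fin k → ℝ}

/-- The vertices with all integer parts equal to `z`. -/
def cellAt (pos : V → Fin k → ℝ) (z : Fin k → ℤ) : Set V := {v | ∀ i, ⌊pos v i⌋ = z i}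

theorem cellAt_zero_eq : cellAt pos 0 = {v | ∀ i, pos v i ∈ Set.Ico (0 : ℝ) 1} := by
  ext v
  simp [cellAt, Int.floor_eq_zero_iff]

variable (hshift : ∀ z : Fin k → ℤ, ∃ φ : G ≃g G, ∀ v i, pos (φ v) i = pos v i + z i)
include hshift

/-- Every vertex is a shift of a vertex of the base cell. -/
theorem exists_shift_cell (v : V) : ∃ φ : G ≃g G,
    (∀ u i, pos (φ u) i = pos u i + (⌊pos v i⌋ : ℝ)) ∧ ∃ r ∈ cellAt pos 0, φ r = v := by
  obtain ⟨φ, hφ⟩ := hshift fun i => ⌊pos v i⌋
  refine ⟨φ, hφ, φ.symm v, fun i => ?_, φ.apply_symm_apply v⟩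
  have h := hφ (φ.symm v) i
  rw [φ.apply_symm_apply] at h
  show ⌊pos (φ.symm v) i⌋ = 0
  rw [show pos (φ.symm v) i = pos v i - (⌊pos v i⌋ : ℝ) by linarith, Int.floor_sub_intCast, sub_self]

/-- All cells are translates of the base cell. -/
theorem cellAt_eq_image (z : Fin k → ℤ) : ∃ φ : G ≃g G, cellAt pos z = φ '' cellAt pos 0 := by
  obtain ⟨φ, hφ⟩ := hshift z
  refine ⟨φ, Set.ext fun v => ⟨fun hv => ⟨φ.symm v, fun i => ?_, φ.apply_symm_apply v⟩, ?_⟩⟩
  · have h := hφ (φ.symm v) i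
    rw [φ.apply_symm_apply] at h
    show ⌊pos (φ.symm v) i⌋ = 0
    rw [show pos (φ.symm v) i = pos v i - (z i : ℝ) by linarith, Int.floor_sub_intCast, hv i,
      sub_self]
  · rintro ⟨r, hr, rfl⟩ i
    rw [hφ, Int.floor_add_intCast, hr i, Pi.zero_apply, zero_add]

variable (hcell : (cellAt pos 0).Finite)
include hcell

theorem finite_cellAt (z : Fin k → ℤ) : (cellAt pos z).Finite := by
  obtain ⟨φ, h⟩ := cellAt_eq_image hshift z
  exact h ▸ hcell.image _

/-- The vertices of the cells of a box of half width `n`. -/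
noncomputable def boxCells (n : ℕ) : Finset V := by
  classical
  exact (Fintype.piFinset fun _ : Fin k => Finset.Ico (-(n : ℤ)) n).biUnion fun z =>
    (finite_cellAt hshift hcell z).toFinset

theorem mem_boxCells {n : ℕ} {v : V} :
    v ∈ boxCells hshift hcell n ↔ ∀ i, -(n : ℤ) ≤ ⌊pos v i⌋ ∧ ⌊pos v i⌋ < n := by
  classical
  simp only [boxCells, mem_biUnion, Fintype.mem_piFinset, Finset.mem_Ico,
    Set.Finite.mem_toFinset, cellAt, Set.mem_ofPred_eq]
  constructor
  · rintro ⟨z, hz, h⟩ i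
    rw [h i]
    exact hz i
  · exact fun h => ⟨fun i => ⌊pos v i⌋, h, fun _ => rfl⟩

theorem card_boxCells (n : ℕ) :
    (boxCells hshift hcell n).card = (2 * n) ^ k * hcell.toFinset.card := by
  classical
  rw [boxCells, Finset.card_biUnion]
  · rw [Finset.sum_const_nat (m := hcell.toFinset.card)]
    · rw [Fintype.card_piFinset, Finset.prod_const, Finset.card_univ, Fintype.card_fin,
        Int.card_Ico, show ((n : ℤ) - -(n : ℤ)).toNat = 2 * n by omega]
    · intro z _
      obtain ⟨φ, h⟩ := cellAt_eq_image hshift z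
      rw [← Set.ncard_eq_toFinset_card _ (finite_cellAt hshift hcell z),
        ← Set.ncard_eq_toFinset_card _ hcell, h, Set.ncard_image_of_injective _ φ.injective]
  · intro z _ z' _ hne
    simp only [Function.onFun, Finset.disjoint_left, Set.Finite.mem_toFinset]
    exact fun v hv hv' => hne (funext fun i => (hv i).symm.trans (hv' i))

variable {L : ℝ} (hL : ∀ x y, G.Adj x y → ∀ i, |pos x i - pos y i| ≤ L)
include hL

/-- Steps reach boundedly many cells. -/
theorem adj_boxCells {n : ℕ} {u v : V} (h : G.Adj u v)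
    (hu : u ∈ boxCells hshift hcell n) : v ∈ boxCells hshift hcell (n + (⌈L⌉₊ + 1)) := by
  rw [mem_boxCells] at hu ⊢
  intro i
  obtain ⟨h1, h2⟩ := hu i
  have h3 := abs_le.1 (hL u v h i)
  have hc := Nat.le_ceil L
  have h4 : ((⌊pos u i⌋ : ℤ) : ℝ) + 1 ≤ (n : ℝ) := by exact_mod_cast h2
  have h5 : -(n : ℝ) ≤ ((⌊pos u i⌋ : ℤ) : ℝ) := by exact_mod_cast h1
  have h6 := Int.floor_le (pos u i)
  have h7 := Int.lt_floor_add_one (pos u i)
  constructor
  · rw [Int.le_floor]; push_cast; linarith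
  · rw [Int.floor_lt]; push_cast; linarith

theorem neighborSet_finite (v : V) : (G.neighborSet v).Finite := by
  obtain ⟨n, hn⟩ : ∃ n : ℕ, ∀ i, (⌊pos v i⌋).natAbs < n :=
    ⟨(Finset.univ.sup fun i => (⌊pos v i⌋).natAbs) + 1, fun i =>
      Nat.lt_succ_of_le (Finset.le_sup (f := fun i => (⌊pos v i⌋).natAbs) (Finset.mem_univ i))⟩
  refine (boxCells hshift hcell (n + (⌈L⌉₊ + 1))).finite_toSet.subset fun w hw => ?_
  refine adj_boxCells hshift hcell hL hw ((mem_boxCells hshift hcell).2 fun i => ?_)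
  have := hn i
  omega

/-- Periodic lattices are amenable. -/
theorem amenable_lattice [Nonempty V] : Zd.Amenable G := by
  classical
  intro ε hε
  set m := ⌈L⌉₊ + 1 with hm
  have hF : hcell.toFinset.Nonempty := by
    obtain ⟨φ, -, r, hr, -⟩ := exists_shift_cell hshift (Classical.arbitrary V)
    exact ⟨r, hcell.mem_toFinset.2 hr⟩
  have ht : Tendsto (fun n : ℕ => (1 + (m : ℝ) / n) ^ k - 1) atTop (𝓝 0) := by
    have := (((tendsto_const_div_atTop_nhds_zero_nat (m : ℝ)).const_add 1).pow k).sub_const 1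
    simpa using this
  obtain ⟨n, hn, hn1⟩ := ((ht.eventually (eventually_lt_nhds hε)).and (eventually_gt_atTop 0)).exists
  refine ⟨boxCells hshift hcell n, ?_, ?_⟩
  · rw [← Finset.card_pos, card_boxCells]
    exact Nat.mul_pos (pow_pos (by omega) _) hF.card_pos
  have hsub : boxCells hshift hcell n ⊆ boxCells hshift hcell (n + m) := fun v hv => by
    rw [mem_boxCells] at hv ⊢
    intro i
    have := hv i
    push_cast
    omega
  have hb : vertexBoundary G (boxCells hshift hcell n)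
      ⊆ ↑(boxCells hshift hcell (n + m) \ boxCells hshift hcell n) := by
    rintro v ⟨hv, u, hu, huv⟩
    exact Finset.mem_coe.2 (Finset.mem_sdiff.2 ⟨adj_boxCells hshift hcell hL huv hu, hv⟩)
  have hle := Set.ncard_le_ncard hb (Finset.finite_toSet _)
  rw [Set.ncard_coe_finset, Finset.card_sdiff_of_subset hsub] at hle
  refine (Nat.cast_le.2 hle).trans ?_
  rw [Nat.cast_sub (Finset.card_le_card hsub), card_boxCells, card_boxCells]
  push_cast
  have hn0 : (0 : ℝ) < n := Nat.cast_pos.2 hn1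
  have hfac : (2 * ((n : ℝ) + m)) ^ k = (2 * (n : ℝ)) ^ k * (1 + (m : ℝ) / n) ^ k := by
    rw [← mul_pow]
    congr 1
    field_simp
  rw [hfac]
  have hpos : (0 : ℝ) ≤ (2 * (n : ℝ)) ^ k * hcell.toFinset.card := by positivity
  nlinarith [mul_le_mul_of_nonneg_left hn.le hpos]

omit hcell hL in
/-- The first two coordinates give a chart. -/
theorem chart_lattice (hk : 2 ≤ k) (hcell' : (cellAt pos 0).Finite) [Nonempty V] {L' : ℝ}
    (hL' : ∀ x y, G.Adj x y → ∀ i, |pos x i - pos y i| ≤ L') : Nonempty (Chart G) := by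
  classical
  let i₀ : Fin k := ⟨0, by omega⟩
  let i₁ : Fin k := ⟨1, by omega⟩
  have h01 : i₁ ≠ i₀ := by simp [i₀, i₁]
  obtain ⟨o⟩ := ‹Nonempty V›
  refine ⟨{
    pos := fun v => (pos v i₀ - pos o i₀, pos v i₁ - pos o i₁)
    o := o
    pos_o := by simp
    shift := fun z => ?_
    orbits := ⟨hcell'.toFinset, fun v => ?_⟩
    short := ⟨L' + L', fun x y h => ?_⟩ }⟩
  · obtain ⟨φ, hφ⟩ := hshift fun i => if i = i₀ then z.1 else if i = i₁ then z.2 else 0
    refine ⟨φ, fun v => ?_⟩
    show (pos (φ v) i₀ - pos o i₀, pos (φ v) i₁ - pos o i₁) = _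
    rw [hφ, hφ, if_pos rfl, if_neg h01, if_pos rfl]
    exact Prod.ext (by simp [gridPt]; ring) (by simp [gridPt]; ring)
  · obtain ⟨φ, hφ, r, hr, hrv⟩ := exists_shift_cell hshift v
    refine ⟨φ, (⌊pos v i₀⌋, ⌊pos v i₁⌋), fun u => ?_, r, hcell'.mem_toFinset.2 hr, hrv⟩
    show (pos (φ u) i₀ - pos o i₀, pos (φ u) i₁ - pos o i₁) = _
    rw [hφ, hφ]
    exact Prod.ext (by simp [gridPt]; ring) (by simp [gridPt]; ring)
  · simpa [size] using add_le_add (hL' x y h i₀) (hL' x y h i₁)

end Lattice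

/-- A periodic lattice of dimension at least two has `pc < 1` and no infinite cluster at `pc`. -/
theorem critical_lattice {k : ℕ} (hk : 2 ≤ k) {pos : V → Fin k → ℝ} (hc : G.Connected)
    (hshift : ∀ z : Fin k → ℤ, ∃ φ : G ≃g G, ∀ v i, pos (φ v) i = pos v i + z i)
    (hcell : {v | ∀ i, pos v i ∈ Set.Ico (0 : ℝ) 1}.Finite) {L : ℝ}
    (hL : ∀ x y, G.Adj x y → ∀ i, |pos x i - pos y i| ≤ L) :
    pc G < 1 ∧ ∀ p : unitInterval, (p : ℝ) = pc G →
      perc G p (hasInfinite G) = 0 := by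
  rw [← cellAt_zero_eq] at hcell
  have := hc.nonempty
  obtain ⟨Ch⟩ := chart_lattice hshift hk hcell hL
  exact critical_chart hc (neighborSet_finite hshift hcell hL)
    (amenable_lattice hshift hcell hL) Ch

end Vale.Agent.P151.Zt
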