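import Vale.Agent.P151.Zt.Window
import Vale.Agent.P151.Renorm.Transfer

/-!
# Moving a window by an automorphism

An event of a small window, moved by an automorphism into a larger one, keeps its probability;
a cluster of the small window is moved into a cluster of the larger one.
-/

open Finset

namespace Vale.Agent.P151.Zt

open Glue0

variable {V : Type} {G : SimpleGraph V} {Λ₀ Λ : Finset V}

/-- The vertex moved. -/
def moveV (φ : G ≃g G) (h : ∀ v ∈ Λ₀, φ v ∈ Λ) (v : WV Λ₀) : WV Λ := ⟨φ v, h v v.2⟩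

/-- The edge moved. -/
def moveE (φ : G ≃g G) (h : ∀ v ∈ Λ₀, φ v ∈ Λ) (e : WE G Λ₀) : WE G Λ :=
  ⟨φ.mapEdgeSet e.1, fun x hx => by
    have hx' : x ∈ Sym2.map φ (e.1 : Sym2 V) := hx
    rw [Sym2.mem_map] at hx'
    obtain ⟨y, hy, rfl⟩ := hx'
    exact h y (e.2 y hy)⟩

theorem moveV_injective (φ : G ≃g G) (h : ∀ v ∈ Λ₀, φ v ∈ Λ) :
    Function.Injective (moveV φ h) := fun _ _ e =>
  Subtype.ext (φ.injective (congrArg Subtype.val e))

theorem moveE_injective (φ : G ≃g G) (h : ∀ v ∈ Λ₀, φ v ∈ Λ) :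
    Function.Injective (moveE φ h) := fun _ _ e =>
  Subtype.ext (φ.mapEdgeSet.injective (congrArg Subtype.val e))

/-- The event seen at the moved place. -/
def moveEv (φ : G ≃g G) (h : ∀ v ∈ Λ₀, φ v ∈ Λ) (H : Set (WE G Λ₀ → Bool)) :
    Set (WE G Λ → Bool) :=
  {w | w ∘ moveE φ h ∈ H}

theorem moveEv_upper (φ : G ≃g G) (h : ∀ v ∈ Λ₀, φ v ∈ Λ) {H : Set (WE G Λ₀ → Bool)}
    (hH : IsUpperSet H) : IsUpperSet (moveEv φ h H) := fun _ _ hle hw =>
  hH (fun e => hle (moveE φ h e)) hw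

theorem moveEv_local (φ : G ≃g G) (h : ∀ v ∈ Λ₀, φ v ∈ Λ) {H : Set (WE G Λ₀ → Bool)}
    {B : Set (WE G Λ₀)} (hB : LocalEv B H) :
    LocalEv (moveE φ h '' B) (moveEv φ h H) := fun _ _ hw =>
  hB _ _ fun e he => hw _ ⟨e, he, rfl⟩

/-- A moved event keeps its probability. -/
theorem Pr_moveEv (φ : G ≃g G) (h : ∀ v ∈ Λ₀, φ v ∈ Λ) (p : ℝ) (H : Set (WE G Λ₀ → Bool)) :
    Pr (fun _ => p) (moveEv φ h H) = Pr (fun _ => p) H :=
  Renorm.Pr_comp (fun _ : WE G Λ => p) (moveE_injective φ h) H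

/-- The ends of a moved edge are the moved ends. -/
theorem wEnds_moveE (φ : G ≃g G) (h : ∀ v ∈ Λ₀, φ v ∈ Λ) (e : WE G Λ₀) :
    wEnds G Λ (moveE φ h e) = (moveV φ h (wEnds G Λ₀ e).1, moveV φ h (wEnds G Λ₀ e).2) ∨
      wEnds G Λ (moveE φ h e) = (moveV φ h (wEnds G Λ₀ e).2, moveV φ h (wEnds G Λ₀ e).1) := by
  have h1 := wEnds_sym2 (moveE φ h e)
  have h2 : ((moveE φ h e).1 : Sym2 V) = Sym2.map φ (e.1 : Sym2 V) := rfl
  rw [h2, ← wEnds_sym2 e, Sym2.map_mk, Sym2.eq_iff] at h1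
  rcases h1 with ⟨a, b⟩ | ⟨a, b⟩
  · exact Or.inl (Prod.ext (Subtype.ext a) (Subtype.ext b))
  · exact Or.inr (Prod.ext (Subtype.ext a) (Subtype.ext b))

/-- A cluster of the small window, using the edges of `B`, is moved into the cluster using the
moved edges. -/
theorem cluster_move (φ : G ≃g G) (h : ∀ v ∈ Λ₀, φ v ∈ Λ) (B : Set (WE G Λ₀))
    (w : WE G Λ → Bool) (x : WV Λ₀) {y : WV Λ₀}
    (hy : y ∈ cluster (wEnds G Λ₀) (shut Bᶜ (w ∘ moveE φ h)) x) :
    moveV φ h y ∈ cluster (wEnds G Λ) (shut (moveE φ h '' B)ᶜ w) (moveV φ h x) := by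
  induction hy with
  | refl => exact mem_cluster_self _ _
  | @tail b b' _ hbb ih =>
    obtain ⟨e, he, he'⟩ := hbb
    have heB : e ∈ B := by
      by_contra hn
      simp [shut, hn] at he
    have hopen : shut (moveE φ h '' B)ᶜ w (moveE φ h e) = true := by
      simp [shut, heB] at he
      rw [shut, if_neg (show moveE φ h e ∉ (moveE φ h '' B)ᶜ from
        not_not_intro (Set.mem_image_of_mem _ heB))]
      exact he
    refine Relation.ReflTransGen.tail ih ⟨moveE φ h e, hopen, ?_⟩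
    rcases wEnds_moveE φ h e with h3 | h3 <;> rcases he' with he' | he' <;> rw [he'] at h3
    exacts [Or.inl h3, Or.inr h3, Or.inr h3, Or.inl h3]

end Vale.Agent.P151.Zt
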