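import Vale.Agent.P151.Zt.System

/-!
# The next level of the renormalisation

A position of the next level is hit if two positions of the present level are hit, the second
one without the edges that the lanes starting at the first one may use. Two disjoint lanes lead
to two versions of the target, so the failure probability of a step is squared.
-/

namespace Vale.Agent.P151.Zt

open Glue0

variable {V E : Type} [Fintype V] [DecidableEq V] [Fintype E] [DecidableEq E]
  {F : Frame V E} {N r A B p ε : ℝ} {a : V}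

/-- The path of a lane: towards `z` until time `96`, then away in the direction `σ`. -/
def lanePath (x z σ : ℤ) (k : ℕ) : ℤ :=
  if k ≤ 96 then x + max (-(k : ℤ)) (min (k : ℤ) (z - x)) else z + σ * ((k : ℤ) - 96)

/-- The edges that a lane may use. -/
def laneEdges (F : Frame V E) (A B r : ℝ) (t x z : ℤ) : Set E :=
  {e | ∃ k : ℕ, k < 100 ∧ ∃ σ : ℤ, (σ = -1 ∨ σ = 1) ∧
    e ∈ F.region A B r (t + k) (lanePath x z σ k)
      (lanePath x z σ (k + 1) - lanePath x z σ k)}

/-- The edges reserved at a position of the next level. -/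
def reserved (F : Frame V E) (A B r : ℝ) (t s v : ℤ) : Set E :=
  {e | ∃ δ : ℤ, |δ| ≤ 1 ∧
    e ∈ laneEdges F A B r (100 * t) (64 * s + 12 * v - 4) (64 * (s + δ) - 12)}

theorem lanePath_step {x z σ : ℤ} (hσ : σ = -1 ∨ σ = 1) (hD : |z - x| ≤ 96) (k : ℕ) :
    |lanePath x z σ (k + 1) - lanePath x z σ k| ≤ 1 := by
  rw [abs_le] at hD ⊢
  unfold lanePath
  rcases hσ with h | h <;> subst h <;> split_ifs <;> push_cast <;> omega

theorem lanePath_end {x z σ : ℤ} (hD : |z - x| ≤ 96) : lanePath x z σ 96 = z := by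
  rw [abs_le] at hD
  unfold lanePath
  rw [if_pos le_rfl]
  omega

theorem lanePath_hundred (x z σ : ℤ) : lanePath x z σ 100 = z + σ * 4 := by
  simp [lanePath]

theorem lanePath_congr {x z σ σ' : ℤ} {k : ℕ} (hk : k ≤ 96) :
    lanePath x z σ k = lanePath x z σ' k := by
  simp [lanePath, hk]

omit [Fintype V] [DecidableEq V] [Fintype E] [DecidableEq E] in
/-- An edge inside two regions gives a common point. -/
theorem region_common {t s δ t' s' δ' : ℤ} {e : E}
    (h : e ∈ F.region A B r t s δ) (h' : e ∈ F.region A B r t' s' δ') :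
    A * ((t - 1 : ℤ) : ℝ) ≤ A * ((t' + 1 : ℤ) : ℝ) + r ∧
      A * ((t' - 1 : ℤ) : ℝ) ≤ A * ((t + 1 : ℤ) : ℝ) + r ∧
      B * ((min s (s + δ) - 1 : ℤ) : ℝ) ≤ B * ((max s' (s' + δ') + 1 : ℤ) : ℝ) ∧
      B * ((min s' (s' + δ') - 1 : ℤ) : ℝ) ≤ B * ((max s (s + δ) + 1 : ℤ) : ℝ) := by
  obtain ⟨⟨a1, a2, a3, a4⟩, -⟩ := h
  obtain ⟨⟨b1, b2, b3, b4⟩, -⟩ := h'
  exact ⟨a1.trans b2, b1.trans a2, a3.trans b4, b3.trans a4⟩

theorem time_le (hr0 : 0 ≤ r) (hr : r < A) {u u' : ℤ} (h : A * (u : ℝ) ≤ A * (u' : ℝ) + r) :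
    u ≤ u' := by
  by_contra hc
  have h1 : A * ((u' + 1 : ℤ) : ℝ) ≤ A * (u : ℝ) :=
    mul_le_mul_of_nonneg_left (by exact_mod_cast (show u' + 1 ≤ u by omega)) (hr0.trans hr.le)
  push_cast at h1
  linarith [mul_add A (u' : ℝ) 1]

theorem lateral_le (hB : 0 < B) {u u' : ℤ} (h : B * (u : ℝ) ≤ B * (u' : ℝ)) : u ≤ u' := by
  exact_mod_cast le_of_mul_le_mul_left h hB

theorem lanePath_bounds {x z σ : ℤ} (hσ : σ = -1 ∨ σ = 1) (hD : |z - x| ≤ 96) {k : ℕ}
    (hk : k < 100) :
    max (lanePath x z σ k) (lanePath x z σ (k + 1)) ≤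
        (if k ≤ 94 then x + max (-(k : ℤ)) (min (k : ℤ) (z - x)) + 1 else z + 5) ∧
      (if k ≤ 94 then x + max (-(k : ℤ)) (min (k : ℤ) (z - x)) - 1 else z - 5) ≤
        min (lanePath x z σ k) (lanePath x z σ (k + 1)) := by
  rw [abs_le] at hD
  by_cases h : k ≤ 94
  · simp only [lanePath, show k ≤ 96 by omega, show k + 1 ≤ 96 by omega, h, if_true]
    constructor <;> push_cast <;> omega
  · simp only [h, if_false]
    unfold lanePath
    rcases hσ with hs | hs <;> subst hs <;> split_ifs <;> constructor <;> push_cast <;> omega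

omit [Fintype V] [DecidableEq V] [Fintype E] [DecidableEq E] in
/-- Two lanes that start at distance `8` and whose targets are `24` apart are disjoint. -/
theorem lanes_disjoint (hr0 : 0 ≤ r) (hr : r < A) (hB : 0 < B) {t x z : ℤ} (hD : |z - x| ≤ 96)
    (hD' : |z + 24 - (x + 8)| ≤ 96) {e : E} (h : e ∈ laneEdges F A B r t x z) :
    e ∉ laneEdges F A B r t (x + 8) (z + 24) := by
  rintro ⟨k', hk', σ', hσ', he'⟩
  obtain ⟨k, hk, σ, hσ, he⟩ := h
  obtain ⟨h1, h2, -, h4⟩ := region_common he he'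
  have h1 := time_le hr0 hr h1
  have h2 := time_le hr0 hr h2
  have h4 := lateral_le hB h4
  rw [add_sub_cancel, add_sub_cancel] at h4
  obtain ⟨g1, -⟩ := lanePath_bounds hσ hD hk
  obtain ⟨-, g2⟩ := lanePath_bounds hσ' hD' hk'
  rw [abs_le] at hD hD'
  split_ifs at g1 g2 <;> omega

omit [Fintype V] [DecidableEq V] [Fintype E] [DecidableEq E] in
/-- The regions of the steps of a lane lie in the region of the step of the next level. -/
theorem laneEdges_subset (hA : 0 ≤ A) (hB : 0 ≤ B) {t s δ x z : ℤ} (hδ : |δ| ≤ 1)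
    (hx : |x - 64 * s| ≤ 16) (hz : |z - 64 * (s + δ)| ≤ 12) :
    laneEdges F A B r (100 * t) x z ⊆ F.region (100 * A) (64 * B) r t s δ := by
  rintro e ⟨k, hk, σ, hσ, he⟩
  rw [abs_le] at hδ hx hz
  have g1 : 100 * (t - 1) ≤ 100 * t + k - 1 := by omega
  have g2 : 100 * t + k + 1 ≤ 100 * (t + 1) := by omega
  have g3 : 64 * (min s (s + δ) - 1) ≤ min (lanePath x z σ k) (lanePath x z σ k +
      (lanePath x z σ (k + 1) - lanePath x z σ k)) - 1 := by
    rcases hσ with hs | hs <;> subst hs <;> unfold lanePath <;> split_ifs <;> push_cast <;> omega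
  have g4 : max (lanePath x z σ k) (lanePath x z σ k +
      (lanePath x z σ (k + 1) - lanePath x z σ k)) + 1 ≤ 64 * (max s (s + δ) + 1) := by
    rcases hσ with hs | hs <;> subst hs <;> unfold lanePath <;> split_ifs <;> push_cast <;> omega
  have f1 := mul_le_mul_of_nonneg_left (Int.cast_le.2 g1 : _ ≤ (_ : ℝ)) hA
  have f2 := mul_le_mul_of_nonneg_left (Int.cast_le.2 g2 : _ ≤ (_ : ℝ)) hA
  have f3 := mul_le_mul_of_nonneg_left (Int.cast_le.2 g3 : _ ≤ (_ : ℝ)) hB
  have f4 := mul_le_mul_of_nonneg_left (Int.cast_le.2 g4 : _ ≤ (_ : ℝ)) hB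
  obtain ⟨⟨a1, a2, a3, a4⟩, ⟨b1, b2, b3, b4⟩⟩ := he
  push_cast at f1 f2 f3 f4 a1 a2 a3 a4 b1 b2 b3 b4
  refine ⟨⟨?_, ?_, ?_, ?_⟩, ⟨?_, ?_, ?_, ?_⟩⟩ <;> push_cast <;> linarith

theorem Pr_diff_le {q : E → ℝ} (hq : ∀ e, q e ∈ Set.Icc (0 : ℝ) 1)
    (X Y Z : Set (E → Bool)) : Pr q (X \ Z) ≤ Pr q (X \ Y) + Pr q (Y \ Z) :=
  (Pr_mono hq fun w hw => by
    by_cases h : w ∈ Y
    · exact Or.inr ⟨h, hw.2⟩
    · exact Or.inl ⟨hw.1, h⟩).trans (Pr_union_le hq _ _)

/-- A chain of steps fails with at most the sum of their failure probabilities. -/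
theorem chain_le (S : System F N p r A B ε a) {q : E → ℝ}
    (hq : ∀ e, q e ∈ Set.Icc (0 : ℝ) 1) (t : ℤ) (f : ℕ → ℤ) (i k : ℕ)
    (h : ∀ j, i ≤ j → j < i + k → |f (j + 1) - f j| ≤ 1 ∧ Fits N A B (t + j) (f j) ∧
      Admissible F A B r p (t + j) (f j) (f (j + 1) - f j) q) :
    Pr q (S.Hit (t + i) (f i) \ S.Hit (t + (i + k : ℕ)) (f (i + k))) ≤ k * ε := by
  induction k with
  | zero => simp [Pr, Set.indicator_empty, Ev_const]
  | succ k ih =>
    obtain ⟨h1, h2, h3⟩ := h (i + k) (by omega) (by omega)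
    have hs := S.step _ _ _ q h1 h2 h3
    rw [add_sub_cancel, add_assoc, ← Nat.cast_succ] at hs
    have ih := ih fun j hj hj' => h j hj (by omega)
    have hd := Pr_diff_le hq (S.Hit (t + i) (f i)) (S.Hit (t + (i + k : ℕ)) (f (i + k)))
      (S.Hit (t + (i + (k + 1) : ℕ)) (f (i + (k + 1))))
    push_cast [add_assoc] at hd hs ih ⊢
    linarith

/-- A lane followed from its step `i` fails with probability at most `104 ε`. -/
theorem lane_le (S : System F N p r A B ε a) (hε : 0 ≤ ε) {q : E → ℝ}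
    (hq : ∀ e, q e ∈ Set.Icc (0 : ℝ) 1) {t x z : ℤ} (hD : |z - x| ≤ 96) {i : ℕ} (hi : i ≤ 96)
    (U : Set (E))
    (hU : ∀ e ∈ U, e ∉ F.halfSpace (A * ((t + 96 : ℤ) : ℝ) + r) ∧
      ∀ k : ℕ, 96 ≤ k → k < 100 → e ∉ F.region A B r (t + k) (lanePath x z 1 k)
        (lanePath x z 1 (k + 1) - lanePath x z 1 k))
    (hadm : ∀ k : ℕ, i ≤ k → k < 100 → ∀ σ : ℤ, (σ = -1 ∨ σ = 1) →
      Fits N A B (t + k) (lanePath x z σ k) ∧ Admissible F A B r p (t + k) (lanePath x z σ k)
        (lanePath x z σ (k + 1) - lanePath x z σ k) q) :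
    Pr q (S.Hit (t + i) (lanePath x z (-1) i) \
      (S.Hit (t + 100) (z - 4) ∩ whenShut U (S.Hit (t + 100) (z + 4)))) ≤ 104 * ε := by
  have c1 := chain_le S hq t (lanePath x z (-1)) i (96 - i) fun j hj hj' =>
    ⟨lanePath_step (Or.inl rfl) hD j, hadm j hj (by omega) _ (Or.inl rfl)⟩
  rw [Nat.add_sub_cancel' hi, lanePath_end hD] at c1
  have c2 := chain_le S hq t (lanePath x z (-1)) 96 4 fun j hj hj' =>
    ⟨lanePath_step (Or.inl rfl) hD j, hadm j (hi.trans hj) (by omega) _ (Or.inl rfl)⟩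
  rw [lanePath_end hD] at c2
  have c3 := chain_le S (q := closeW U q) (closeW_mem hq U) t (lanePath x z 1) 96 4
    fun j hj hj' => by
      obtain ⟨hfit, -, h2⟩ := hadm j (hi.trans hj) (by omega) 1 (Or.inr rfl)
      refine ⟨lanePath_step (Or.inr rfl) hD j, hfit, closeW_mem hq U, fun e he => ?_⟩
      have heU : e ∉ U := fun h => (hU e h).2 j hj (by omega) he
      simpa [closeW, heU] using h2 e he
  rw [lanePath_end hD, Pr_closeW] at c3
  simp only [Nat.reduceAdd, lanePath_hundred, Nat.cast_ofNat] at c1 c2 c3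
  simp only [neg_mul, one_mul, ← sub_eq_add_neg] at c2 c3
  have hsame : whenShut U (S.Hit (t + 96) z) = S.Hit (t + 96) z := by
    ext w
    refine S.local_hit _ _ (shut U w) w fun e he => ?_
    have : e ∉ U := fun h => (hU e h).1 he
    simp [shut, this]
  have h3 : Pr q (S.Hit (t + 96) z \ whenShut U (S.Hit (t + 100) (z + 4))) ≤ 4 * ε := by
    refine le_trans (le_of_eq ?_) c3
    conv_lhs => rw [← hsame]
    rfl
  have hd := Pr_diff_le hq (S.Hit (t + i) (lanePath x z (-1) i)) (S.Hit (t + 96) z)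
    (S.Hit (t + 100) (z - 4) ∩ whenShut U (S.Hit (t + 100) (z + 4)))
  have hu : Pr q (S.Hit (t + 96) z \
      (S.Hit (t + 100) (z - 4) ∩ whenShut U (S.Hit (t + 100) (z + 4)))) ≤ 4 * ε + 4 * ε := by
    rw [Set.sdiff_inter]
    exact (Pr_union_le hq _ _).trans (add_le_add c2 h3)
  have hle : ((96 - i : ℕ) : ℝ) * ε ≤ 96 * ε := by
    gcongr
    exact_mod_cast Nat.sub_le 96 i
  linarith

omit [Fintype V] [DecidableEq V] [Fintype E] [DecidableEq E] in
/-- The edges reserved at the target avoid what precedes it. -/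
theorem reserved_avoid (hr0 : 0 ≤ r) (hr : r < A) (hB : 0 < B) {t s v x : ℤ} {t₀ : ℤ}
    (ht : t₀ + 100 = 100 * t) {e : E} (he : e ∈ reserved F A B r t s v) :
    e ∉ F.halfSpace (A * ((t₀ + 96 : ℤ) : ℝ) + r) ∧
      ∀ k : ℕ, 96 ≤ k → k < 100 → e ∉ F.region A B r (t₀ + k) (lanePath x (64 * s + 12 * v) 1 k)
        (lanePath x (64 * s + 12 * v) 1 (k + 1) - lanePath x (64 * s + 12 * v) 1 k) := by
  obtain ⟨δ, -, k, hk, σ, hσ, he⟩ := he
  refine ⟨fun h => ?_, fun k' hk1 hk2 h => ?_⟩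
  · have := time_le hr0 hr (he.1.1.trans h.1)
    omega
  · obtain ⟨h1, h2, -, h4⟩ := region_common he h
    have h1 := time_le hr0 hr h1
    have h4 := lateral_le hB h4
    have hk' : k ≤ 1 := by omega
    rcases hσ with hs | hs <;> subst hs <;>
      simp only [lanePath, show k ≤ 96 by omega, show k + 1 ≤ 96 by omega, if_true] at h4 <;>
      split_ifs at h4 <;> push_cast at h1 h4 <;> omega

/-- A version of a position of the next level. -/
def version (S : System F N p r A B ε a) (t s v : ℤ) : Set (E → Bool) :=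
  S.Hit (100 * t) (64 * s + 12 * v - 4) ∩
    whenShut (reserved F A B r t s v) (S.Hit (100 * t) (64 * s + 12 * v + 4))

theorem version_upper (S : System F N p r A B ε a) (t s v : ℤ) :
    IsUpperSet (version S t s v) := fun w w' h hw => by
  refine ⟨S.mono _ _ h hw.1, S.mono _ _ (fun e => ?_) hw.2⟩
  by_cases he : e ∈ reserved F A B r t s v
  · simp [shut, he]
  · simpa [shut, he] using h e

theorem version_local (S : System F N p r A B ε a) (t s v : ℤ) :
    LocalEv (F.halfSpace (100 * A * (t : ℝ) + r)) (version S t s v) := by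
  have hX : 100 * A * (t : ℝ) + r = A * ((100 * t : ℤ) : ℝ) + r := by push_cast; ring
  rw [hX]
  intro w w' h
  refine and_congr (S.local_hit _ _ w w' h) (S.local_hit _ _ _ _ fun e he => ?_)
  by_cases hu : e ∈ reserved F A B r t s v
  · simp [shut, hu]
  · simp [shut, hu, h e he]

/-- Both lanes fail. -/
theorem version_step (hr0 : 0 ≤ r) (hr : r < A) (hB : 0 < B) (hε : 0 ≤ ε) (S : System F N p r A B ε a)
    {t s δ v : ℤ} (hv : v = -1 ∨ v = 1) (hδ : |δ| ≤ 1) (hfit : Fits N (100 * A) (64 * B) t s)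
    {q : E → ℝ} (hq : Admissible F (100 * A) (64 * B) r p t s δ q) :
    Pr q (version S t s v \
      (version S (t + 1) (s + δ) (-1) ∪ version S (t + 1) (s + δ) 1)) ≤
      (104 * ε) ^ 2 := by
  obtain ⟨x, hx⟩ : ∃ x, x = 64 * s + 12 * v - 4 := ⟨_, rfl⟩
  have hδ' := abs_le.1 hδ
  have hA : 0 ≤ A := hr0.trans hr.le
  have hD : |64 * (s + δ) + 12 * (-1) - x| ≤ 96 := by
    rw [abs_le]; rcases hv with h | h <;> subst h <;> omega
  have hD' : |64 * (s + δ) + 12 * 1 - (x + 8)| ≤ 96 := by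
    rw [abs_le]; rcases hv with h | h <;> subst h <;> omega
  -- a lane succeeds whatever happens outside its regions
  have lane : ∀ (w : ℤ) (y : ℤ) (q' : E → ℝ), |64 * (s + δ) + 12 * w - y| ≤ 96 →
      |y - 64 * s| ≤ 16 → (w = -1 ∨ w = 1) → (∀ e, q' e ∈ Set.Icc (0 : ℝ) 1) →
      (∀ e ∈ laneEdges F A B r (100 * t) y (64 * (s + δ) + 12 * w), q' e = q e) →
      Pr q' (S.Hit (100 * t) y \ version S (t + 1) (s + δ) w) ≤ 104 * ε := by
    intro w y q' hw hy hw1 hq' heq
    have h := lane_le S hε hq' hw (t := 100 * t) (i := 0) (by omega)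
      (reserved F A B r (t + 1) (s + δ) w)
      (fun e he => reserved_avoid hr0 hr hB (by ring) he) ?_
    · have h0 : lanePath y (64 * (s + δ) + 12 * w) (-1) 0 = y := by simp [lanePath]
      have ht : (100 * t + 100 : ℤ) = 100 * (t + 1) := by ring
      rw [h0, Nat.cast_zero, add_zero, ht] at h
      exact h
    · intro k _ hk σ hσ
      have hsub : F.region A B r (100 * t + k) (lanePath y (64 * (s + δ) + 12 * w) σ k)
          (lanePath y (64 * (s + δ) + 12 * w) σ (k + 1) -
            lanePath y (64 * (s + δ) + 12 * w) σ k) ⊆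
          laneEdges F A B r (100 * t) y (64 * (s + δ) + 12 * w) :=
        fun e he => ⟨k, hk, σ, hσ, he⟩
      have hbig := laneEdges_subset (hr0.trans hr.le) hB.le (F := F) (A := A) (B := B) (r := r) (t := t) hδ hy
        (show |64 * (s + δ) + 12 * w - 64 * (s + δ)| ≤ 12 by
          rcases hw1 with h | h <;> subst h <;> simp)
      refine ⟨⟨?_, ?_⟩, hq', fun e he => ?_⟩
      · have : |100 * t + (k : ℤ)| + 2 ≤ 100 * (|t| + 2) := by
          rcases abs_cases t with h | h <;> rcases abs_cases (100 * t + (k : ℤ)) with h' | h' <;>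
            omega
        have := mul_le_mul_of_nonneg_left (Int.cast_le.2 this : _ ≤ (_ : ℝ)) hA
        have h1 := hfit.1
        push_cast at this h1 ⊢
        linarith
      · have : |lanePath y (64 * (s + δ) + 12 * w) σ k| + 2 ≤ 64 * (|s| + 2) := by
          rw [abs_le] at hy
          have hs1 := le_abs_self s
          have hs2 := neg_le_abs s
          rw [← le_sub_iff_add_le, abs_le]
          unfold lanePath
          rcases hσ with h | h <;> subst h <;> rcases hw1 with h | h <;> subst h <;>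
            split_ifs <;> omega
        have := mul_le_mul_of_nonneg_left (Int.cast_le.2 this : _ ≤ (_ : ℝ)) hB.le
        have h1 := hfit.2
        push_cast at this h1 ⊢
        linarith
      · rw [heq e (hsub he)]
        refine ⟨(hq.2 e (hbig (hsub he))).1, fun hout => (hq.2 e (hbig (hsub he))).2 fun hin => ?_⟩
        have h0 := mul_nonneg hA (Nat.cast_nonneg (α := ℝ) k)
        refine hout ⟨hin.1.trans ?_, hin.2.trans ?_⟩ <;>
        · push_cast
          linarith
  -- the lane from the lower member and the lane from the upper member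
  set R := laneEdges F A B r (100 * t) x (64 * (s + δ) + 12 * (-1)) with hR
  have hxs : |x - 64 * s| ≤ 16 := by rw [abs_le]; rcases hv with h | h <;> subst h <;> omega
  have hxs' : |x + 8 - 64 * s| ≤ 16 := by rw [abs_le]; rcases hv with h | h <;> subst h <;> omega
  have hRU : R ⊆ reserved F A B r t s v := fun e he => by
    refine ⟨δ, hδ, ?_⟩
    rw [← hx]
    simpa [hR, sub_eq_add_neg] using he
  have hdis : ∀ e ∈ R, e ∉ laneEdges F A B r (100 * t) (x + 8) (64 * (s + δ) + 12 * 1) := by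
    intro e he
    have hz : 64 * (s + δ) + 12 * 1 = 64 * (s + δ) + 12 * (-1) + 24 := by ring
    rw [hz]
    exact lanes_disjoint hr0 hr hB hD (by rw [← hz]; exact hD') he
  rw [sq]
  refine Pr_two_lanes hq.1 R (X := S.Hit (100 * t) x \ version S (t + 1) (s + δ) (-1))
    (Y := whenShut R (S.Hit (100 * t) (x + 8) \ version S (t + 1) (s + δ) 1))
    (localEv_whenShut R _) ?_ (by linarith) (fun w _ => ?_) ?_
  · rintro w ⟨⟨h1, h2⟩, hno⟩
    have hsh : shut (reserved F A B r t s v) w ≤ shut R w := fun e => by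
      by_cases he : e ∈ R
      · simp [shut, he, hRU he]
      · by_cases he' : e ∈ reserved F A B r t s v <;> simp [shut, he, he']
    refine ⟨⟨?_, fun h => hno (Or.inr (version_upper S _ _ _ (shut_le R w) h))⟩, ?_,
      fun h => hno (Or.inl h)⟩
    · have := S.mono _ _ hsh h2
      rwa [show x + 8 = 64 * s + 12 * v + 4 by omega]
    · rwa [hx]
  · exact lane (-1) x _ hD hxs (Or.inl rfl) (fixOut_mem hq.1 R w) fun e he => by
      have h : e ∈ R := he
      simp [fixOut, h]
  · rw [← Pr_closeW]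
    exact lane 1 (x + 8) _ hD' hxs' (Or.inr rfl) (closeW_mem hq.1 R) fun e he => by
      have : e ∉ R := fun h => hdis e h he
      simp [closeW, this]

theorem next (hp : p ∈ Set.Icc (0 : ℝ) 1)
    (hr0 : 0 ≤ r) (hr : r < A) (hB : 0 < B) (hε : 0 ≤ ε) (S : System F N p r A B ε a) :
    ∃ S' : System F N p r (100 * A) (64 * B) (40000 * ε ^ 2) a,
      ∀ q : E → ℝ, (∀ e, q e ∈ Set.Icc p 1) →
        (∀ e, e ∉ F.halfSpace r → q e = p) → Fits N (100 * A) (64 * B) 1 0 →
        Pr q (S.Hit 1 0 \ S'.Hit 1 0) ≤ 200 * ε := by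
  refine ⟨{
      Hit := fun t s => version S t s (-1) ∪ version S t s 1
      mono := fun t s => (version_upper S t s _).union (version_upper S t s _)
      local_hit := fun t s w w' h =>
        or_congr (version_local S t s _ w w' h) (version_local S t s _ w w' h)
      reach := fun t s w hw => ?_
      step := fun t s δ q hδ hfit hq => ?_ }, ?_⟩
  · obtain ⟨v, hv⟩ : ∃ v, w ∈ version S t s v := hw.elim (⟨_, ·⟩) (⟨_, ·⟩)
    obtain ⟨y, hy, hy0⟩ := S.reach _ _ w hv.1
    exact ⟨y, hy, by push_cast at hy0; linarith⟩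
  · rw [Set.union_sdiff_distrib]
    refine (Pr_union_le hq.1 _ _).trans ?_
    have h1 := version_step hr0 hr hB hε S (v := -1) (Or.inl rfl) hδ hfit hq
    have h2 := version_step hr0 hr hB hε S (v := 1) (Or.inr rfl) hδ hfit hq
    nlinarith [sq_nonneg ε]
  · intro q hq hout hfit
    have hqI : ∀ e, q e ∈ Set.Icc (0 : ℝ) 1 := fun e => ⟨hp.1.trans (hq e).1, (hq e).2⟩
    have h := lane_le S hε hqI (t := 0) (x := 1) (z := 64 * 0 + 12 * (-1)) (i := 1)
      (by norm_num) (by omega) (reserved F A B r 1 0 (-1))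
      (fun e he => reserved_avoid hr0 hr hB (by ring) he) ?_
    · have h0 : lanePath 1 (64 * 0 + 12 * (-1)) (-1) 1 = 0 := by norm_num [lanePath]
      rw [h0, Nat.cast_one, zero_add, zero_add] at h
      refine le_trans (Pr_mono hqI (Set.sdiff_subset_sdiff_right ?_)) (h.trans (by linarith))
      refine fun w hw => Or.inl ?_
      simpa [version] using hw
    · intro k hk hk' σ hσ
      obtain ⟨h1, h2⟩ := hfit
      have hA : 0 ≤ A := hr0.trans hr.le
      refine ⟨⟨?_, ?_⟩, hqI, fun e _ => ⟨(hq e).1, fun he => hout e fun hin => he ?_⟩⟩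
      · have : |0 + (k : ℤ)| + 2 ≤ 100 * (|1| + 2) := by
          rw [zero_add, abs_of_nonneg (Int.natCast_nonneg k), abs_one]; omega
        have := mul_le_mul_of_nonneg_left (Int.cast_le.2 this : _ ≤ (_ : ℝ)) hA
        push_cast at this h1 ⊢
        linarith
      · have : |lanePath 1 (64 * 0 + 12 * (-1)) σ k| + 2 ≤ 64 * (|0| + 2) := by
          rw [abs_zero, ← le_sub_iff_add_le, abs_le]
          unfold lanePath
          rcases hσ with h | h <;> subst h <;> split_ifs <;> omega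
        have := mul_le_mul_of_nonneg_left (Int.cast_le.2 this : _ ≤ (_ : ℝ)) hB.le
        push_cast at this h2 ⊢
        linarith
      · have := mul_nonneg hA (Nat.cast_nonneg (α := ℝ) k)
        refine ⟨hin.1.trans ?_, hin.2.trans ?_⟩ <;>
        · push_cast
          linarith

/-- The levels iterated: the failure probabilities are summable. -/
theorem levels (hp : p ∈ Set.Icc (0 : ℝ) 1) (hε : 0 ≤ ε) (hε1 : 80000 * ε ≤ 1) (hr0 : 0 ≤ r)
    (hr : r < A) (hB : 0 < B) (S : System F N p r A B ε a) (q : E → ℝ)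
    (hq : ∀ e, q e ∈ Set.Icc p 1) (hout : ∀ e, e ∉ F.halfSpace r → q e = p)
    (hstart : 1 - ε ≤ Pr q (S.Hit 1 0)) (J : ℕ)
    (hfit : ∀ i ≤ J, Fits N (100 ^ i * A) (64 ^ i * B) 1 0) :
    ∃ A' B' e, A' = 100 ^ J * A ∧ B' = 64 ^ J * B ∧ ∃ T : System F N p r A' B' e a,
      0 ≤ e ∧ e ≤ ε / 2 ^ J ∧ 1 - ε - 400 * ε * (1 - 1 / 2 ^ J) ≤ Pr q (T.Hit 1 0) := by
  induction J with
  | zero => exact ⟨A, B, ε, by simp, by simp, S, hε, by simp, by simpa using hstart⟩
  | succ J ih =>
    obtain ⟨A', B', e, hA', hB', T, he0, he, hprob⟩ := ih fun i hi => hfit i (by omega)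
    have hrA : r < A' := hr.trans_le (hA' ▸ le_mul_of_one_le_left (hr0.trans hr.le)
      (one_le_pow₀ (by norm_num)))
    have hB1 : 0 < B' := hB' ▸ mul_pos (by positivity) hB
    obtain ⟨T', hT'⟩ := next hp hr0 hrA hB1 he0 T
    have hA'' : 100 * A' = 100 ^ (J + 1) * A := by rw [hA']; ring
    have hB'' : 64 * B' = 64 ^ (J + 1) * B := by rw [hB']; ring
    have h1 := hT' q hq hout (by rw [hA'', hB'']; exact hfit (J + 1) le_rfl)
    refine ⟨100 * A', 64 * B', _, hA'', hB'', T', mul_nonneg (by norm_num) (sq_nonneg e), ?_, ?_⟩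
    · have hle : ε / 2 ^ J ≤ ε := div_le_self hε (one_le_pow₀ one_le_two)
      rw [pow_succ (2 : ℝ) J, ← div_div, le_div_iff₀ two_pos]
      calc 40000 * e ^ 2 * 2 = 80000 * e * e := by ring
        _ ≤ 1 * e := mul_le_mul_of_nonneg_right (by linarith) he0
        _ ≤ ε / 2 ^ J := by linarith
    · have hI : ∀ x, q x ∈ Set.Icc (0 : ℝ) 1 := fun x => ⟨hp.1.trans (hq x).1, (hq x).2⟩
      have h2 : Pr q (T.Hit 1 0) ≤ Pr q (T'.Hit 1 0) + Pr q (T.Hit 1 0 \ T'.Hit 1 0) :=
        (Pr_mono hI fun w hw => by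
          by_cases h : w ∈ T'.Hit 1 0
          · exact Or.inl h
          · exact Or.inr ⟨hw, h⟩).trans (Pr_union_le hI _ _)
      have h3 : 400 * ε * (1 - 1 / 2 ^ J) + 200 * (ε / 2 ^ J)
          = 400 * ε * (1 - 1 / 2 ^ (J + 1)) := by rw [pow_succ]; field_simp; ring
      linarith

end Vale.Agent.P151.Zt
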