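import Vale.Agent.P151.Glue0.Toolkit
import Vale.Agent.P151.Zd.Finitary

/-!
# A finite window of an arbitrary graph

The vertices of the window are the points of a finite set `Λ`; its edges are the edges of the
graph with both ends in `Λ`.
-/

open Finset MeasureTheory ProbabilityTheory

namespace Vale.Agent.P151.Zt

open Glue0 Vale.Agent.P165

variable {V : Type} {G : SimpleGraph V} {Λ : Finset V}

/-- The vertices of the window. -/
abbrev WV (Λ : Finset V) : Type := ↥Λ

/-- The edges of the window. -/
abbrev WE (G : SimpleGraph V) (Λ : Finset V) : Type :=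
  {e : G.edgeSet // ∀ x ∈ (e : Sym2 V), x ∈ Λ}

theorem finite_WE (G : SimpleGraph V) (Λ : Finset V) : Finite (WE G Λ) := by
  classical
  refine Finite.of_injective (β := ↥Λ.sym2)
    (fun e => ⟨(e.1 : Sym2 V), Finset.mem_sym2_iff.2 e.2⟩) fun a b h => ?_
  have := congrArg Subtype.val h
  exact Subtype.ext (Subtype.ext this)

noncomputable instance fintypeWE (G : SimpleGraph V) (Λ : Finset V) : Fintype (WE G Λ) :=
  haveI := finite_WE G Λ
  Fintype.ofFinite _

noncomputable instance decidableEqWE (G : SimpleGraph V) (Λ : Finset V) : DecidableEq (WE G Λ) :=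
  Classical.decEq _

noncomputable instance decidableEqWV (Λ : Finset V) : DecidableEq (WV Λ) :=
  Classical.decEq _

/-- The two ends of an edge of the window. -/
noncomputable def wEnds (G : SimpleGraph V) (Λ : Finset V) (e : WE G Λ) : WV Λ × WV Λ :=
  (⟨(e.1 : Sym2 V).out.1, e.2 _ (Sym2.out_fst_mem _)⟩,
    ⟨(e.1 : Sym2 V).out.2, e.2 _ (Sym2.out_snd_mem _)⟩)

theorem wEnds_sym2 (e : WE G Λ) :
    s(((wEnds G Λ e).1 : V), ((wEnds G Λ e).2 : V)) = (e.1 : Sym2 V) :=
  Quot.out_eq _

theorem adj_wEnds (e : WE G Λ) : G.Adj (wEnds G Λ e).1 (wEnds G Λ e).2 := by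
  rw [← SimpleGraph.mem_edgeSet, wEnds_sym2]
  exact e.1.2

/-- The configuration seen in the window. -/
def wConf (G : SimpleGraph V) (Λ : Finset V) (ω : Config G) : WE G Λ → Bool := fun e => ω e.1

/-- A window event, seen on the graph. -/
def wEv (G : SimpleGraph V) (Λ : Finset V) (H : Set (WE G Λ → Bool)) : Set (Config G) :=
  wConf G Λ ⁻¹' H

theorem measurable_wConf (G : SimpleGraph V) (Λ : Finset V) : Measurable (wConf G Λ) :=
  measurable_pi_lambda _ fun _ => measurable_pi_apply _

theorem measurableSet_wEv (H : Set (WE G Λ → Bool)) : MeasurableSet (wEv G Λ H) :=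
  measurable_wConf G Λ (Set.toFinite H).measurableSet

/-- The probability of a window event. -/
theorem perc_wEv (p : unitInterval) (H : Set (WE G Λ → Bool)) :
    (perc G p).real (wEv G Λ H) = Pr (fun _ : WE G Λ => (p : ℝ)) H := by
  classical
  have hmap : (perc G p).map (wConf G Λ)
      = Measure.infinitePi fun _ : WE G Λ => bernoulliMeasure true false p :=
    Measure.map_infinitePi_infinitePi_of_inj (f := fun e : WE G Λ => e.1)
      Subtype.val_injective
  rw [wEv, measureReal_def,
    ← Measure.map_apply (measurable_wConf G Λ) (Set.toFinite H).measurableSet, hmap,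
    ← measureReal_def, ← Set.coe_toFinset H, ← sum_measureReal_singleton, Pr, Ev]
  rw [← sum_subset (subset_univ H.toFinset) (fun w _ hw => by
    rw [Set.indicator_of_notMem (by simpa using hw), mul_zero])]
  refine sum_congr rfl fun w hw => ?_
  rw [Set.indicator_of_mem (by simpa using hw), Pi.one_apply, mul_one, wgt, measureReal_def,
    Measure.infinitePi_singleton_of_fintype, ENNReal.toReal_prod]
  refine prod_congr rfl fun e _ => ?_
  rw [← measureReal_def]
  cases w e <;> simp

/-- A window event depends on the edges of the window only. -/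
theorem dependsOn_wEv [DecidableEq V] (H : Set (WE G Λ → Bool)) :
    Zd.DependsOn G Λ.sym2 (wEv G Λ H) := by
  intro ω ω' h
  have : wConf G Λ ω = wConf G Λ ω' := funext fun e => h e.1 (Finset.mem_sym2_iff.2 e.2)
  simp [wEv, this]

/-- An open path of the window is an open path of the graph inside `Λ`. -/
theorem reachWithin_of_cluster {ω : Config G} {x y : WV Λ}
    (h : y ∈ cluster (wEnds G Λ) (wConf G Λ ω) x) :
    ω ∈ Zd.reachWithin G (Λ : Set V) (x : V) y := by
  change Relation.ReflTransGen (openAdj (wEnds G Λ) (wConf G Λ ω)) x y at h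
  induction h with
  | refl => exact ⟨.nil, fun z hz => by
      rw [SimpleGraph.Walk.support_nil, List.mem_singleton] at hz
      exact hz ▸ x.2⟩
  | @tail b c _ hbc ih =>
    obtain ⟨e, he, hee⟩ := hbc
    have hopen : (openGraph G ω).Adj ((wEnds G Λ e).1 : V) (wEnds G Λ e).2 := by
      refine ⟨adj_wEnds e, ?_⟩
      have hsub : (⟨s(((wEnds G Λ e).1 : V), ((wEnds G Λ e).2 : V)), adj_wEnds e⟩ : G.edgeSet)
          = e.1 := Subtype.ext (wEnds_sym2 e)
      rw [hsub]
      exact he
    obtain ⟨w, hw⟩ := ih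
    have hbc' : (openGraph G ω).Adj (b : V) c := by
      rcases hee with hee | hee <;> rw [hee] at hopen
      · exact hopen
      · exact hopen.symm
    refine ⟨w.concat hbc', fun z hz => ?_⟩
    rw [SimpleGraph.Walk.support_concat] at hz
    simp only [List.concat_eq_append, List.mem_append, List.mem_singleton] at hz
    rcases hz with hz | hz
    · exact hw z hz
    · exact hz ▸ c.2

/-- An open path of the graph inside `Λ` is an open path of the window. -/
theorem cluster_of_reachWithin {ω : Config G} {x y : WV Λ}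
    (h : ω ∈ Zd.reachWithin G (Λ : Set V) (x : V) y) :
    y ∈ cluster (wEnds G Λ) (wConf G Λ ω) x := by
  obtain ⟨w, hw⟩ := h
  suffices H : ∀ {a b : V} (w : (openGraph G ω).Walk a b) (ha : a ∈ Λ) (hb : b ∈ Λ),
      (∀ z ∈ w.support, z ∈ Λ) →
        (⟨b, hb⟩ : WV Λ) ∈ cluster (wEnds G Λ) (wConf G Λ ω) ⟨a, ha⟩ from
    H w x.2 y.2 hw
  intro a b w
  induction w with
  | nil => intro ha hb _; exact mem_cluster_self _ _
  | @cons a c b hac w ih =>
    intro ha hb hw
    have hc : c ∈ Λ := hw c (List.mem_cons_of_mem _ w.start_mem_support)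
    obtain ⟨hG, hop⟩ := hac
    let e : WE G Λ := ⟨⟨s(a, c), hG⟩, fun z hz => by
      rcases Sym2.mem_iff.1 hz with rfl | rfl
      · exact ha
      · exact hc⟩
    have he : openAdj (wEnds G Λ) (wConf G Λ ω) ⟨a, ha⟩ ⟨c, hc⟩ := by
      refine ⟨e, hop, ?_⟩
      rcases Sym2.eq_iff.1 (wEnds_sym2 e) with ⟨h1, h2⟩ | ⟨h1, h2⟩
      · exact Or.inl (Prod.ext (Subtype.ext h1) (Subtype.ext h2))
      · exact Or.inr (Prod.ext (Subtype.ext h1) (Subtype.ext h2))
    exact Relation.ReflTransGen.head he (ih hc hb fun z hz => hw z (List.mem_cons_of_mem _ hz))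

theorem reachable_of_cluster {ω : Config G} {x y : WV Λ}
    (h : y ∈ cluster (wEnds G Λ) (wConf G Λ ω) x) : (openGraph G ω).Reachable (x : V) y :=
  (reachWithin_of_cluster h).choose.reachable

end Vale.Agent.P151.Zt
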