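import Vale.Agent.P151.Zt.Block
import Vale.Agent.P151.Zt.Level
import Vale.Agent.P151.Zt.Window
import Vale.Agent.P151.Renorm.FinalCore

/-!
# Percolation from block steps of small failure probability

If for every bound `N` some finite window of the graph carries a block step, with the same
scales and the same small hop error, then the cluster of the seed point is infinite with
positive probability.
-/

open Finset MeasureTheory ProbabilityTheory

namespace Vale.Agent.P151.Zt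

open Glue0 Vale.Agent.P165

variable {V ι κ : Type} [DecidableEq V] [Fintype κ] {G : SimpleGraph V} {nb : V → κ → V}

theorem percolates_of_blocks [Countable V] (hl : Listing G nb) (o : V) (τ : V → ℝ)
    (q : unitInterval) (hq : 0 < (q : ℝ)) {A B r δ π π' : ℝ} {K M n₀ : ℕ}
    (hδ : 0 < δ) (hδ1 : δ ≤ 1) (hr0 : 0 ≤ r) (hr : r < A) (hB : 0 < B) (hπ : π ≤ 1)
    (hπ' : 0 ≤ π') (herr : 80000 * hopErr M π π' δ 3 ≤ 1)
    (h : ∀ N : ℝ, ∃ (Λ : Finset V) (χ : WV Λ → ℝ)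
      (D : BlockStep (⟨wEnds G Λ, fun x => τ x, χ⟩ : Frame (WV Λ) (WE G Λ)) N (q : ℝ) r A B δ π π'
        K M ι) (c₀ : ι), c₀ ∈ (D.Z 0 0).idx ∧ ((D.Z 0 0).pt c₀ : V) = o ∧
        (∀ k, 1 - δ ^ 2 ≤ Pr (fun _ => (q : ℝ)) (D.H 0 0 c₀ k)) ∧
        (Set.toFinite (D.Z 0 0).slab).toFinset.card ≤ n₀) :
    0 < perc G q (infAt G o) := by
  classical
  have : Nonempty V := ⟨o⟩
  obtain ⟨f, hf⟩ := exists_surjective_nat V
  refine Zd.infAt_pos_of_arms hl q o (fun n => (Finset.range (n + 1)).image f)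
    (fun i j hij => Finset.image_subset_image (Finset.range_mono (by omega)))
    (fun v => by
      obtain ⟨n, rfl⟩ := hf v
      exact ⟨n, Finset.mem_image_of_mem f (Finset.mem_range.2 (by omega))⟩)
    (mul_pos (pow_pos hq n₀) one_half_pos) fun n => ?_
  set S₀ := (Finset.range (n + 1)).image f with hS₀
  obtain ⟨b, hb⟩ : ∃ b : ℝ, ∀ v ∈ S₀, τ v ≤ b :=
    ⟨∑ v ∈ S₀, |τ v|, fun v hv => (le_abs_self _).trans
      (single_le_sum (f := fun v => |τ v|) (fun i _ => abs_nonneg _) hv)⟩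
  have hA : 0 < A := hr0.trans_lt hr
  obtain ⟨J, hJ⟩ := pow_unbounded_of_one_lt ((b + r) / A) (by norm_num : (1 : ℝ) < 100)
  rw [div_lt_iff₀ hA] at hJ
  obtain ⟨Λ, χ, D, c₀, hc₀, hpt, h₀, hcard⟩ := h (3 * (100 ^ J * A) + 3 * (100 ^ J * B))
  have hqI : (q : ℝ) ∈ Set.Icc (0 : ℝ) 1 := q.2
  obtain ⟨S, hS⟩ := formation_of_block hqI hδ hδ1 hA.le hπ hπ' D hc₀ h₀
  set F := (Set.toFinite (D.Z 0 0).slab).toFinset with hF
  set qw : WE G Λ → ℝ := fun e => if e ∈ F then 1 else (q : ℝ) with hqw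
  have hqw' : ∀ e, qw e ∈ Set.Icc (q : ℝ) 1 := fun e => by
    simp only [hqw]
    split_ifs
    · exact ⟨hqI.2, le_rfl⟩
    · exact ⟨le_rfl, hqI.2⟩
  have hone : ∀ e ∈ (D.Z 0 0).slab, qw e = 1 := fun e he =>
    if_pos ((Set.Finite.mem_toFinset _).2 he)
  have hout : ∀ e, e ∉ (Frame.mk (wEnds G Λ) (fun x => τ x) χ).halfSpace r → qw e = (q : ℝ) :=
    fun e he => if_neg fun h => he (by simpa using D.slab_le 0 0 ((Set.Finite.mem_toFinset _).1 h))
  have hP : ∀ i ≤ J, (100 : ℝ) ^ i ≤ 100 ^ J ∧ (64 : ℝ) ^ i ≤ 100 ^ J := fun i hi =>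
    ⟨pow_le_pow_right₀ (by norm_num) hi, (pow_le_pow_left₀ (by norm_num) (by norm_num) i).trans
      (pow_le_pow_right₀ (by norm_num) hi)⟩
  have hJA : 0 ≤ 100 ^ J * A := by positivity
  have hJB : 0 ≤ 100 ^ J * B := by positivity
  have hfit0 : Fits (3 * (100 ^ J * A) + 3 * (100 ^ J * B)) A B 0 0 := by
    obtain ⟨h1, -⟩ := hP 0 (Nat.zero_le _)
    rw [pow_zero] at h1
    constructor <;> simp only [abs_zero, zero_add] <;> push_cast <;>
      nlinarith [mul_le_mul_of_nonneg_right h1 hA.le, mul_le_mul_of_nonneg_right h1 hB.le]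
  have hfit : ∀ i ≤ J, Fits (3 * (100 ^ J * A) + 3 * (100 ^ J * B)) (100 ^ i * A) (64 ^ i * B)
      1 0 := fun i hi => by
    obtain ⟨h1, h2⟩ := hP i hi
    constructor <;> simp only [abs_one, abs_zero] <;> push_cast <;>
      nlinarith [mul_le_mul_of_nonneg_right h1 hA.le, mul_le_mul_of_nonneg_right h2 hB.le]
  have hI : ∀ e, qw e ∈ Set.Icc (0 : ℝ) 1 := fun e => ⟨hqI.1.trans (hqw' e).1, (hqw' e).2⟩
  have hε : 0 ≤ hopErr M π π' δ 3 := (Pr_nonneg hI _).trans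
    (S.step 0 0 0 qw (by simp) hfit0 ⟨hI, fun e _ => ⟨(hqw' e).1, fun he => hout e (by
      simpa using he)⟩⟩)
  have hstart := hS qw hqw' hone hout hfit0
  obtain ⟨A', B', e, hA', -, T, -, -, hT⟩ :=
    levels hqI hε herr hr0 hr hB S qw hqw' hout hstart J hfit
  have hhalf : 1 / 2 ≤ Pr qw (T.Hit 1 0) := by
    have hp : (0 : ℝ) ≤ 1 / 2 ^ J := by positivity
    nlinarith
  have hsub : wEv G Λ (T.Hit 1 0) ⊆ Zd.arm G ↑S₀ o := by
    intro ω hω
    obtain ⟨y, hy, hy0⟩ := T.reach 1 0 (wConf G Λ ω) hω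
    refine ⟨(y : V), fun h => ?_, hpt ▸ reachable_of_cluster hy⟩
    have := hb y (Finset.mem_coe.1 h)
    rw [hA', Int.cast_one, mul_one] at hy0
    simp only at hy0
    linarith
  refine le_trans ?_ (measureReal_mono hsub)
  rw [perc_wEv]
  refine le_trans ?_ (Renorm.mul_Pr_forced_le hqI F (T.Hit 1 0))
  refine mul_le_mul ?_ hhalf (by norm_num) (pow_nonneg hqI.1 _)
  exact pow_le_pow_of_le_one hqI.1 hqI.2 hcard

end Vale.Agent.P151.Zt
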