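import Vale.Agent.P151.Zt.Compose
import Vale.Agent.P151.Zt.Move
import Vale.Agent.P151.Zt.Percolate
import Vale.Agent.P151.Zd.Unique

/-!
# The first level from a steerable forward move

A station holds the seeds whose centres lie on one plane, within three units of one lateral
position, and not far from the start in the graph. One forward move, aimed at the next position,
leads from a station to the next one: this is a block step, so `percolates_of_blocks` applies.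
-/

open Finset MeasureTheory

namespace Vale.Agent.P151.Zt

open Glue0 Vale.Agent.P165

variable {V : Type} {G : SimpleGraph V}

namespace Base

variable {Ch : Chart G}

theorem lin_shift {φ : G ≃g G} {z : ℤ × ℤ} (h : Shifts G Ch.pos φ z) (f : ℝ × ℝ) (v : V) :
    lin Ch.pos f (φ v) = lin Ch.pos f v + (f.1 * z.1 + f.2 * z.2) := by
  simp only [lin, h v, gridPt, Prod.fst_add, Prod.snd_add]
  ring

theorem lin_origin (f : ℝ × ℝ) : lin Ch.pos f Ch.o = 0 := by simp [lin, Ch.pos_o]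

theorem lin_neg (f : ℝ × ℝ) (v : V) : lin Ch.pos (-f) v = -lin Ch.pos f v := by
  simp only [lin, Prod.fst_neg, Prod.snd_neg]
  ring

theorem size_neg (f : ℝ × ℝ) : size (-f) = size f := by simp [size]

theorem size_axis {τ : ℝ × ℝ} (h : IsAxis τ) : size τ = 1 := by
  rcases h with rfl | rfl <;> simp [size]

theorem size_nonneg (x : ℝ × ℝ) : 0 ≤ size x := add_nonneg (abs_nonneg _) (abs_nonneg _)

theorem lin_step {L : ℝ} (hL : ∀ x y, G.Adj x y → size (Ch.pos x - Ch.pos y) ≤ L) (f : ℝ × ℝ)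
    {x y : V} (h : G.Adj x y) : |lin Ch.pos f x - lin Ch.pos f y| ≤ size f * L := by
  have e : lin Ch.pos f x - lin Ch.pos f y
      = f.1 * (Ch.pos x - Ch.pos y).1 + f.2 * (Ch.pos x - Ch.pos y).2 := by
    simp only [lin, Prod.fst_sub, Prod.snd_sub]
    ring
  rw [e]
  refine (abs_add_le _ _).trans (le_trans ?_ (mul_le_mul_of_nonneg_left (hL x y h) (size_nonneg f)))
  simp only [size, abs_mul]
  nlinarith [abs_nonneg f.1, abs_nonneg f.2, abs_nonneg (Ch.pos x - Ch.pos y).1,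
    abs_nonneg (Ch.pos x - Ch.pos y).2]

theorem lin_walk {L : ℝ} (hL : ∀ x y, G.Adj x y → size (Ch.pos x - Ch.pos y) ≤ L) (f : ℝ × ℝ)
    {u v : V} (w : G.Walk u v) :
    |lin Ch.pos f v - lin Ch.pos f u| ≤ w.length * (size f * L) := by
  induction w with
  | nil => simp
  | @cons a b c h w ih =>
    have h1 := abs_le.1 (lin_step hL f h)
    have h2 := abs_le.1 ih
    rw [SimpleGraph.Walk.length_cons, Nat.cast_add, Nat.cast_one, add_mul, one_mul, abs_le]
    exact ⟨by linarith, by linarith⟩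

/-- The vertices within `n` steps of `a`. -/
def near (G : SimpleGraph V) (a : V) (n : ℕ) (v : V) : Prop := ∃ w : G.Walk a v, w.length ≤ n

theorem near_trans {a b c : V} {m n : ℕ} (h : near G a m b) (h' : near G b n c) :
    near G a (m + n) c := by
  obtain ⟨w, hw⟩ := h
  obtain ⟨w', hw'⟩ := h'
  exact ⟨w.append w', by rw [SimpleGraph.Walk.length_append]; omega⟩

theorem near_mono {a b : V} {m n : ℕ} (h : near G a m b) (hmn : m ≤ n) : near G a n b := by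
  obtain ⟨w, hw⟩ := h
  exact ⟨w, hw.trans hmn⟩

theorem near_map (φ : G ≃g G) {a b : V} {n : ℕ} (h : near G a n b) : near G (φ a) n (φ b) := by
  obtain ⟨w, hw⟩ := h
  exact ⟨w.map φ.toHom, by rwa [SimpleGraph.Walk.length_map]⟩

variable {Λ : Finset V}

theorem end_mem (e : WE G Λ) :
    ((wEnds G Λ e).1 : V) ∈ (e.1 : Sym2 V) ∧ ((wEnds G Λ e).2 : V) ∈ (e.1 : Sym2 V) := by
  rw [← wEnds_sym2 e]
  exact ⟨Sym2.mem_mk_left _ _, Sym2.mem_mk_right _ _⟩

/-- Among enough vertices some have disjoint balls. -/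
theorem spread {ι : Type} [Fintype ι] {nb : V → ι → V} (hl : Listing G nb) (R : ℕ) :
    ∃ D : ℕ, ∀ (M : ℕ) (s : Finset V), D * M ≤ s.card → ∃ U ⊆ s, U.card = M ∧
      (U : Set V).Pairwise fun x y => Disjoint {v | near G x R v} {v | near G y R v} := by
  classical
  let Nr : V → Finset V := fun x => (Finset.range (2 * R + 1)).biUnion fun i => walkBall nb i x
  have hball : ∀ (n : ℕ) (x : V), (walkBall nb n x).card ≤ Fintype.card ι ^ n := by
    intro n
    induction n with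
    | zero => intro x; simp [walkBall]
    | succ n ih =>
      intro x
      refine Finset.card_image_le.trans ?_
      rw [Finset.card_product, Finset.card_univ, pow_succ]
      exact Nat.mul_le_mul_right _ (ih x)
  have hNr : ∀ x, (Nr x).card ≤ (∑ i ∈ Finset.range (2 * R + 1), Fintype.card ι ^ i) + 1 := fun x =>
    (Finset.card_biUnion_le.trans (Finset.sum_le_sum fun i _ => hball i x)).trans (Nat.le_succ _)
  refine ⟨(∑ i ∈ Finset.range (2 * R + 1), Fintype.card ι ^ i) + 1, fun M => ?_⟩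
  induction M with
  | zero => exact fun s _ => ⟨∅, Finset.empty_subset s, rfl, by simp⟩
  | succ M IH =>
    intro s h
    set D := (∑ i ∈ Finset.range (2 * R + 1), Fintype.card ι ^ i) + 1
    obtain ⟨x, hx⟩ := Finset.card_pos.1
      (lt_of_lt_of_le (Nat.mul_pos (Nat.succ_pos _) (Nat.succ_pos M)) h)
    have hs : D * M ≤ (s \ Nr x).card := by
      have := Finset.le_card_sdiff (Nr x) s
      have h1 := hNr x
      rw [Nat.mul_succ] at h
      omega
    obtain ⟨U, hUs, hUc, hUp⟩ := IH (s \ Nr x) hs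
    have hfar : ∀ y ∈ U, Disjoint {v | near G x R v} {v | near G y R v} := fun y hy => by
      refine Set.disjoint_left.2 fun v ⟨w, hw⟩ ⟨w', hw'⟩ => (Finset.mem_sdiff.1 (hUs hy)).2 ?_
      refine Finset.mem_biUnion.2
        ⟨(w'.append w.reverse).length, Finset.mem_range.2 ?_, mem_walkBall hl _⟩
      rw [SimpleGraph.Walk.length_append, SimpleGraph.Walk.length_reverse]
      omega
    have hxU : x ∉ U := fun h' => (Finset.mem_sdiff.1 (hUs h')).2
      (Finset.mem_biUnion.2 ⟨0, Finset.mem_range.2 (by omega), by simp [walkBall]⟩)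
    refine ⟨insert x U, Finset.insert_subset hx (hUs.trans Finset.sdiff_subset),
      by rw [Finset.card_insert_of_notMem hxU, hUc], ?_⟩
    rw [Finset.coe_insert, Set.pairwise_insert_of_notMem hxU]
    exact ⟨hUp, fun y hy => ⟨hfar y hy, (hfar y hy).symm⟩⟩

/-! ### The data -/

/-- The data of the first level. -/
structure Data (Ch : Chart G) (K : Finset V) (S : Seeding Ch K) where
  /-- The forward form. -/
  τ : ℝ × ℝ
  /-- The lateral form. -/
  σ : ℝ × ℝ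
  /-- The length of a move. -/
  T : ℕ
  /-- The step bound of the position. -/
  L : ℝ
  /-- The radius of the windows of the moves. -/
  R₀ : ℕ
  /-- The radius of `K`. -/
  RK : ℕ
  /-- The separation constant. -/
  D : ℕ
  /-- The number of seeds sought. -/
  M : ℕ
  q : ℝ
  δ : ℝ
  hq : q ∈ Set.Icc (0 : ℝ) 1
  hδ : 0 < δ
  hτ : IsAxis τ
  hL0 : 0 ≤ L
  hL : ∀ x y, G.Adj x y → size (Ch.pos x - Ch.pos y) ≤ L
  small : size σ * (((S.R + RK + 1 : ℕ) : ℝ) * L + S.D) ≤ 1 / 4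
  big : 2 * S.D + ((S.R + RK + 2 : ℕ) : ℝ) * L + S.ρ + 1 ≤ T
  /-- The walks of the origin seed. -/
  walks : ∀ x ∈ K, near G Ch.o RK x
  /-- The centre of the seed of an exit. -/
  cenOf : ℝ → V → (G ≃g G)
  /-- Its shift. -/
  zOf : ℝ → V → ℤ × ℤ
  /-- Its edges. -/
  boxOf : ℝ → V → Finset (Sym2 V)
  seedOf : ∀ (X : ℝ) (y : V), y ∉ S.side τ X → (∃ y', y' ∈ S.side τ X ∧ G.Adj y' y) →
    Shifts G Ch.pos (cenOf X y) (zOf X y) ∧ (boxOf X y).card = S.m ∧
      (∀ e ∈ boxOf X y, e ∈ G.edgeSet ∧ ∀ v ∈ e, v ∉ S.side τ X ∧ near G y S.R v) ∧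
      near G y S.R (cenOf X y Ch.o) ∧
      (∀ x ∈ K, ∃ w : G.Walk y (cenOf X y x), ∀ e ∈ w.edges, e ∈ boxOf X y) ∧
      ((∃ k : ℤ, X = k) → lin Ch.pos τ (cenOf X y Ch.o) = X + S.ρ)
  spread : ∀ u : Finset V, D * M ≤ u.card → ∃ U ⊆ u, U.card = M ∧
    (U : Set V).Pairwise fun x y => Disjoint {v | near G x S.R v} {v | near G y S.R v}
  /-- The windows of the moves. -/
  win : ℤ → Finset V
  hwin : ∀ d : ℤ, |d| ≤ 150 → (∀ v ∈ win d, near G Ch.o R₀ v) ∧
    1 - δ ^ 2 ≤ Pr (fun _ : WE G (win d) => q)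
      (hitEv G (win d) (S.toCut.cyl τ σ T T (40 - min (0 : ℝ) d) (40 + max (0 : ℝ) d))
        {v | v ∉ S.side τ T ∧ |lin Ch.pos σ v - d| ≤ 2} K (D * M))
  /-- The edges of the origin seed. -/
  box₀ : Finset (Sym2 V)
  hbox₀ : (∀ e ∈ box₀, e ∈ G.edgeSet ∧ ∀ v ∈ e, near G Ch.o RK v) ∧
    ∀ x ∈ K, ∃ w : G.Walk Ch.o x, ∀ e ∈ w.edges, e ∈ box₀

variable {K : Finset V} {S : Seeding Ch K} (C : Data Ch K S)

/-- The forward unit. -/
def Data.A : ℝ := (C.T : ℝ) + S.ρ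

/-- The level of the cut before the station at time `t`. -/
def Data.cut (t : ℤ) : ℝ := C.A * (t : ℝ) - S.ρ

/-- The shift of the forward coordinate. -/
def Data.c₀ : ℝ := S.D + C.L

/-- The thickness of a station. -/
def Data.thick : ℝ := 2 * S.D + ((S.R + C.RK + 2 : ℕ) : ℝ) * C.L + S.ρ

/-- How far from the start the station at time `t` may be. -/
def Data.reach (t : ℤ) : ℕ := t.toNat * (S.R + C.R₀)

/-- The centre of a seed. -/
noncomputable def Data.cen (t : ℤ) (y : V) : G ≃g G :=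
  if 0 < t then C.cenOf (C.cut t) y else RelIso.refl _

/-- The lateral aim of a seed. -/
noncomputable def Data.aim (t s : ℤ) (y : V) (k : Fin 3) : ℤ :=
  round (144 * (((s : ℤ) + move k : ℤ) : ℝ) - lin Ch.pos C.σ (C.cen t y Ch.o))

/-- The region of a move of a seed. -/
def Data.dom (d : ℤ) : Set V :=
  S.toCut.cyl C.τ C.σ C.T C.T (40 - min (0 : ℝ) d) (40 + max (0 : ℝ) d)

variable (Λ : Finset V) (a : WV Λ)

open Classical in
/-- The seeds at a position. -/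
noncomputable def Data.Z (t s : ℤ) : Seeds (WV Λ) (WE G Λ) V where
  idx := Λ.filter fun y =>
    (0 < t ∧ near G Ch.o (C.reach t) y ∧ y ∉ S.side C.τ (C.cut t) ∧
      (∃ y', y' ∈ S.side C.τ (C.cut t) ∧ G.Adj y' y) ∧
      |lin Ch.pos C.σ (C.cen t y Ch.o) - 144 * (s : ℝ)| ≤ 3) ∨
    (t = 0 ∧ s = 0 ∧ y = Ch.o)
  box y := {e | (e.1 : Sym2 V) ∈ if 0 < t then C.boxOf (C.cut t) y else C.box₀}
  pt y := if h : y ∈ Λ then ⟨y, h⟩ else a

open Classical in
/-- The moves of a seed. -/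
noncomputable def Data.H (t s : ℤ) (y : V) (k : Fin 3) : Set (WE G Λ → Bool) :=
  if h : ∀ v ∈ C.win (C.aim t s y k), C.cen t y v ∈ Λ then
    moveEv (C.cen t y) h (hitEv G _ (C.dom (C.aim t s y k))
      {v | v ∉ S.side C.τ C.T ∧ |lin Ch.pos C.σ v - C.aim t s y k| ≤ 2} K (C.D * C.M))
  else Set.univ

open Classical in
/-- The edges that a move looks at. -/
noncomputable def Data.ball (t s : ℤ) (y : V) (k : Fin 3) : Set (WE G Λ) :=
  if h : ∀ v ∈ C.win (C.aim t s y k), C.cen t y v ∈ Λ then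
    moveE (C.cen t y) h '' touching G _ (C.dom (C.aim t s y k))
  else ∅

variable {Λ}

theorem mem_Z {t s : ℤ} {y : V} (hy : y ∈ (C.Z Λ a t s).idx) :
    y ∈ Λ ∧ ((0 < t ∧ near G Ch.o (C.reach t) y ∧ y ∉ S.side C.τ (C.cut t) ∧
      (∃ y', y' ∈ S.side C.τ (C.cut t) ∧ G.Adj y' y) ∧
      |lin Ch.pos C.σ (C.cen t y Ch.o) - 144 * (s : ℝ)| ≤ 3) ∨ (t = 0 ∧ s = 0 ∧ y = Ch.o)) := by
  classical
  exact mem_filter.1 hy

theorem cut_int (t : ℤ) : ∃ k : ℤ, C.cut t = k :=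
  ⟨((C.T : ℤ) + S.ρ) * t - S.ρ, by simp only [Data.cut, Data.A]; push_cast; ring⟩

theorem cut_succ (t : ℤ) : C.cut (t + 1) = C.A * (t : ℝ) + C.T := by
  simp only [Data.cut, Data.A]; push_cast; ring

/-- The centre of a seed of a station. -/
theorem cen_spec {t s : ℤ} {y : V} (hy : y ∈ (C.Z Λ a t s).idx) :
    (∃ z, Shifts G Ch.pos (C.cen t y) z) ∧ lin Ch.pos C.τ (C.cen t y Ch.o) = C.A * (t : ℝ) ∧
      |lin Ch.pos C.σ (C.cen t y Ch.o) - 144 * (s : ℝ)| ≤ 3 ∧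
      near G Ch.o (C.reach t + S.R) (C.cen t y Ch.o) := by
  obtain ⟨-, ⟨ht, hb, hout, hin, hlat⟩ | ⟨rfl, rfl, rfl⟩⟩ := mem_Z C a hy
  · obtain ⟨hz, -, -, hn, -, hpl⟩ := C.seedOf _ _ hout hin
    simp only [Data.cen, if_pos ht] at hlat ⊢
    refine ⟨⟨_, hz⟩, ?_, hlat, near_trans hb hn⟩
    rw [hpl (cut_int C t), Data.cut]
    ring
  · simp only [Data.cen, lt_irrefl, if_false]
    refine ⟨⟨0, fun v => by simp [gridPt]⟩, ?_, ?_,
      show near G Ch.o _ Ch.o from ⟨.nil, Nat.zero_le _⟩⟩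
    · simp [lin_origin]
    · simp [lin_origin]

/-- Where the edges of a seed lie. -/
theorem box_bounds {t s : ℤ} {y : V} (hy : y ∈ (C.Z Λ a t s).idx) {e : WE G Λ}
    (he : e ∈ (C.Z Λ a t s).box y) {v : V} (hv : v ∈ (e.1 : Sym2 V)) :
    lin Ch.pos C.τ v + C.c₀ ≤ C.A * (t : ℝ) + C.thick ∧
      (0 < t → C.cut t < lin Ch.pos C.τ v) ∧ |lin Ch.pos C.σ v - 144 * (s : ℝ)| ≤ 4 := by
  have hσ0 := size_nonneg C.σ
  have hL0 := C.hL0
  have hD := S.D_nonneg
  have hρ : (0 : ℝ) ≤ S.ρ := Nat.cast_nonneg _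
  have hτ1 := size_axis C.hτ
  have hsm := C.small
  have hR0 : (0 : ℝ) ≤ (S.R : ℝ) * C.L := mul_nonneg (Nat.cast_nonneg _) hL0
  have hK0 : (0 : ℝ) ≤ (C.RK : ℝ) * C.L := mul_nonneg (Nat.cast_nonneg _) hL0
  push_cast at hsm
  simp only [Data.thick, Data.c₀]
  push_cast
  obtain ⟨-, ⟨ht, -, hout, ⟨y', hy', hadj⟩, hlat⟩ | ⟨rfl, rfl, rfl⟩⟩ := mem_Z C a hy
  · simp only [Data.Z, if_pos ht] at he
    obtain ⟨-, -, hbox, ⟨w', hw'⟩, -, -⟩ := C.seedOf _ _ hout ⟨y', hy', hadj⟩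
    obtain ⟨hvout, w, hw⟩ := (hbox _ he).2 v hv
    simp only [Data.cen, if_pos ht] at hlat
    have h1 := S.bounded _ _ _ hy'
    rw [hτ1, mul_one] at h1
    have h2 := abs_le.1 (lin_step C.hL C.τ hadj)
    rw [hτ1, one_mul] at h2
    have h3 := abs_le.1 (lin_walk C.hL C.τ w)
    rw [hτ1, one_mul] at h3
    have h4 : (w.length : ℝ) * C.L ≤ (S.R : ℝ) * C.L :=
      mul_le_mul_of_nonneg_right (Nat.cast_le.2 hw) hL0
    have h5 := abs_le.1 (lin_walk C.hL C.σ w)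
    have h6 := abs_le.1 (lin_walk C.hL C.σ w')
    have h7 : (w.length : ℝ) * (size C.σ * C.L) ≤ (S.R : ℝ) * (size C.σ * C.L) :=
      mul_le_mul_of_nonneg_right (Nat.cast_le.2 hw) (mul_nonneg hσ0 hL0)
    have h8 : (w'.length : ℝ) * (size C.σ * C.L) ≤ (S.R : ℝ) * (size C.σ * C.L) :=
      mul_le_mul_of_nonneg_right (Nat.cast_le.2 hw') (mul_nonneg hσ0 hL0)
    have h9 := abs_le.1 hlat
    have h10 : lin Ch.pos C.τ v > C.cut t := by
      by_contra hh
      exact hvout (S.le_subset _ _ _ (not_lt.1 hh))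
    refine ⟨?_, fun _ => h10, abs_le.2 ⟨?_, ?_⟩⟩
    · simp only [Data.cut] at h1
      linarith
    · nlinarith [mul_nonneg hσ0 hK0, mul_nonneg hσ0 hD, mul_nonneg hσ0 hL0]
    · nlinarith [mul_nonneg hσ0 hK0, mul_nonneg hσ0 hD, mul_nonneg hσ0 hL0]
  · simp only [Data.Z, lt_irrefl, if_false] at he
    obtain ⟨w, hw⟩ := (C.hbox₀.1 _ he).2 v hv
    have h3 := abs_le.1 (lin_walk C.hL C.τ w)
    rw [hτ1, one_mul, lin_origin, sub_zero] at h3
    have h4 : (w.length : ℝ) * C.L ≤ (C.RK : ℝ) * C.L :=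
      mul_le_mul_of_nonneg_right (Nat.cast_le.2 hw) hL0
    have h5 := abs_le.1 (lin_walk C.hL C.σ w)
    rw [lin_origin, sub_zero] at h5
    have h7 : (w.length : ℝ) * (size C.σ * C.L) ≤ (C.RK : ℝ) * (size C.σ * C.L) :=
      mul_le_mul_of_nonneg_right (Nat.cast_le.2 hw) (mul_nonneg hσ0 hL0)
    refine ⟨?_, fun h => absurd h (lt_irrefl 0), abs_le.2 ⟨?_, ?_⟩⟩
    · push_cast
      linarith
    · push_cast
      nlinarith [mul_nonneg hσ0 hR0, mul_nonneg hσ0 hD, mul_nonneg hσ0 hL0]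
    · push_cast
      nlinarith [mul_nonneg hσ0 hR0, mul_nonneg hσ0 hD, mul_nonneg hσ0 hL0]

theorem aim_spec {t s : ℤ} {y : V} (hy : y ∈ (C.Z Λ a t s).idx) (k : Fin 3) :
    |(C.aim t s y k : ℝ) + lin Ch.pos C.σ (C.cen t y Ch.o) - 144 * ((s + move k : ℤ) : ℝ)| ≤ 1 / 2 ∧
      |C.aim t s y k| ≤ 150 := by
  have h1 := abs_le.1 (abs_sub_round
    (144 * ((s + move k : ℤ) : ℝ) - lin Ch.pos C.σ (C.cen t y Ch.o)))
  have h2 := abs_le.1 (cen_spec C a hy).2.2.1
  have h3 : -1 ≤ move k ∧ move k ≤ 1 := by simp only [move]; omega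
  have h4 : (-1 : ℝ) ≤ (move k : ℝ) ∧ (move k : ℝ) ≤ 1 :=
    ⟨by exact_mod_cast h3.1, by exact_mod_cast h3.2⟩
  push_cast at h1
  simp only [Data.aim]
  push_cast
  refine ⟨abs_le.2 ⟨by linarith, by linarith⟩, ?_⟩
  have h5 : |(C.aim t s y k : ℝ)| ≤ ((150 : ℤ) : ℝ) := by
    simp only [Data.aim]
    push_cast
    exact abs_le.2 ⟨by linarith, by linarith⟩
  simp only [Data.aim] at h5
  exact_mod_cast h5

theorem H_upper (t s : ℤ) (y : V) (k : Fin 3) : IsUpperSet (C.H Λ t s y k) := by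
  unfold Data.H
  split
  · exact moveEv_upper _ _ (hitEv_upper ..)
  · exact isUpperSet_univ

theorem ball_local (t s : ℤ) (y : V) (k : Fin 3) :
    LocalEv (C.ball Λ t s y k) (C.H Λ t s y k) := by
  unfold Data.H Data.ball
  split
  · exact moveEv_local _ _ (hitEv_local _ _ _ _)
  · exact fun _ _ _ => Iff.rfl

/-- The edges of a move lie in the region of its step, each with an end on the near side of the
next cut. -/
theorem ball_bounds {t s : ℤ} {y : V} (hy : y ∈ (C.Z Λ a t s).idx) {k : Fin 3} {e : WE G Λ}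
    (he : e ∈ C.ball Λ t s y k) :
    (∃ u, u ∈ (e.1 : Sym2 V) ∧ u ∈ S.side C.τ (C.cut (t + 1))) ∧
      ∀ v ∈ (e.1 : Sym2 V), C.A * ((t : ℝ) - 1) ≤ lin Ch.pos C.τ v + C.c₀ ∧
        lin Ch.pos C.τ v + C.c₀ ≤ C.A * ((t : ℝ) + 1) + C.thick ∧
        (144 : ℝ) * ((min s (s + move k) - 1 : ℤ) : ℝ) ≤ lin Ch.pos C.σ v ∧
        lin Ch.pos C.σ v ≤ (144 : ℝ) * ((max s (s + move k) + 1 : ℤ) : ℝ) := by
  obtain ⟨⟨z, hz⟩, hτc, hσc, -⟩ := cen_spec C a hy
  obtain ⟨haim, -⟩ := aim_spec C a hy k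
  unfold Data.ball at he
  split at he
  swap
  · exact absurd he (Set.notMem_empty e)
  rename_i h
  obtain ⟨e₀, he₀, rfl⟩ := he
  set φ := C.cen t y with hφ
  have hL0 := C.hL0
  have hD := S.D_nonneg
  have hτ1 := size_axis C.hτ
  have hσ0 := size_nonneg C.σ
  have hzτ := lin_shift hz C.τ Ch.o
  have hzσ := lin_shift hz C.σ Ch.o
  rw [lin_origin, zero_add] at hzτ hzσ
  -- an end of the small edge in the domain
  obtain ⟨u, hu, huP⟩ : ∃ u : V, u ∈ (e₀.1 : Sym2 V) ∧ u ∈ C.dom (C.aim t s y k) := by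
    rcases he₀ with h1 | h1
    exacts [⟨_, (end_mem e₀).1, h1⟩, ⟨_, (end_mem e₀).2, h1⟩]
  obtain ⟨⟨hu1, hu2⟩, hu3, hu4⟩ := huP
  have b1 := S.bounded _ _ _ hu1
  have b2 := S.bounded _ _ _ hu2
  have b3 := S.bounded _ _ _ hu3
  have b4 := S.bounded _ _ _ hu4
  rw [lin_neg, size_neg, hτ1, mul_one] at b1
  rw [hτ1, mul_one] at b2
  rw [lin_neg, size_neg] at b3
  have hmap : ((moveE φ h e₀).1 : Sym2 V) = Sym2.map φ (e₀.1 : Sym2 V) := rfl
  refine ⟨⟨φ u, ?_, ?_⟩, fun v hv => ?_⟩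
  · rw [hmap]
    exact Sym2.mem_map.2 ⟨u, hu, rfl⟩
  · rw [S.shifts φ z hz, ← hzτ, hτc, cut_succ]
    simpa using hu2
  rw [hmap, Sym2.mem_map] at hv
  obtain ⟨v₀, hv₀, rfl⟩ := hv
  have hnear : ∀ f : ℝ × ℝ, |lin Ch.pos f v₀ - lin Ch.pos f u| ≤ size f * C.L := by
    intro f
    by_cases hvu : v₀ = u
    · rw [hvu, sub_self, abs_zero]
      exact mul_nonneg (size_nonneg f) hL0
    · refine lin_step C.hL f ?_
      have := e₀.1.2
      rwa [(Sym2.mem_and_mem_iff hvu).1 ⟨hv₀, hu⟩, SimpleGraph.mem_edgeSet] at this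
  have n1 := abs_le.1 (hnear C.τ)
  rw [hτ1, one_mul] at n1
  have n2 := abs_le.1 (hnear C.σ)
  rw [lin_shift hz C.τ, lin_shift hz C.σ, ← hzτ, ← hzσ, hτc]
  have hbig := C.big
  have hσ' := abs_le.1 hσc
  have ha' := abs_le.1 haim
  have hρ : (0 : ℝ) ≤ S.ρ := Nat.cast_nonneg _
  have hR0 : (0 : ℝ) ≤ (S.R : ℝ) * C.L := mul_nonneg (Nat.cast_nonneg _) hL0
  have hK0 : (0 : ℝ) ≤ (C.RK : ℝ) * C.L := mul_nonneg (Nat.cast_nonneg _) hL0
  have hsm := C.small
  push_cast at hsm hbig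
  have hsm1 : size C.σ * C.L + S.D * size C.σ ≤ 1 / 4 := by
    nlinarith [mul_nonneg hσ0 hR0, mul_nonneg hσ0 hK0]
  refine ⟨?_, ?_, ?_, ?_⟩
  · simp only [Data.c₀, Data.A]
    linarith
  · simp only [Data.c₀, Data.A, Data.thick]
    push_cast
    linarith
  · have hmin : 144 * ((min s (s + move k) : ℤ) : ℝ) - 4 ≤
        lin Ch.pos C.σ (φ Ch.o) + min (0 : ℝ) (C.aim t s y k) := by
      have g1 : ((min s (s + move k) : ℤ) : ℝ) ≤ (s : ℝ) := Int.cast_le.2 (min_le_left _ _)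
      have g2 : ((min s (s + move k) : ℤ) : ℝ) ≤ ((s + move k : ℤ) : ℝ) :=
        Int.cast_le.2 (min_le_right _ _)
      rcases min_cases (0 : ℝ) (C.aim t s y k) with ⟨h0, -⟩ | ⟨h0, -⟩ <;> rw [h0] <;> linarith
    rw [Int.cast_sub, Int.cast_one]
    linarith
  · have hmax : lin Ch.pos C.σ (φ Ch.o) + max (0 : ℝ) (C.aim t s y k) ≤
        144 * ((max s (s + move k) : ℤ) : ℝ) + 4 := by
      have g1 : (s : ℝ) ≤ ((max s (s + move k) : ℤ) : ℝ) := Int.cast_le.2 (le_max_left _ _)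
      have g2 : ((s + move k : ℤ) : ℝ) ≤ ((max s (s + move k) : ℤ) : ℝ) :=
        Int.cast_le.2 (le_max_right _ _)
      rcases max_cases (0 : ℝ) (C.aim t s y k) with ⟨h0, -⟩ | ⟨h0, -⟩ <;> rw [h0] <;> linarith
    rw [Int.cast_add, Int.cast_one]
    linarith

/-- A seed whose aimed window fits. -/
theorem win_fits {t s : ℤ} {y : V} (hy : y ∈ (C.Z Λ a t s).idx) {n : ℕ}
    (hn : t.toNat + 1 ≤ n) (hΛ : ∀ v, near G Ch.o (n * (S.R + C.R₀) + C.RK) v → v ∈ Λ)
    (k : Fin 3) : ∀ v ∈ C.win (C.aim t s y k), C.cen t y v ∈ Λ := fun v hv => by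
  refine hΛ _ (near_mono (near_trans (cen_spec C a hy).2.2.2
    (near_map _ ((C.hwin _ (aim_spec C a hy k).2).1 v hv))) ?_)
  have : (t.toNat + 1) * (S.R + C.R₀) ≤ n * (S.R + C.R₀) := Nat.mul_le_mul_right _ hn
  simp only [Data.reach]
  rw [add_mul, one_mul] at this
  omega

theorem H_prob {t s : ℤ} {y : V} (hy : y ∈ (C.Z Λ a t s).idx) {n : ℕ}
    (hn : t.toNat + 1 ≤ n) (hΛ : ∀ v, near G Ch.o (n * (S.R + C.R₀) + C.RK) v → v ∈ Λ)
    (k : Fin 3) : 1 - C.δ ^ 2 ≤ Pr (fun _ => C.q) (C.H Λ t s y k) := by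
  unfold Data.H
  rw [dif_pos (win_fits C a hy hn hΛ k), Pr_moveEv]
  exact (C.hwin _ (aim_spec C a hy k).2).2

/-- An open seed joins its attach point to the translate of `K`. -/
theorem box_connects {t s : ℤ} {y : V} (hy : y ∈ (C.Z Λ a t s).idx) {n : ℕ}
    (hn : t.toNat + 1 ≤ n) (hΛ : ∀ v, near G Ch.o (n * (S.R + C.R₀) + C.RK) v → v ∈ Λ)
    {w : WE G Λ → Bool} (hw : w ∈ (C.Z Λ a t s).isOpen y) {x : V} (hx : x ∈ K)
    (hxΛ : C.cen t y x ∈ Λ) :
    (⟨C.cen t y x, hxΛ⟩ : WV Λ) ∈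
      cluster (wEnds G Λ) (shut ((C.Z Λ a t s).box y)ᶜ w) ((C.Z Λ a t s).pt y) := by
  obtain ⟨hyΛ, hcase⟩ := mem_Z C a hy
  have hpt : (C.Z Λ a t s).pt y = ⟨y, hyΛ⟩ := dif_pos hyΛ
  rw [hpt]
  have hreach : (t.toNat + 1) * (S.R + C.R₀) ≤ n * (S.R + C.R₀) := Nat.mul_le_mul_right _ hn
  rw [add_mul, one_mul] at hreach
  rcases hcase with ⟨ht, hb, hout, hin, -⟩ | ⟨rfl, rfl, rfl⟩
  · obtain ⟨-, -, hbox, -, hwalk, -⟩ := C.seedOf _ _ hout hin
    obtain ⟨W, hW⟩ := hwalk x hx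
    revert hxΛ
    rw [Data.cen, if_pos ht]
    intro hxΛ
    refine cluster_of_walk W hyΛ hxΛ fun e he => ?_
    obtain ⟨hG, hend⟩ := hbox e (hW e he)
    refine ⟨⟨⟨e, hG⟩, fun v hv => hΛ v (near_mono (near_trans hb (hend v hv).2) ?_)⟩, rfl, ?_, hw _ ?_⟩
    · simp only [Data.reach]
      omega
    all_goals
      simp only [Data.Z, if_pos ht]
      exact hW e he
  · obtain ⟨W, hW⟩ := C.hbox₀.2 x hx
    revert hxΛ
    rw [Data.cen, if_neg (lt_irrefl 0)]
    intro hxΛ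
    refine cluster_of_walk W hyΛ hxΛ fun e he => ?_
    obtain ⟨hG, hend⟩ := C.hbox₀.1 e (hW e he)
    refine ⟨⟨⟨e, hG⟩, fun v hv => hΛ v (near_mono (hend v hv) (by omega))⟩, rfl, ?_, hw _ ?_⟩
    all_goals
      simp only [Data.Z, lt_irrefl, if_false]
      exact hW e he

/-- The hits of a move are seeds of the next station, reached from the seed. -/
theorem target {t s : ℤ} {y : V} (hy : y ∈ (C.Z Λ a t s).idx) {n : ℕ}
    (hn : t.toNat + 1 ≤ n) (hΛ : ∀ v, near G Ch.o (n * (S.R + C.R₀) + C.RK) v → v ∈ Λ)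
    (k : Fin 3) {w : WE G Λ → Bool} (hw : w ∈ C.H Λ t s y k)
    (hopen : w ∈ (C.Z Λ a t s).isOpen y) :
    C.D * C.M ≤ {c' | c' ∈ (C.Z Λ a (t + 1) (s + move k)).idx ∧
      (C.Z Λ a (t + 1) (s + move k)).pt c' ∈ cluster (wEnds G Λ)
        (shut ((C.Z Λ a t s).box y ∪ C.ball Λ t s y k)ᶜ w) ((C.Z Λ a t s).pt y)}.ncard := by
  classical
  have ht0 : 0 ≤ t := by
    rcases (mem_Z C a hy).2 with ⟨ht, -⟩ | ⟨rfl, -⟩ <;> omega
  have hfit := win_fits C a hy hn hΛ k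
  rw [Data.H, dif_pos hfit] at hw
  rw [Data.ball, dif_pos hfit]
  obtain ⟨⟨z, hz⟩, hτc, hσc, hcn⟩ := cen_spec C a hy
  obtain ⟨haim, hd150⟩ := aim_spec C a hy k
  have hzτ := lin_shift hz C.τ Ch.o
  have hzσ := lin_shift hz C.σ Ch.o
  rw [lin_origin, zero_add] at hzτ hzσ
  have hτ1 := size_axis C.hτ
  refine le_trans hw (le_of_eq_of_le (Set.ncard_image_of_injective _ (f := fun v : WV (C.win (C.aim t s y k)) =>
    C.cen t y (v : V)) fun v v' h => Subtype.ext ((C.cen t y).injective h)).symm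
    (Set.ncard_le_ncard ?_ (Set.Finite.subset (Finset.finite_toSet _) fun c hc => hc.1)))
  rintro _ ⟨v, ⟨hvP, ⟨hvout, hvlat⟩, x, hx, hcl⟩, rfl⟩
  -- the last edge of the connection
  have hxT : (x : V) ∈ S.side C.τ C.T := by
    obtain ⟨W, hW⟩ := C.walks _ hx
    refine S.le_subset _ _ _ ?_
    have h1 := abs_le.1 (lin_walk C.hL C.τ W)
    rw [hτ1, one_mul, lin_origin, sub_zero] at h1
    have h2 : (W.length : ℝ) * C.L ≤ (C.RK : ℝ) * C.L :=
      mul_le_mul_of_nonneg_right (Nat.cast_le.2 hW) C.hL0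
    have hbig := C.big
    push_cast at hbig
    have := mul_nonneg (Nat.cast_nonneg (α := ℝ) S.R) C.hL0
    linarith [S.D_nonneg, C.hL0, (Nat.cast_nonneg S.ρ : (0 : ℝ) ≤ (S.ρ : ℝ))]
  obtain ⟨b, hb, hadj⟩ : ∃ b : V, b ∈ S.side C.τ C.T ∧ G.Adj b (v : V) := by
    obtain rfl | ⟨b, -, e, he, he'⟩ := Relation.ReflTransGen.cases_tail hcl
    · exact absurd hxT hvout
    have heT : e ∈ touching G (C.win (C.aim t s y k)) (C.dom (C.aim t s y k)) := by
      by_contra hn'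
      simp [shut, hn'] at he
    rcases he' with he' | he' <;> simp only [touching, Set.mem_ofPred_eq, he'] at heT
    · refine ⟨b, (heT.resolve_right hvP).1.2, ?_⟩
      simpa [he'] using adj_wEnds e
    · refine ⟨b, (heT.resolve_left hvP).1.2, ?_⟩
      simpa [he'] using (adj_wEnds e).symm
  have hmem : C.cen t y (v : V) ∈ Λ := hfit v v.2
  have hout : C.cen t y (v : V) ∉ S.side C.τ (C.cut (t + 1)) := by
    rw [S.shifts (C.cen t y) z hz, ← hzτ, hτc, cut_succ]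
    simpa using hvout
  have hin : ∃ y', y' ∈ S.side C.τ (C.cut (t + 1)) ∧ G.Adj y' (C.cen t y (v : V)) := by
    refine ⟨C.cen t y b, ?_, (C.cen t y).map_adj_iff.2 hadj⟩
    rw [S.shifts (C.cen t y) z hz, ← hzτ, hτc, cut_succ]
    simpa using hb
  refine ⟨mem_filter.2 ⟨hmem, Or.inl ⟨by omega, ?_, hout, hin, ?_⟩⟩, ?_⟩
  · refine near_mono (near_trans hcn (near_map (C.cen t y) ((C.hwin _ hd150).1 v v.2))) (le_of_eq ?_)
    simp only [Data.reach, show (t + 1).toNat = t.toNat + 1 by omega]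
    ring
  · obtain ⟨-, -, -, ⟨W, hW⟩, -, -⟩ := C.seedOf _ _ hout hin
    rw [show C.cen (t + 1) (C.cen t y (v : V)) = C.cenOf (C.cut (t + 1)) (C.cen t y (v : V)) from
      if_pos (by omega)]
    have h1 := abs_le.1 (lin_walk C.hL C.σ W)
    have h2 : (W.length : ℝ) * (size C.σ * C.L) ≤ (S.R : ℝ) * (size C.σ * C.L) :=
      mul_le_mul_of_nonneg_right (Nat.cast_le.2 hW) (mul_nonneg (size_nonneg _) C.hL0)
    have h3 := abs_le.1 hvlat
    have h4 := abs_le.1 haim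
    have hsm := C.small
    push_cast at hsm
    have h5 : (S.R : ℝ) * (size C.σ * C.L) ≤ 1 / 4 := by
      nlinarith [mul_nonneg (size_nonneg C.σ) C.hL0, mul_nonneg (size_nonneg C.σ) S.D_nonneg,
        mul_nonneg (mul_nonneg (size_nonneg C.σ) (Nat.cast_nonneg (α := ℝ) C.RK)) C.hL0]
    rw [lin_shift hz C.σ, ← hzσ] at h1
    exact abs_le.2 ⟨by linarith, by linarith⟩
  · have hpt : (C.Z Λ a (t + 1) (s + move k)).pt (C.cen t y (v : V)) = moveV (C.cen t y) hfit v :=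
      (dif_pos hmem).trans rfl
    rw [hpt]
    exact Relation.ReflTransGen.trans
      (cluster_shut_mono _ Set.subset_union_left w _
        (box_connects C a hy hn hΛ hopen hx (hfit _ x.2)))
      (cluster_shut_mono _ Set.subset_union_right w _ (cluster_move (C.cen t y) hfit _ w x hcl))

variable {N : ℝ}

theorem fits_time {t s : ℤ} (hA : 0 < C.A) (h : Fits N C.A 144 t s) :
    t.toNat ≤ ⌈N / C.A⌉₊ := by
  refine Nat.cast_le (α := ℝ).1 (le_trans ?_ (Nat.le_ceil _))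
  rw [le_div_iff₀ hA]
  have h1 := h.1
  push_cast at h1
  have h2 : ((t.toNat : ℕ) : ℝ) ≤ |(t : ℝ)| := by
    rcases le_or_gt 0 t with ht | ht
    · have : ((t.toNat : ℕ) : ℤ) = t := Int.toNat_of_nonneg ht
      rw [← Int.cast_natCast (R := ℝ), this]
      exact le_abs_self _
    · rw [show t.toNat = 0 by omega]
      simp
  nlinarith

/-- The block step on the window of radius `(n + 3) (R + R₀) + RK`, with `n` the largest time. -/
noncomputable def blockStep (hΛ : ∀ v, near G Ch.o ((⌈N / C.A⌉₊ + 3) * (S.R + C.R₀) + C.RK) v → v ∈ Λ) :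
    BlockStep (⟨wEnds G Λ, fun x => lin Ch.pos C.τ x + C.c₀, fun x => lin Ch.pos C.σ x⟩ :
      Frame (WV Λ) (WE G Λ)) N C.q C.thick C.A 144 C.δ (C.q ^ S.m) (C.q ^ S.m) (C.D * C.M) C.M V where
  Z := C.Z Λ a
  H := C.H Λ
  ball := C.ball Λ
  upper t s c _ k := H_upper C t s c k
  slab_le t s := fun e he => by
    obtain ⟨y, hy, hey⟩ := Set.mem_iUnion₂.1 he
    exact ⟨(box_bounds C a hy hey (end_mem e).1).1, (box_bounds C a hy hey (end_mem e).2).1⟩
  reach t s c hc := by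
    obtain ⟨hcΛ, hcase⟩ := mem_Z C a hc
    have hρ : (0 : ℝ) ≤ S.ρ := Nat.cast_nonneg _
    have hD := S.D_nonneg
    have hL := C.hL0
    have hR : (0 : ℝ) ≤ (S.R : ℝ) * C.L := mul_nonneg (Nat.cast_nonneg _) hL
    have hK : (0 : ℝ) ≤ (C.RK : ℝ) * C.L := mul_nonneg (Nat.cast_nonneg _) hL
    simp only [show (C.Z Λ a t s).pt c = ⟨c, hcΛ⟩ from dif_pos hcΛ, Data.thick, Data.c₀]
    push_cast
    rcases hcase with ⟨ht, -, hout, -⟩ | ⟨rfl, rfl, rfl⟩
    · have : C.cut t < lin Ch.pos C.τ c := not_le.1 fun hh => hout (S.le_subset _ _ _ hh)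
      simp only [Data.cut] at this
      linarith
    · rw [lin_origin]
      push_cast
      linarith
  ball_local t s hfit c hc k := by
    refine ⟨ball_local C t s c k, fun e he => ?_, Set.disjoint_left.2 fun e he he' => ?_⟩
    · have h := (ball_bounds C a hc he).2
      exact ⟨by simpa [move] using h _ (end_mem e).1, by simpa [move] using h _ (end_mem e).2⟩
    · obtain ⟨⟨u, hu, huS⟩, -⟩ := ball_bounds C a hc he
      obtain ⟨y', hy', hey'⟩ := Set.mem_iUnion₂.1 he'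
      have ht0 : 0 ≤ t := by
        rcases (mem_Z C a hc).2 with ⟨ht, -⟩ | ⟨rfl, -⟩ <;> omega
      obtain ⟨-, ⟨ht', -, hout, hin, -⟩ | ⟨h, -⟩⟩ := mem_Z C a hy'
      swap
      · omega
      simp only [Data.Z, if_pos ht'] at hey'
      exact (((C.seedOf _ _ hout hin).2.2.1 _ hey').2 u hu).1 huS
  target t s hfit c hc k w hw hopen := by
    have hA : 0 < C.A := by
      have := C.big
      have := S.D_nonneg
      have := mul_nonneg (Nat.cast_nonneg (α := ℝ) (S.R + C.RK + 2)) C.hL0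
      simp only [Data.A]
      linarith [(Nat.cast_nonneg S.ρ : (0 : ℝ) ≤ (S.ρ : ℝ))]
    have hn := fits_time C hA hfit
    refine (target C a hc (n := ⌈N / C.A⌉₊ + 3) (by omega) hΛ k hw hopen).trans
      (Set.ncard_le_ncard ?_ (Set.Finite.subset (Finset.finite_toSet _) fun x hx => hx.1))
    rintro c' ⟨h1, h2⟩
    refine ⟨h1, cluster_shut_mono _ (Set.union_subset_union_left _ fun e he => ?_) w _ h2⟩
    exact ⟨(box_bounds C a hc he (end_mem e).1).1, (box_bounds C a hc he (end_mem e).2).1⟩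
  next_slab t s hfit hne k := fun e he => by
    obtain ⟨y, hy, hey⟩ := Set.mem_iUnion₂.1 he
    obtain ⟨c, hc⟩ := hne
    have ht0 : 0 ≤ t := by
      rcases (mem_Z C a hc).2 with ⟨ht, -⟩ | ⟨rfl, -⟩ <;> omega
    have hbig := C.big
    have hD := S.D_nonneg
    have hL := C.hL0
    have hρ : (0 : ℝ) ≤ S.ρ := Nat.cast_nonneg _
    have key : ∀ v ∈ (e.1 : Sym2 V), C.A * ((t - 1 : ℤ) : ℝ) ≤ lin Ch.pos C.τ v + C.c₀ ∧
        lin Ch.pos C.τ v + C.c₀ ≤ C.A * ((t + 1 : ℤ) : ℝ) + C.thick ∧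
        C.A * (t : ℝ) + C.thick < lin Ch.pos C.τ v + C.c₀ ∧
        (144 : ℝ) * ((min s (s + move k) - 1 : ℤ) : ℝ) ≤ lin Ch.pos C.σ v ∧
        lin Ch.pos C.σ v ≤ (144 : ℝ) * ((max s (s + move k) + 1 : ℤ) : ℝ) := by
      intro v hv
      obtain ⟨h1, h2, h3⟩ := box_bounds C a hy hey hv
      have h2' := h2 (by omega)
      rw [cut_succ] at h2'
      have h3' := abs_le.1 h3
      have g1 : ((min s (s + move k) : ℤ) : ℝ) ≤ ((s + move k : ℤ) : ℝ) :=
        Int.cast_le.2 (min_le_right _ _)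
      have g2 : ((s + move k : ℤ) : ℝ) ≤ ((max s (s + move k) : ℤ) : ℝ) :=
        Int.cast_le.2 (le_max_right _ _)
      refine ⟨?_, h1, ?_, ?_, ?_⟩
      · simp only [Data.A, Data.c₀] at hbig h2' ⊢
        push_cast at hbig h2' ⊢
        linarith
      · simp only [Data.c₀, Data.thick] at hbig ⊢
        push_cast at hbig ⊢
        linarith
      · rw [Int.cast_sub, Int.cast_one]
        linarith
      · rw [Int.cast_add, Int.cast_one]
        linarith
    obtain ⟨k1, k2, k3, k4, k5⟩ := key _ (end_mem e).1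
    obtain ⟨l1, l2, -, l4, l5⟩ := key _ (end_mem e).2
    exact ⟨⟨⟨k1, k2, k4, k5⟩, ⟨l1, l2, l4, l5⟩⟩, fun h => absurd h.1 (not_le.2 k3)⟩
  sep t s hfit hne k u hu hcard := by
    obtain ⟨U, hU, hUc, hUp⟩ := C.spread u hcard
    refine ⟨U, hU, hUc, fun x hx x' hx' hne' => Set.disjoint_left.2 fun e he he' => ?_⟩
    obtain ⟨c, hc⟩ := hne
    have ht0 : 0 ≤ t := by
      rcases (mem_Z C a hc).2 with ⟨ht, -⟩ | ⟨rfl, -⟩ <;> omega
    obtain ⟨-, ⟨ht1, -, hout, hin, -⟩ | ⟨h, -⟩⟩ := mem_Z C a (hu (hU hx))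
    swap
    · omega
    obtain ⟨-, ⟨-, -, hout', hin', -⟩ | ⟨h, -⟩⟩ := mem_Z C a (hu (hU hx'))
    swap
    · omega
    simp only [Data.Z, if_pos ht1] at he he'
    exact Set.disjoint_left.1 (hUp hx hx' hne')
      (((C.seedOf _ _ hout hin).2.2.1 _ he).2 _ (end_mem e).1).2
      (((C.seedOf _ _ hout' hin').2.2.1 _ he').2 _ (end_mem e).1).2
  seeds t s hfit hne k c hc := by
    classical
    have hA : 0 < C.A := by
      have := C.big
      have := S.D_nonneg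
      have := mul_nonneg (Nat.cast_nonneg (α := ℝ) (S.R + C.RK + 2)) C.hL0
      simp only [Data.A]
      linarith [(Nat.cast_nonneg S.ρ : (0 : ℝ) ≤ (S.ρ : ℝ))]
    have hn := fits_time C hA hfit
    obtain ⟨c₁, hc₁⟩ := hne
    have ht0 : 0 ≤ t := by
      rcases (mem_Z C a hc₁).2 with ⟨ht, -⟩ | ⟨rfl, -⟩ <;> omega
    obtain ⟨-, ⟨ht', hb, hout, hin, -⟩ | ⟨h, -⟩⟩ := mem_Z C a hc
    swap
    · omega
    obtain ⟨-, hcard, hbox, -, -, -⟩ := C.seedOf _ _ hout hin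
    have hpr : Pr (fun _ => C.q) ((C.Z Λ a (t + 1) (s + move k)).isOpen c) = C.q ^ S.m := by
      set B : Finset (WE G Λ) :=
        univ.filter fun e => (e.1 : Sym2 V) ∈ C.boxOf (C.cut (t + 1)) c
      have hB : (C.Z Λ a (t + 1) (s + move k)).isOpen c = {w | ∀ e ∈ B, w e = true} := by
        ext w
        simp [Seeds.isOpen, Data.Z, ht', B]
      rw [hB, Renorm.Pr_open, prod_const]
      congr 1
      rw [← hcard]
      refine card_bij (fun e _ => (e.1 : Sym2 V)) (fun e he => (mem_filter.1 he).2)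
        (fun e _ e' _ h => Subtype.ext (Subtype.ext h)) fun e he => ?_
      obtain ⟨hG, hend⟩ := hbox e he
      refine ⟨⟨⟨e, hG⟩, fun v hv => hΛ v (near_mono (near_trans hb (hend v hv).2) ?_)⟩,
        mem_filter.2 ⟨mem_univ _, he⟩, rfl⟩
      simp only [Data.reach, show (t + 1).toNat = t.toNat + 1 by omega]
      have : (t.toNat + 2) * (S.R + C.R₀) ≤ (⌈N / C.A⌉₊ + 3) * (S.R + C.R₀) :=
        Nat.mul_le_mul_right _ (by omega)
      rw [add_mul _ 2] at this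
      rw [add_mul _ 1]
      omega
    exact ⟨hpr.ge, hpr.le, fun j => H_prob C a hc (by omega) hΛ j⟩

end Base

open Base in
set_option linter.unusedVariables false in
/-- Steerable moves with small hop error give percolation. -/
theorem base {ι : Type} [Fintype ι] {nb : V → ι → V} (hl : Listing G nb) (hc : G.Connected)
    (Ch : Chart G) (K : Finset V) (hK : Ch.o ∈ K) (S : Seeding Ch K) :
    ∃ (D T₀ : ℕ) (η : ℝ), 0 < η ∧
      ∀ (q : unitInterval) (δ : ℝ) (M : ℕ) (t s : ℝ × ℝ) (T : ℕ), 0 < (q : ℝ) → 0 < δ → δ < 1 →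
        IsAxis t → s ≠ 0 → T₀ ≤ T → size s ≤ η →
        Steer S.toCut (q : ℝ) K (D * M) (δ ^ 2) t s T →
        80000 * hopErr M ((q : ℝ) ^ S.m) ((q : ℝ) ^ S.m) δ 3 ≤ 1 →
        0 < perc G q (infAt G Ch.o) := by
  classical
  have hcount : Countable V := countable_of_connected hl hc
  obtain ⟨L₁, hL₁⟩ := Ch.short
  set L := max L₁ 0
  obtain ⟨D, hD⟩ := spread hl S.R
  choose W hW using fun x : V => (hc.preconnected Ch.o x).elim fun w => (⟨w, trivial⟩ :
    ∃ _ : G.Walk Ch.o x, True)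
  set RK := K.sup fun x => (W x).length
  set box₀ : Finset (Sym2 V) := K.biUnion fun x => (W x).edges.toFinset
  set E : ℝ := ((S.R + RK + 1 : ℕ) : ℝ) * L + S.D + 1
  have hE : 0 < E := by
    have := mul_nonneg (Nat.cast_nonneg (α := ℝ) (S.R + RK + 1)) (le_max_right L₁ 0)
    linarith [S.D_nonneg]
  refine ⟨D, ⌈2 * S.D + ((S.R + RK + 2 : ℕ) : ℝ) * L + S.ρ + 1⌉₊, 1 / (4 * E),
    by positivity, fun q δ M t s T hq hδ hδ1 ht _ hT hs hsteer herr => ?_⟩
  -- the seeds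
  have hsd : ∀ (X : ℝ) (y : V), ∃ (φ : G ≃g G) (z : ℤ × ℤ) (B : Finset (Sym2 V)),
      y ∉ S.side t X → (∃ y', y' ∈ S.side t X ∧ G.Adj y' y) →
        Shifts G Ch.pos φ z ∧ B.card = S.m ∧
          (∀ e ∈ B, e ∈ G.edgeSet ∧ ∀ v ∈ e, v ∉ S.side t X ∧ near G y S.R v) ∧
          near G y S.R (φ Ch.o) ∧
          (∀ x ∈ K, ∃ w : G.Walk y (φ x), ∀ e ∈ w.edges, e ∈ B) ∧
          ((∃ k : ℤ, X = k) → lin Ch.pos t (φ Ch.o) = X + S.ρ) := by
    intro X y
    by_cases h : y ∉ S.side t X ∧ ∃ y', y' ∈ S.side t X ∧ G.Adj y' y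
    · obtain ⟨h1, y', h2, h3⟩ := h
      have ht0 : t ≠ 0 := by
        rcases ht with rfl | rfl <;> simp
      obtain ⟨φ, z, B, hz, hB, he, hn, hw, hpl⟩ := S.seed t ht0 X y y' h1 h2 h3
      exact ⟨φ, z, B, fun _ _ => ⟨hz, hB, he, hn, hw, hpl ht⟩⟩
    · exact ⟨RelIso.refl _, 0, ∅, fun h1 h2 => absurd ⟨h1, h2⟩ h⟩
  choose cenOf zOf boxOf hseed using hsd
  have hwn : ∀ d : ℤ, ∃ Λ₀ : Finset V, |d| ≤ 150 → 1 - δ ^ 2 ≤ Pr (fun _ : WE G Λ₀ => (q : ℝ))
      (hitEv G Λ₀ (S.toCut.cyl t s T T (40 - min (0 : ℝ) d) (40 + max (0 : ℝ) d))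
        {v | v ∉ S.side t T ∧ |lin Ch.pos s v - d| ≤ 2} K (D * M)) := fun d => by
    by_cases h : |d| ≤ 150
    · obtain ⟨Λ₀, h₀⟩ := hsteer d h
      exact ⟨Λ₀, fun _ => h₀⟩
    · exact ⟨∅, fun h' => absurd h' h⟩
  choose win hwin using hwn
  set R₀ := (Finset.Icc (-150 : ℤ) 150).sup fun d => (win d).sup fun v => (W v).length
  have hη : size s * (((S.R + RK + 1 : ℕ) : ℝ) * L + S.D) ≤ 1 / 4 := by
    refine le_trans (mul_le_mul hs (show _ ≤ E by simp only [E]; linarith)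
      (add_nonneg (mul_nonneg (Nat.cast_nonneg _) (le_max_right _ _)) S.D_nonneg)
      (by positivity)) (le_of_eq ?_)
    field_simp
  let C : Data Ch K S :=
    { τ := t, σ := s, T := T, L := L, R₀ := R₀, RK := RK, D := D, M := M, q := (q : ℝ), δ := δ,
      hq := q.2, hδ := hδ, hτ := ht, hL0 := le_max_right _ _,
      hL := fun x y h => (hL₁ x y h).trans (le_max_left _ _),
      small := hη,
      big := (Nat.le_ceil _).trans (Nat.cast_le.2 hT),
      walks := fun x hx => ⟨W x, Finset.le_sup (f := fun x => (W x).length) hx⟩,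
      cenOf := cenOf, zOf := zOf, boxOf := boxOf, seedOf := hseed,
      spread := fun u hu => hD M u hu,
      win := win,
      hwin := fun d hd => ⟨fun v hv => ⟨W v, le_trans
        (Finset.le_sup (f := fun v => (W v).length) hv)
        (Finset.le_sup (f := fun d => (win d).sup fun v => (W v).length)
          (Finset.mem_Icc.2 (abs_le.1 hd)))⟩, hwin d hd⟩,
      box₀ := box₀,
      hbox₀ := ⟨fun e he => by
        obtain ⟨x, hx, hex⟩ := Finset.mem_biUnion.1 he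
        rw [List.mem_toFinset] at hex
        refine ⟨(W x).edges_subset_edgeSet hex, fun v hv => ?_⟩
        have hsup : v ∈ (W x).support := by
          induction e using Sym2.ind with
          | _ c d =>
            rcases Sym2.mem_iff.1 hv with rfl | rfl
            exacts [(W x).fst_mem_support_of_mem_edges hex, (W x).snd_mem_support_of_mem_edges hex]
        exact ⟨(W x).takeUntil v hsup, ((W x).length_takeUntil_le_length hsup).trans
          (Finset.le_sup (f := fun x => (W x).length) hx)⟩,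
        fun x hx => ⟨W x, fun e he => Finset.mem_biUnion.2 ⟨x, hx, List.mem_toFinset.2 he⟩⟩⟩ }
  have hthick : C.thick + 1 ≤ T := C.big
  have hρ : (0 : ℝ) ≤ S.ρ := Nat.cast_nonneg _
  have hth0 : 0 ≤ C.thick := by
    have := mul_nonneg (Nat.cast_nonneg (α := ℝ) (S.R + RK + 2)) (le_max_right L₁ 0)
    show 0 ≤ 2 * S.D + ((S.R + RK + 2 : ℕ) : ℝ) * L + S.ρ
    linarith [S.D_nonneg]
  refine percolates_of_blocks hl Ch.o (fun v => lin Ch.pos t v + C.c₀) q hq
    (A := C.A) (B := 144) (r := C.thick) (δ := δ) (π := (q : ℝ) ^ S.m) (π' := (q : ℝ) ^ S.m)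
    (K := D * M) (M := M) (n₀ := box₀.card) (ι := V) hδ hδ1.le hth0
    (show C.thick < (T : ℝ) + S.ρ by linarith) (by norm_num)
    (pow_le_one₀ q.2.1 q.2.2) (pow_nonneg q.2.1 _) herr fun N => ?_
  set n := (⌈N / C.A⌉₊ + 3) * (S.R + R₀) + RK
  set Λ : Finset V := (Finset.range (n + 1)).biUnion fun i => walkBall nb i Ch.o
  have hΛ : ∀ v, near G Ch.o n v → v ∈ Λ := fun v ⟨w, hw⟩ =>
    Finset.mem_biUnion.2 ⟨w.reverse.length, Finset.mem_range.2 (by
      rw [SimpleGraph.Walk.length_reverse]; omega), mem_walkBall hl w.reverse⟩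
  have hoΛ : Ch.o ∈ Λ := hΛ _ ⟨.nil, by simp⟩
  let a : WV Λ := ⟨Ch.o, hoΛ⟩
  have h00 : Ch.o ∈ (C.Z Λ a 0 0).idx := Finset.mem_filter.2 ⟨hoΛ, Or.inr ⟨rfl, rfl, rfl⟩⟩
  refine ⟨Λ, fun x => lin Ch.pos s x, blockStep C a hΛ, Ch.o, h00, ?_, fun k => ?_, ?_⟩
  · show (((C.Z Λ a 0 0).pt Ch.o : WV Λ) : V) = Ch.o
    simp [Data.Z, hoΛ]
  · exact H_prob C a h00 (n := ⌈N / C.A⌉₊ + 3) (by simp) hΛ k
  · refine Finset.card_le_card_of_injOn (fun e => (e.1 : Sym2 V)) (fun e he => ?_)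
      fun e _ e' _ h => Subtype.ext (Subtype.ext h)
    rw [Set.Finite.coe_toFinset] at he
    obtain ⟨y, -, hey⟩ := Set.mem_iUnion₂.1 he
    simpa [blockStep, Data.Z] using hey

end Vale.Agent.P151.Zt
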