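import Vale.Agent.P151.Glue0.Toolkit

/-!
# Renormalised levels on a finite window with two coordinates

An abstract finite window (vertices `V`, edges `E`, the ends of each edge) carries two real
coordinates: `T` is the direction of the renormalisation, `X` the lateral one. In a real window
the vertices may also be cut in other directions; `Fits` bounds both coordinates of a step.
-/

namespace Vale.Agent.P151.Zt

open Glue0

/-- A finite window with two coordinates. -/
structure Frame (V E : Type) where
  /-- The two ends of an edge. -/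
  en : E → V × V
  /-- The forward coordinate. -/
  T : V → ℝ
  /-- The lateral coordinate. -/
  X : V → ℝ

variable {V E : Type}

/-- The edges with both ends satisfying `P`. -/
def Frame.inside (F : Frame V E) (P : V → Prop) : Set E :=
  {e | P (F.en e).1 ∧ P (F.en e).2}

/-- The edges whose two ends have forward coordinate at most `u`. -/
def Frame.halfSpace (F : Frame V E) (u : ℝ) : Set E := F.inside fun x => F.T x ≤ u

/-- The region of one step of a level: from time `t` to `t + 1`, from lateral position `s` to
`s + δ`, in time units `A` and lateral units `B`. -/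
def Frame.region (F : Frame V E) (A B r : ℝ) (t s δ : ℤ) : Set E :=
  F.inside fun x => A * ((t - 1 : ℤ) : ℝ) ≤ F.T x ∧ F.T x ≤ A * ((t + 1 : ℤ) : ℝ) + r ∧
    B * ((min s (s + δ) - 1 : ℤ) : ℝ) ≤ F.X x ∧ F.X x ≤ B * ((max s (s + δ) + 1 : ℤ) : ℝ)

/-- The step fits within the bound `N`. -/
def Fits (N A B : ℝ) (t s : ℤ) : Prop :=
  A * ((|t| + 2 : ℤ) : ℝ) ≤ N ∧ B * ((|s| + 2 : ℤ) : ℝ) ≤ N

/-- Admissible weights for a step: at least `p` on its region, exactly `p` where the region
is ahead of its start. -/
def Admissible (F : Frame V E) (A B r p : ℝ) (t s δ : ℤ) (q : E → ℝ) : Prop :=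
  (∀ e, q e ∈ Set.Icc (0 : ℝ) 1) ∧
    ∀ e ∈ F.region A B r t s δ, p ≤ q e ∧ (e ∉ F.halfSpace (A * (t : ℝ) + r) → q e = p)

variable [Fintype V] [DecidableEq V] [Fintype E] [DecidableEq E]

/-- A renormalised level: an event for every position, seen from the fixed vertex `a`, such that
whatever happens outside the region of a step, the step fails with probability at most `ε`. -/
structure System (F : Frame V E) (N p r A B ε : ℝ) (a : V) where
  /-- The event of a position. -/
  Hit : ℤ → ℤ → Set (E → Bool)
  mono : ∀ t s : ℤ, IsUpperSet (Hit t s)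
  local_hit : ∀ t s : ℤ, LocalEv (F.halfSpace (A * (t : ℝ) + r)) (Hit t s)
  reach : ∀ (t s : ℤ) (w : E → Bool), w ∈ Hit t s → ∃ y ∈ cluster F.en w a, A * (t : ℝ) - r ≤ F.T y
  step : ∀ (t s δ : ℤ) (q : E → ℝ), |δ| ≤ 1 → Fits N A B t s →
    Admissible F A B r p t s δ q → Pr q (Hit t s \ Hit (t + 1) (s + δ)) ≤ ε

end Vale.Agent.P151.Zt
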