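import Vale.Agent.P151.Zt.Hop
import Vale.Agent.P151.Zt.System

/-!
# The first level from one block step

Zones of seeds sit at the positions of the first level; each seed has three aimed events, one
for each move. When each of them is likely, is supported in the region of its step and leads to
many seeds of the next zone, the zones form a renormalised level.
-/

open Finset

namespace Vale.Agent.P151.Zt

open Glue0 Renorm

variable {V E ι : Type} [Fintype V] [DecidableEq V] [Fintype E] [DecidableEq E]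

/-- The lateral move of an aim. -/
def move (k : Fin 3) : ℤ := (k.val : ℤ) - 1

theorem exists_move {δ : ℤ} (h : |δ| ≤ 1) : ∃ k : Fin 3, move k = δ := by
  rw [abs_le] at h
  obtain rfl | rfl | rfl : δ = -1 ∨ δ = 0 ∨ δ = 1 := by omega
  exacts [⟨0, rfl⟩, ⟨1, rfl⟩, ⟨2, rfl⟩]

/-- What one block step has to provide: zones, aimed events and their balls. -/
structure BlockStep (F : Frame V E) (N p r A B δ π π' : ℝ) (K M : ℕ) (ι : Type) where
  /-- The seeds at a position. -/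
  Z : ℤ → ℤ → Seeds V E ι
  /-- The aimed events. -/
  H : ℤ → ℤ → ι → Fin 3 → Set (E → Bool)
  /-- The edges that an aimed event looks at. -/
  ball : ℤ → ℤ → ι → Fin 3 → Set E
  upper : ∀ t s, ∀ c ∈ (Z t s).idx, ∀ k, IsUpperSet (H t s c k)
  slab_le : ∀ t s, (Z t s).slab ⊆ F.halfSpace (A * (t : ℝ) + r)
  reach : ∀ t s, ∀ c ∈ (Z t s).idx, A * (t : ℝ) - r ≤ F.T ((Z t s).pt c)
  ball_local : ∀ t s, Fits N A B t s → ∀ c ∈ (Z t s).idx, ∀ k,
    LocalEv (ball t s c k) (H t s c k) ∧ ball t s c k ⊆ F.region A B r t s (move k) ∧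
      Disjoint (ball t s c k) (Z (t + 1) (s + move k)).slab
  target : ∀ t s, Fits N A B t s → ∀ c ∈ (Z t s).idx, ∀ k, ∀ w ∈ H t s c k,
    w ∈ (Z t s).isOpen c → K ≤ {c' | c' ∈ (Z (t + 1) (s + move k)).idx ∧
      (Z (t + 1) (s + move k)).pt c' ∈
        cluster F.en (shut (F.halfSpace (A * (t : ℝ) + r) ∪ ball t s c k)ᶜ w)
          ((Z t s).pt c)}.ncard
  next_slab : ∀ t s, Fits N A B t s → (Z t s).idx.Nonempty → ∀ k,
    (Z (t + 1) (s + move k)).slab ⊆ F.region A B r t s (move k) \ F.halfSpace (A * (t : ℝ) + r)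
  sep : ∀ t s, Fits N A B t s → (Z t s).idx.Nonempty → ∀ k, ∀ u ⊆ (Z (t + 1) (s + move k)).idx, K ≤ u.card →
    ∃ U ⊆ u, U.card = M ∧ (U : Set ι).Pairwise fun x y =>
      Disjoint ((Z (t + 1) (s + move k)).box x) ((Z (t + 1) (s + move k)).box y)
  seeds : ∀ t s, Fits N A B t s → (Z t s).idx.Nonempty → ∀ k, ∀ c ∈ (Z (t + 1) (s + move k)).idx,
    π ≤ Pr (fun _ => p) ((Z (t + 1) (s + move k)).isOpen c) ∧
      Pr (fun _ => p) ((Z (t + 1) (s + move k)).isOpen c) ≤ π' ∧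
      ∀ j, 1 - δ ^ 2 ≤ Pr (fun _ => p) (H (t + 1) (s + move k) c j)

/-- A block step gives the first level; its event at the origin follows from the openness of
the seeds there. -/
theorem system_of_block {F : Frame V E} {N p r A B δ π π' : ℝ} {K M : ℕ}
    (hp : p ∈ Set.Icc (0 : ℝ) 1) (hδ : 0 < δ) (hδ1 : δ ≤ 1) (hA : 0 ≤ A) (hπ : π ≤ 1)
    (hπ' : 0 ≤ π') (D : BlockStep F N p r A B δ π π' K M ι) {c₀ : ι}
    (hc₀ : c₀ ∈ (D.Z 0 0).idx) (h₀ : ∀ k, 1 - δ ^ 2 ≤ Pr (fun _ => p) (D.H 0 0 c₀ k)) :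
    ∃ S : System F N p r A B (hopErr M π π' δ 3) ((D.Z 0 0).pt c₀),
      ∀ w, (∀ e ∈ (D.Z 0 0).slab, w e = true) → w ∈ S.Hit 0 0 := by
  set a := (D.Z 0 0).pt c₀
  refine ⟨{
      Hit := fun t s =>
        HitGood F.en (D.Z t s) (D.H t s) p δ (F.halfSpace (A * (t : ℝ) + r)) a
      mono := fun t s => hitGood_upper F.en _ hp (D.upper t s) _ _
      local_hit := fun t s => hitGood_local F.en _ _ p δ (D.slab_le t s) a
      reach := fun t s w hw => ?_
      step := fun t s dl q hdl hfit hadm => ?_ }, fun w hw => ?_⟩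
  · obtain ⟨c, hc, -, hcl⟩ := hw
    exact ⟨_, cluster_mono (shut_le _ w) a hcl, D.reach t s c hc⟩
  · obtain ⟨hq, hreg⟩ := hadm
    obtain ⟨k, rfl⟩ := exists_move hdl
    by_cases hne : (D.Z t s).idx.Nonempty
    swap
    · have hε : 0 ≤ hopErr M π π' δ 3 := by
        unfold hopErr
        have := pow_nonneg (sub_nonneg.2 hπ) M
        positivity
      refine le_trans (le_of_eq ?_) hε
      rw [Finset.not_nonempty_iff_eq_empty] at hne
      simp [HitGood, hne, Pr, Ev]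
    set W : Set E := F.halfSpace (A * (t : ℝ) + r) ∪ ⋃ c ∈ (D.Z t s).idx, D.ball t s c k with hW
    have hslab : ∀ e ∈ (D.Z (t + 1) (s + move k)).slab,
        e ∈ F.region A B r t s (move k) ∧ e ∉ F.halfSpace (A * (t : ℝ) + r) :=
      fun e he => D.next_slab t s hfit hne k he
    have hhalf : ∀ e ∈ F.region A B r t s (move k),
        e ∈ F.halfSpace (A * ((t + 1 : ℤ) : ℝ) + r) := fun e he =>
      ⟨he.1.2.1, he.2.2.1⟩
    have hmem : ∀ e, e ∈ W ∪ (D.Z (t + 1) (s + move k)).slab →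
        e ∈ F.halfSpace (A * ((t + 1 : ℤ) : ℝ) + r) := by
      rintro e ((he | he) | he)
      · have h := mul_le_mul_of_nonneg_left
          (show ((t : ℤ) : ℝ) ≤ ((t + 1 : ℤ) : ℝ) by push_cast; linarith) hA
        exact ⟨he.1.trans (by linarith), he.2.trans (by linarith)⟩
      · obtain ⟨c, hc, hec⟩ := Set.mem_iUnion₂.1 he
        exact hhalf e ((D.ball_local t s hfit c hc k).2.1 hec)
      · exact hhalf e (hslab e he).1
    refine (Pr_mono hq ?_).trans (le_of_le_of_eq (hop F.en hp hδ q hq (D.Z t s)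
      (D.Z (t + 1) (s + move k)) (D.H t s) (D.H (t + 1) (s + move k)) (D.ball t s) k W
      (F.halfSpace (A * ((t + 1 : ℤ) : ℝ) + r)) a ?_ hmem ?_ ?_ (D.sep t s hfit hne k) hπ hπ'
      (fun e he => (hreg e (hslab e he).1).2 (hslab e he).2)
      fun c hc => ?_) (by rw [Fintype.card_fin]))
    · rintro w ⟨⟨c, hc, hg, hcl⟩, hout⟩
      exact ⟨⟨c, hc, hg, cluster_shut_mono F.en Set.subset_union_left w a hcl⟩, hout⟩
    · refine Set.disjoint_left.2 ?_
      rintro e (he | he) he'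
      · exact (hslab e he').2 he
      · obtain ⟨c, hc, hec⟩ := Set.mem_iUnion₂.1 he
        exact Set.disjoint_left.1 (D.ball_local t s hfit c hc k).2.2 hec he'
    · intro c hc
      obtain ⟨hloc, hsub, -⟩ := D.ball_local t s hfit c hc k
      exact ⟨D.upper t s c hc k, hloc, fun e he => Or.inr (Set.mem_biUnion hc he),
        fun e he => (hreg e (hsub he)).1⟩
    · intro c hc w hw hopen
      refine (D.target t s hfit c hc k w hw hopen).trans
        (Set.ncard_le_ncard ?_ ((Finset.finite_toSet _).subset fun x hx => hx.1))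
      rintro c' ⟨h1, h2⟩
      refine ⟨h1, cluster_shut_mono F.en ?_ w _ h2⟩
      exact Set.union_subset_union_right _
        (Set.subset_biUnion_of_mem (u := fun c => D.ball t s c k) hc)
    · obtain ⟨h1, h2, h3⟩ := D.seeds t s hfit hne k c hc
      exact ⟨h1, h2, fun j => ⟨D.upper _ _ c hc j, h3 j⟩⟩
  · refine ⟨c₀, hc₀, ⟨fun e he => hw e (Set.mem_biUnion hc₀ he), fun k => ?_⟩,
      mem_cluster_self _ _⟩
    have hd : 1 - δ ≤ 1 - δ ^ 2 := by nlinarith
    refine hd.trans ((h₀ k).trans (Pr_weights_mono (fun _ => hp) (fixOut_mem (fun _ => hp) _ _)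
      (fun e => ?_) (D.upper 0 0 c₀ hc₀ k)))
    by_cases he : e ∈ (D.Z 0 0).slab
    · simp [fixOut, he, hw e he, hp.2]
    · simp [fixOut, he]

/-- With the seeds at the origin forced open, the first step is taken with high probability. -/
theorem formation_of_block {F : Frame V E} {N p r A B δ π π' : ℝ} {K M : ℕ}
    (hp : p ∈ Set.Icc (0 : ℝ) 1) (hδ : 0 < δ) (hδ1 : δ ≤ 1) (hA : 0 ≤ A) (hπ : π ≤ 1)
    (hπ' : 0 ≤ π') (D : BlockStep F N p r A B δ π π' K M ι) {c₀ : ι}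
    (hc₀ : c₀ ∈ (D.Z 0 0).idx) (h₀ : ∀ k, 1 - δ ^ 2 ≤ Pr (fun _ => p) (D.H 0 0 c₀ k)) :
    ∃ S : System F N p r A B (hopErr M π π' δ 3) ((D.Z 0 0).pt c₀),
      ∀ q : E → ℝ, (∀ e, q e ∈ Set.Icc p 1) → (∀ e ∈ (D.Z 0 0).slab, q e = 1) →
        (∀ e ∉ F.halfSpace r, q e = p) → Fits N A B 0 0 →
        1 - hopErr M π π' δ 3 ≤ Pr q (S.Hit 1 0) := by
  obtain ⟨S, hS⟩ := system_of_block hp hδ hδ1 hA hπ hπ' D hc₀ h₀
  refine ⟨S, fun q hq hone hout hfit => ?_⟩
  have hqI : ∀ e, q e ∈ Set.Icc (0 : ℝ) 1 := fun e => ⟨hp.1.trans (hq e).1, (hq e).2⟩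
  have hstep := S.step 0 0 0 q (by simp) hfit ⟨hqI, fun e _ => ⟨(hq e).1, fun he => hout e (by
    simpa using he)⟩⟩
  have h0 : Pr q (S.Hit 0 0)ᶜ = 0 := by
    refine le_antisymm ?_ (Pr_nonneg hqI _)
    refine (Pr_mono hqI (B := ⋃ e ∈ (Set.toFinite (D.Z 0 0).slab).toFinset,
      {w : E → Bool | w e = false}) fun w hw => ?_).trans ((Pr_biUnion_le hqI _ _).trans ?_)
    · by_contra h
      refine hw (hS w fun e he => ?_)
      by_contra h'
      exact h (Set.mem_biUnion ((Set.Finite.mem_toFinset _).2 he) (by simpa using h'))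
    · refine le_of_eq (Finset.sum_eq_zero fun e he => ?_)
      have h1 : {w : E → Bool | w e = false} = {w | ∀ i ∈ ({e} : Finset E), w i = true}ᶜ := by
        ext w; simp
      rw [h1, Pr_compl, Pr_open, Finset.prod_singleton,
        hone e ((Set.Finite.mem_toFinset _).1 he), sub_self]
  have key : Pr q (S.Hit 1 0)ᶜ ≤ Pr q (S.Hit 0 0)ᶜ + Pr q (S.Hit 0 0 \ S.Hit 1 0) :=
    (Pr_mono hqI fun w hw => by
      by_cases h : w ∈ S.Hit 0 0
      exacts [Or.inr ⟨h, hw⟩, Or.inl h]).trans (Pr_union_le hqI _ _)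
  rw [Pr_compl] at key
  simp only [zero_add, add_zero] at hstep
  linarith

end Vale.Agent.P151.Zt
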