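import Vale.Agent.P151.Zt.Straight

/-!
# Blocks and their iteration

A block moves aside to a line, then straight to an exact plane: it lands near any of seventeen
lateral positions in suitable coordinates. Thirty-six steered blocks give the finite criterion.
-/

namespace Vale.Agent.P151.Zt

variable {V : Type} {G : SimpleGraph V} {Ch : Chart G} {K : Finset V}

/-- The lateral form of a block: `f / (11 L) - 9 t / T`. -/
noncomputable def latForm (t f : ℝ × ℝ) (L : ℝ) (T : ℕ) : ℝ × ℝ :=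
  ((11 * L)⁻¹ * f.1 + (-9 / (T : ℝ)) * t.1, (11 * L)⁻¹ * f.2 + (-9 / (T : ℝ)) * t.2)

theorem size_latForm_le (t f : ℝ × ℝ) {L : ℝ} (hL : 0 < L) (T : ℕ) :
    size (latForm t f L T) ≤ size f / (11 * L) + 9 / T * size t := by
  have h0 : (0 : ℝ) ≤ (11 * L)⁻¹ := by positivity
  have h9 : (0 : ℝ) ≤ 9 / T := by positivity
  have e : ∀ a b : ℝ, |(11 * L)⁻¹ * a + -9 / (T : ℝ) * b| ≤
      (11 * L)⁻¹ * |a| + 9 / T * |b| := fun a b => by
    refine (abs_add_le _ _).trans ?_
    rw [abs_mul, abs_mul, abs_of_nonneg h0, neg_div, abs_neg, abs_of_nonneg h9]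
  have h1 := e f.1 t.1
  have h2 := e f.2 t.2
  simp only [size, latForm, div_eq_mul_inv] at h1 h2 ⊢
  linarith

variable {S : Seeding Ch K} {K₀ : Finset V} {p δ₀ e : ℝ} {M₁ : ℕ} {l k₀ η : ℝ} {t f : ℝ × ℝ}
  {n : ℕ} {L : ℝ}

/-- One block. -/
theorem Scale.block (h : Scale S K₀ p δ₀ e M₁ l k₀ η t f n L) (he : 0 ≤ e) {δ₁ e₁ : ℝ}
    (hδ₁ : 0 < δ₁) (hG : Glue S p δ₁ e₁ M₁) (hle : δ₀ ^ 2 + 3202 * e ≤ δ₁ ^ 2) {ε : ℝ}
    (hε : δ₀ ^ 2 + 400 * e + e₁ ≤ ε) (u : ℤ) (hu : |u| ≤ 8) :
    LikelyHit G p K M₁ ε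
      (S.cyl t (latForm t f L (1600 * n)) (1600 * n : ℕ) (1600 * n : ℕ) 30 30)
      {v | v ∉ S.side t (1600 * n : ℕ) ∧ |lin Ch.pos (latForm t f L (1600 * n)) v - u| ≤ 1} := by
  obtain ⟨hD, hl, hR, hρ, hk0, hn, hs, hs1, hsD, hsl, hsR, hsk, hsDl, hDs⟩ := h.bounds
  have hL := h.L_pos
  have hu' := abs_le.1 hu
  set s := latForm t f L (1600 * n) with hsdef
  set T : ℝ := ((1600 * n : ℕ) : ℝ) with hTdef
  have hT : T = 1600 * (n : ℝ) := by simp [hTdef]
  have hn1 : (1 : ℝ) ≤ n := by linarith [h.large]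
  have hTpos : 0 < T := by linarith
  have lins : ∀ v, lin Ch.pos s v =
      lin Ch.pos f v / (11 * L) - 9 * lin Ch.pos t v / T := fun v => by
    rw [hsdef, latForm, lin_comb]
    simp only [hTdef, div_eq_mul_inv]
    ring
  have inS : ∀ v, -(2 * L) ≤ lin Ch.pos f v → lin Ch.pos f v ≤ 210 * L →
      |lin Ch.pos t v| ≤ 1700 * n → v ∈ S.side (-s) 30 ∧ v ∈ S.side s 30 := by
    intro v h1 h2 h3
    have a1 : -(2 / 11 : ℝ) ≤ lin Ch.pos f v / (11 * L) := by
      rw [le_div_iff₀ (by positivity)]; linarith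
    have a2 : lin Ch.pos f v / (11 * L) ≤ 210 / 11 := by
      rw [div_le_iff₀ (by positivity)]; linarith
    have a3 : |9 * lin Ch.pos t v / T| ≤ 9.6 := by
      rw [abs_div, abs_of_pos hTpos, div_le_iff₀ hTpos, abs_mul, abs_of_nonneg (by norm_num : (0:ℝ) ≤ 9)]
      norm_num
      linarith
    rw [abs_le] at a3
    norm_num at a3
    exact ⟨S.le_subset _ _ _ (by rw [lin_neg, lins]; linarith),
      S.le_subset _ _ _ (by rw [lins]; linarith)⟩
  -- the line
  set i : ℕ := (22 * (u + 9) - 1).toNat with hi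
  have hi400 : i ≤ 373 := by omega
  have hcast : ((i : ℝ) + 1) = 22 * ((u : ℝ) + 9) := by
    have : ((i : ℤ) + 1) = 22 * (u + 9) := by omega
    exact_mod_cast this
  have hi' : (i : ℝ) ≤ 373 := by exact_mod_cast hi400
  set F : ℝ := ((i : ℝ) + 1) * (L / 2) with hF
  have hFu : F = 11 * L * ((u : ℝ) + 9) := by rw [hF, hcast]; ring
  have hu1 : (-8 : ℝ) ≤ u := by exact_mod_cast hu'.1
  have hu2 : (u : ℝ) ≤ 8 := by exact_mod_cast hu'.2
  have hF1 : 11 * L ≤ F := by rw [hFu]; exact le_mul_of_one_le_right (by linarith) (by linarith)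
  have hF2 : F ≤ 187 * L := by
    rw [hFu]
    have : 11 * L * ((u : ℝ) + 9) ≤ 11 * L * 17 :=
      mul_le_mul_of_nonneg_left (by linarith) (by linarith)
    linarith
  have hin : (i : ℝ) * n ≤ 373 * n := mul_le_mul_of_nonneg_right hi' (by linarith)
  have hin0 : (0 : ℝ) ≤ i * n := by positivity
  have hie : (i : ℝ) * e ≤ 400 * e := mul_le_mul_of_nonneg_right (by linarith) he
  refine h.extend_le (by linarith : δ₀ ^ 2 + (i : ℝ) * e + e₁ ≤ ε) hδ₁ hG h.f_ne F
    (fun x hx => ?_) (fun v hv => ?_) (fun v hv => hv.2.2) (fun y hy => hy.1)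
    (h.aside i (by omega)) (fun y y' v hy hy' ha hv hw => ?_)
    (fun y y' hy hy' ha φ z hφ hw hout hax => ?_)
  · exact h.K_cyl (by linarith) (by linarith) (by linarith) (by linarith) hx
  · obtain ⟨⟨b1, b2⟩, b3, b4⟩ := S.cyl_bound hv
    rw [h.axis.size_eq, mul_one] at b1 b2
    obtain ⟨c1, c2⟩ := inS v (by linarith) (by linarith) (abs_le.2 ⟨by linarith, by linarith⟩)
    exact ⟨⟨S.le_subset _ _ _ (by rw [lin_neg]; linarith), S.le_subset _ _ _ (by linarith)⟩,
      c1, c2⟩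
  · obtain ⟨w, hw⟩ := hw
    have h1 := S.lt_of_notMem hv
    have h2 := S.le_of_adj h.hl hy'.2.2 ha
    have h3 := abs_le.1 (lin_walk_le h.hl hl t w hw)
    have h4 := abs_le.1 (lin_walk_le h.hl hl f w hw)
    have h5 := abs_le.1 hy.2
    rw [h.axis.size_eq, one_mul] at h3
    obtain ⟨c1, c2⟩ := inS v (by linarith) (by linarith) (abs_le.2 ⟨by linarith, by linarith⟩)
    exact ⟨⟨S.le_subset _ _ _ (by rw [lin_neg]; linarith), S.le_subset _ _ _ (by linarith)⟩,
      c1, c2⟩
  · obtain ⟨w, hw⟩ := hw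
    have h1 := S.lt_of_notMem hout
    have h2 := S.le_of_adj h.hl hy'.2.2 ha
    have h3 := abs_le.1 (lin_walk_le h.hl hl t w hw)
    have h4 := abs_le.1 (lin_walk_le h.hl hl f w hw)
    have h5 := abs_le.1 hy.2
    rw [h.axis.size_eq, one_mul] at h3
    obtain ⟨c, hc⟩ := hφ.center_int h.axis
    set cf := lin Ch.pos f (φ Ch.o) with hcf
    have hc1 : (-1496 : ℝ) * n ≤ c := by rw [← hc]; linarith
    have hc2 : (c : ℝ) ≤ 1496 * n := by rw [← hc]; linarith
    have hc1' : -1496 * (n : ℤ) ≤ c := by exact_mod_cast hc1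
    have hc2' : c ≤ 1496 * (n : ℤ) := by exact_mod_cast hc2
    set k : ℕ := (1600 * (n : ℤ) - c).toNat with hk
    have hkT : (k : ℝ) = T - c := by
      have : (k : ℤ) = 1600 * (n : ℤ) - c := by omega
      rw [hT]
      exact_mod_cast this
    refine ⟨_, _, (h.straight he k (by omega) (by omega)).mono h.prob (Finset.Subset.refl _)
      (fun x hx => ?_) subset_rfl (fun _ _ _ hz hs _ => ⟨hz, hs⟩) le_rfl hle, fun x hx => ?_,
      fun v hv => ?_, fun v z hv _ hz hvz => ?_⟩
    · exact h.K_cyl (by linarith) (by linarith) (by linarith) (by linarith) hx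
    · exact h.K_cyl (by linarith) (by linarith) (by linarith) (by linarith) hx
    · obtain ⟨⟨b1, b2⟩, b3, b4⟩ := S.cyl_bound hv
      rw [h.axis.size_eq, mul_one] at b1 b2
      obtain ⟨c1, c2⟩ := inS (φ v) (by rw [hφ.lin_add, ← hcf]; linarith)
        (by rw [hφ.lin_add, ← hcf]; linarith)
        (by rw [hφ.lin_add, hc, abs_le]; exact ⟨by linarith, by linarith⟩)
      refine ⟨⟨?_, ?_⟩, c1, c2⟩
      · exact S.le_subset _ _ _ (by rw [lin_neg, hφ.lin_add, hc]; linarith)
      · rw [S.shift_mem hφ, hc, ← hkT]; exact hv.1.2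
    · obtain ⟨hz1, hz2⟩ := hz
      have hout' : φ z ∉ S.side t T := by rw [S.shift_mem hφ, hc, ← hkT]; exact hz1
      refine ⟨fun h' => hout' h'.1.2, hout', ?_⟩
      have hv' : φ v ∈ S.side t T := by rw [S.shift_mem hφ, hc, ← hkT]; exact hv.1.2
      have g1 := S.lt_of_notMem hout'
      have g2 := S.le_of_adj h.hl hv' (φ.map_adj_iff.2 hvz)
      rw [h.axis.size_eq, one_mul] at g2
      have hz2' := abs_le.1 hz2
      have g3 : |lin Ch.pos f (φ z) - F| ≤ 10.001 * L := by
        rw [hφ.lin_add, ← hcf, abs_le]; norm_num; constructor <;> linarith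
      have e1 : lin Ch.pos s (φ z) - u =
          (lin Ch.pos f (φ z) - F) / (11 * L) - 9 * (lin Ch.pos t (φ z) - T) / T := by
        rw [lins, hFu]
        field_simp
        ring
      rw [e1]
      refine (abs_sub _ _).trans ?_
      have a1 : |(lin Ch.pos f (φ z) - F) / (11 * L)| ≤ 10.001 / 11 := by
        rw [abs_div, abs_of_pos (show (0 : ℝ) < 11 * L by positivity),
          div_le_iff₀ (by positivity)]
        refine g3.trans (le_of_eq ?_); ring
      have a2 : |9 * (lin Ch.pos t (φ z) - T) / T| ≤ 0.01 := by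
        rw [abs_div, abs_of_pos hTpos, div_le_iff₀ hTpos, abs_mul,
          abs_of_nonneg (show (0 : ℝ) ≤ 9 by norm_num), abs_of_pos (sub_pos.2 g1)]
        norm_num
        linarith
      norm_num at a1 a2 ⊢
      linarith

/-- Thirty-six steered blocks. -/
theorem steer_iterate (hconn : ∀ x ∈ K, ∃ W : G.Walk Ch.o x, ∀ v ∈ W.support, v ∈ K)
    (hoK : Ch.o ∈ K) (hp : p ∈ Set.Icc (0 : ℝ) 1) {δ e₂ εB ε : ℝ} (hδ : 0 < δ)
    (hG : Glue S p δ e₂ M₁) (hB : εB ≤ δ ^ 2) (hε : εB + 35 * e₂ ≤ ε) (hl : StepBound Ch l)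
    (hl0 : 0 ≤ l) (ht : IsAxis t) {s : ℝ × ℝ} {T : ℕ} (hK : ∀ x ∈ K, size (Ch.pos x) ≤ k₀)
    (hT : S.D + l + S.R * l + S.ρ + k₀ + 1 ≤ T)
    (hs : size s * (S.D + l + S.R * l + k₀ + 1) ≤ 1 / 100) {M : ℕ} (hM : M ≤ M₁)
    (hblock : ∀ u : ℤ, |u| ≤ 8 → LikelyHit G p K M₁ εB (S.cyl t s T T 30 30)
      {v | v ∉ S.side t T ∧ |lin Ch.pos s v - u| ≤ 1}) :
    Steer S.toCut p K M ε t s (36 * T + 35 * S.ρ) := by
  intro d hd
  have hd1 : (-150 : ℝ) ≤ d := by exact_mod_cast (abs_le.1 hd).1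
  have hd2 : (d : ℝ) ≤ 150 := by exact_mod_cast (abs_le.1 hd).2
  set a' : ℝ := 40 - min (0 : ℝ) d with ha'
  set b' : ℝ := 40 + max (0 : ℝ) d with hb'
  set v₀ : ℝ := (d : ℝ) / 36 with hv₀
  set T' : ℝ := ((36 * T + 35 * S.ρ : ℕ) : ℝ) with hT'
  have hρ : (0 : ℝ) ≤ S.ρ := Nat.cast_nonneg _
  have hD := S.D_nonneg
  have hk0 : 0 ≤ k₀ := (size_nonneg _).trans (hK _ hoK)
  have hR : (0 : ℝ) ≤ S.R * l := by positivity
  have hTT : (T : ℝ) ≤ T' := Nat.cast_le.2 (by omega)
  have hss : ∀ c, 0 ≤ c → c ≤ S.D + l + S.R * l + k₀ + 1 → size s * c ≤ 1 / 100 :=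
    fun c _ hc => (mul_le_mul_of_nonneg_left hc (size_nonneg s)).trans hs
  have hsk := hss k₀ hk0 (by linarith)
  have hsR := hss (S.R * l) hR (by linarith)
  have hmin : min (0 : ℝ) d ≤ 0 := min_le_left _ _
  have hmax : 0 ≤ max (0 : ℝ) d := le_max_left _ _
  have hKP : ∀ {a k a₂ b₂ : ℝ}, k₀ ≤ a → k₀ ≤ k → 1 ≤ a₂ → 1 ≤ b₂ → ∀ x ∈ K,
      x ∈ S.cyl t s a k a₂ b₂ := by
    intro a k a₂ b₂ h1 h2 h3 h4 x hx
    have hb : ∀ g : ℝ × ℝ, |lin Ch.pos g x| ≤ size g * k₀ := fun g => by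
      have := abs_lin_sub_le Ch.pos g x Ch.o
      simp only [lin, Ch.pos_o, Prod.fst_zero, Prod.snd_zero, mul_zero, add_zero, sub_zero] at this
      exact this.trans (mul_le_mul_of_nonneg_left (hK x hx) (size_nonneg g))
    have htx := abs_le.1 (hb t)
    have hsx := abs_le.1 (hb s)
    rw [ht.size_eq, one_mul] at htx
    exact S.mem_cyl_of_le (by linarith) (by linarith) (by linarith) (by linarith)
  have hbetween : ∀ j : ℕ, j ≤ 36 → min (0 : ℝ) d ≤ j * v₀ ∧ (j : ℝ) * v₀ ≤ max (0 : ℝ) d := by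
    intro j hj
    have hj' : (j : ℝ) ≤ 36 := by exact_mod_cast hj
    have hj0 : (0 : ℝ) ≤ j := Nat.cast_nonneg _
    rw [hv₀]
    rcases le_total (0 : ℝ) d with h | h
    · rw [min_eq_left h, max_eq_right h]
      constructor
      · positivity
      · calc (j : ℝ) * (d / 36) ≤ 36 * (d / 36) :=
            mul_le_mul_of_nonneg_right hj' (by positivity)
          _ = d := by ring
    · rw [min_eq_right h, max_eq_left h]
      constructor
      · calc (d : ℝ) = 36 * (d / 36) := by ring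
          _ ≤ j * (d / 36) := mul_le_mul_of_nonpos_right hj' (by linarith)
      · exact mul_nonpos_of_nonneg_of_nonpos hj0 (by linarith)
  have key : ∀ j : ℕ, j ≤ 35 → LikelyHit G p K M₁ (εB + j * e₂)
      (S.cyl t s T' ((T + j * (T + S.ρ) : ℕ) : ℝ) a' b')
      {v | v ∉ S.side t ((T + j * (T + S.ρ) : ℕ) : ℝ) ∧
        |lin Ch.pos s v - ((j + 1 : ℕ) : ℝ) * v₀| ≤ 2} := by
    intro j
    induction j with
    | zero =>
      intro _
      simp only [Nat.cast_zero, zero_mul, add_zero, zero_add, Nat.cast_one, one_mul]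
      have hr := abs_le.1 (abs_sub_round v₀)
      have hru : |round v₀| ≤ 8 := by
        rw [abs_le]
        constructor
        · have : (-8 : ℝ) ≤ round v₀ := by rw [hv₀] at hr ⊢; linarith
          exact_mod_cast this
        · have : (round v₀ : ℝ) ≤ 8 := by rw [hv₀] at hr ⊢; linarith
          exact_mod_cast this
      refine (hblock _ hru).mono hp (Finset.Subset.refl _)
        (hKP (by linarith) (by linarith) (by norm_num) (by norm_num))
        (S.cyl_mono _ _ hTT le_rfl (by linarith) (by linarith))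
        (fun v z _ _ hz _ => ⟨fun hz' => hz.1 hz'.1.2, hz.1, ?_⟩) le_rfl le_rfl
      have h2 := abs_le.1 hz.2
      rw [abs_le]
      constructor <;> linarith
    | succ j ih =>
      intro hj
      obtain ⟨hbl, hbu⟩ := hbetween (j + 1) (by omega)
      set X : ℕ := T + j * (T + S.ρ) with hX
      have hX' : T + (j + 1) * (T + S.ρ) = X + S.ρ + T := by rw [hX]; ring
      rw [hX']
      have hXT : (T : ℝ) ≤ X := Nat.cast_le.2 (by omega)
      have hXT' : ((X + S.ρ + T : ℕ) : ℝ) ≤ T' := by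
        refine Nat.cast_le.2 ?_
        have : (j + 1) * (T + S.ρ) ≤ 35 * (T + S.ρ) := Nat.mul_le_mul_right _ (by omega)
        omega
      obtain ⟨M₀, hM₀, hsp⟩ := hG
      refine (extend S hoK hconn hp hδ ht.ne_zero (X : ℝ) hsp
        (hKP (by linarith) (by linarith) (by linarith) (by linarith))
        (S.cyl_mono _ _ le_rfl ?_ le_rfl le_rfl) (fun v hv => hv.1.2) (fun y hy => hy.1)
        (ih (Nat.le_of_succ_le hj))
        (fun y y' v hy hy' ha hv hw => ?_)
        (fun y y' hy hy' ha φ z hφ hw hout hax => ?_)).mono hp (Finset.Subset.refl _)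
        (hKP (by linarith) (by push_cast; linarith) (by linarith) (by linarith)) subset_rfl
        (fun _ _ _ hz hs _ => ⟨hz, hs⟩) le_rfl (by push_cast; linarith)
      · push_cast; linarith
      · obtain ⟨w, hw⟩ := hw
        have h1 := S.lt_of_notMem hv
        have h2 := S.le_of_adj hl hy'.1.2 ha
        have h3 := abs_le.1 (lin_walk_le hl hl0 t w hw)
        have h4 := abs_le.1 (lin_walk_le hl hl0 s w hw)
        have h5 := abs_le.1 hy.2
        rw [ht.size_eq, one_mul] at h2 h3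
        exact S.mem_cyl_of_le (by linarith) (by push_cast; linarith) (by linarith) (by linarith)
      · obtain ⟨w, hw⟩ := hw
        have hc : lin Ch.pos t (φ Ch.o) = X + S.ρ := hax ht ⟨X, by simp⟩
        have h4 := abs_le.1 (lin_walk_le hl hl0 s w hw)
        have h5 := abs_le.1 hy.2
        set cs := lin Ch.pos s (φ Ch.o) with hcs
        set aim : ℝ := ((j + 1 + 1 : ℕ) : ℝ) * v₀ - cs with haim
        have haim' : aim = ((j + 1 : ℕ) : ℝ) * v₀ + v₀ - cs := by rw [haim]; push_cast; ring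
        have hr := abs_le.1 (abs_sub_round aim)
        have hv₁ : -(150 / 36) ≤ v₀ ∧ v₀ ≤ 150 / 36 := by
          rw [hv₀]; constructor <;> linarith
        have hru : |round aim| ≤ 8 := by
          rw [abs_le]
          constructor
          · have : (-8 : ℝ) ≤ round aim := by linarith [hv₁.1, hv₁.2]
            exact_mod_cast this
          · have : (round aim : ℝ) ≤ 8 := by linarith [hv₁.1, hv₁.2]
            exact_mod_cast this
        refine ⟨_, _, (hblock _ hru).mono hp (Finset.Subset.refl _)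
          (hKP (by linarith) (by linarith) (by norm_num) (by norm_num)) subset_rfl
          (fun _ _ _ hz hs _ => ⟨hz, hs⟩) le_rfl hB,
          hKP (by linarith) (by linarith) (by norm_num) (by norm_num), fun v hv => ?_,
          fun v u _ _ hu _ => ?_⟩
        · rw [S.shift_mem_cyl hφ, hc, ← hcs]
          exact S.cyl_mono _ _ (by linarith) (by push_cast; linarith) (by linarith) (by linarith) hv
        · obtain ⟨hu1, hu2⟩ := hu
          have hout' : φ u ∉ S.side t ((X + S.ρ + T : ℕ) : ℝ) := by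
            rw [S.shift_mem hφ, hc]
            push_cast
            simpa using hu1
          refine ⟨fun h' => hout' h'.1.2, hout', ?_⟩
          rw [hφ.lin_add, ← hcs, abs_le]
          rw [abs_le] at hu2
          constructor <;> linarith
  have hlast := key 35 le_rfl
  have e1 : T + 35 * (T + S.ρ) = 36 * T + 35 * S.ρ := by ring
  have e2 : ((35 + 1 : ℕ) : ℝ) * v₀ = d := by rw [hv₀]; push_cast; ring
  rw [e1, e2] at hlast
  exact hlast.mono hp (Finset.Subset.refl _)
    (hKP (by linarith) (by linarith) (by linarith) (by linarith))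
    subset_rfl (fun _ _ _ hz hs _ => ⟨hz, hs⟩) hM (by push_cast; linarith)

end Vale.Agent.P151.Zt
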