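import Vale.Agent.P151.Zd.Unique

/-!
# Cayley graphs of virtually nilpotent groups are amenable

The Følner condition holds for abelian and for finite groups and passes to extensions, hence it
holds for every virtually nilpotent group.
-/

namespace Vale.Agent.P151.Zt

open Finset Subgroup Group

/-- The Følner condition for left translations. -/
def Folner (G : Type*) [Group G] : Prop :=
  ∀ (K : Finset G) (δ : ℝ), 0 < δ → ∃ A : Finset G, A.Nonempty ∧
    ∀ g ∈ K, ({x | x ∈ A ∧ g * x ∉ A}.ncard : ℝ) ≤ δ * A.card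

theorem folner_of_finite (G : Type*) [Group G] [Finite G] : Folner G := fun _ δ hδ => by
  classical
  cases nonempty_fintype G
  exact ⟨univ, univ_nonempty, fun g _ => by
    simp only [mem_univ, not_true_eq_false, and_false, Set.ofPred_false, Set.ncard_empty,
      Nat.cast_zero]
    exact mul_nonneg hδ.le (Nat.cast_nonneg _)⟩

/-- In an abelian group some set of products of the given elements is almost invariant. -/
theorem folner_of_comm (G : Type*) [Group G] (hcomm : ∀ a b : G, a * b = b * a) : Folner G := by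
  classical
  let inst : CommGroup G := { ‹Group G› with mul_comm := hcomm }
  intro K δ hδ
  let B : ℕ → Finset G := fun n =>
    (Fintype.piFinset fun _ : K => Finset.range (n + 1)).image fun f => ∏ a, a.1 ^ f a
  have hne : ∀ n, (B n).Nonempty := fun n =>
    ⟨∏ a : K, a.1 ^ 0, mem_image.2 ⟨fun _ => 0, by simp, rfl⟩⟩
  have hmono : ∀ n, B n ⊆ B (n + 1) := fun n => image_subset_image fun f hf => by
    simp only [Fintype.mem_piFinset, mem_range] at hf ⊢
    exact fun a => by have := hf a; omega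
  have hstep : ∀ n, ∀ g ∈ K, ∀ x ∈ B n, g * x ∈ B (n + 1) := by
    intro n g hg x hx
    obtain ⟨f, hf, rfl⟩ := mem_image.1 hx
    simp only [Fintype.mem_piFinset, mem_range] at hf
    refine mem_image.2 ⟨fun a => f a + if a = ⟨g, hg⟩ then 1 else 0, ?_, ?_⟩
    · simp only [Fintype.mem_piFinset, mem_range]
      intro a
      have := hf a
      split <;> omega
    · simp only [pow_add, prod_mul_distrib, pow_ite, pow_one, pow_zero, prod_ite_eq', mem_univ,
        if_true]
      exact mul_comm _ _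
  -- some step grows by a factor at most `1 + δ`
  obtain ⟨n, hn⟩ : ∃ n, ((B (n + 1)).card : ℝ) ≤ (1 + δ) * (B n).card := by
    by_contra hno
    push Not at hno
    have hlow : ∀ n, (1 + δ) ^ n ≤ ((B n).card : ℝ) := by
      intro n
      induction n with
      | zero => simpa using (hne 0).card_pos
      | succ n ih =>
        rw [pow_succ']
        exact (mul_le_mul_of_nonneg_left ih (by linarith)).trans (hno n).le
    have hup : ∀ n, ((B n).card : ℝ) ≤ ((n : ℝ) + 1) ^ K.card := fun n => by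
      have := card_image_le (s := Fintype.piFinset fun _ : K => Finset.range (n + 1))
        (f := fun f => ∏ a : K, a.1 ^ f a)
      simp only [Fintype.card_piFinset, prod_const, card_range, card_univ, Fintype.card_coe] at this
      exact_mod_cast this
    have hlim := tendsto_pow_const_div_const_pow_of_one_lt K.card (show 1 < 1 + δ by linarith)
    obtain ⟨n, hn, hn1⟩ := ((hlim.eventually (eventually_lt_nhds
      (show (0 : ℝ) < 1 / 2 ^ K.card by positivity))).and (Filter.eventually_ge_atTop 1)).exists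
    have h1 := (hlow n).trans (hup n)
    have h2 : ((n : ℝ) + 1) ^ K.card ≤ 2 ^ K.card * (n : ℝ) ^ K.card := by
      rw [← mul_pow]
      have : (1 : ℝ) ≤ n := by exact_mod_cast hn1
      gcongr
      linarith
    have hpos : (0 : ℝ) < (1 + δ) ^ n := by positivity
    rw [div_lt_div_iff₀ hpos (by positivity), one_mul] at hn
    linarith
  refine ⟨B n, hne n, fun g hg => ?_⟩
  have hinj : (g * ·) '' {x | x ∈ B n ∧ g * x ∉ B n} ⊆ ↑(B (n + 1) \ B n) := by
    rintro _ ⟨x, ⟨hx, hx'⟩, rfl⟩
    exact mem_sdiff.2 ⟨hstep n g hg x hx, hx'⟩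
  have h1 := Set.ncard_le_ncard hinj (Finset.finite_toSet _)
  rw [Set.ncard_image_of_injective _ (mul_right_injective g), Set.ncard_coe_finset,
    card_sdiff_of_subset (hmono n)] at h1
  have h2 : ({x | x ∈ B n ∧ g * x ∉ B n}.ncard : ℝ) + (B n).card ≤ (B (n + 1)).card := by
    have := card_le_card (hmono n)
    exact_mod_cast (show {x | x ∈ B n ∧ g * x ∉ B n}.ncard + (B n).card ≤ (B (n + 1)).card by omega)
  linarith

/-- The Følner condition passes to extensions. -/
theorem folner_extension {G : Type*} [Group G] (N : Subgroup G) [N.Normal] (hN : Folner N)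
    (hQ : Folner (G ⧸ N)) : Folner G := by
  classical
  intro K δ hδ
  obtain ⟨Q, hQne, hQK⟩ := hQ (K.image (QuotientGroup.mk (s := N))) (δ / 2) (half_pos hδ)
  let s : G ⧸ N → G := fun q => q.out
  have hs : ∀ q, ((s q : G) : G ⧸ N) = q := fun q => q.out_eq
  have hmem : ∀ (g : G) (q : G ⧸ N), (s ((g : G ⧸ N) * q))⁻¹ * (g * s q) ∈ N := fun g q => by
    rw [← QuotientGroup.eq, hs, QuotientGroup.mk_mul, hs]
  let z : G → G ⧸ N → N := fun g q => ⟨_, hmem g q⟩
  obtain ⟨F, hFne, hFK⟩ := hN ((K ×ˢ Q).image fun a => z a.1 a.2) (δ / 2) (half_pos hδ)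
  let mk : (G ⧸ N) × N → G := fun a => s a.1 * a.2.1
  have hmk : Function.Injective mk := by
    rintro ⟨q, f⟩ ⟨q', f'⟩ h
    have hq : q = q' := by
      have := congrArg (fun x : G => (x : G ⧸ N)) h
      simpa [mk, QuotientGroup.mk_mul_of_mem _ f.2, QuotientGroup.mk_mul_of_mem _ f'.2, hs]
        using this
    subst hq
    exact Prod.ext rfl (Subtype.ext (mul_left_cancel h))
  refine ⟨(Q ×ˢ F).image mk, (hQne.product hFne).image _, fun g hg => ?_⟩
  have hkey : ∀ q f, g * mk (q, f) = mk ((g : G ⧸ N) * q, z g q * f) := fun q f => by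
    simp only [mk, z, Subgroup.coe_mul]
    group
  let BadQ : Finset (G ⧸ N) := Q.filter fun q => (g : G ⧸ N) * q ∉ Q
  let BadF : G ⧸ N → Finset N := fun q => F.filter fun f => z g q * f ∉ F
  have hsub : {x | x ∈ (Q ×ˢ F).image mk ∧ g * x ∉ (Q ×ˢ F).image mk} ⊆
      ↑(((BadQ ×ˢ F) ∪ Q.biUnion fun q => {q} ×ˢ BadF q).image mk) := by
    rintro x ⟨hx, hx'⟩
    obtain ⟨⟨q, f⟩, hqf, rfl⟩ := mem_image.1 hx
    obtain ⟨hq, hf⟩ := mem_product.1 hqf
    refine mem_image.2 ⟨(q, f), ?_, rfl⟩
    by_cases h1 : (g : G ⧸ N) * q ∈ Q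
    · refine mem_union_right _ (mem_biUnion.2 ⟨q, hq, ?_⟩)
      refine mem_product.2 ⟨mem_singleton_self q, mem_filter.2 ⟨hf, fun h2 => hx' ?_⟩⟩
      rw [hkey]
      exact mem_image_of_mem _ (mem_product.2 ⟨h1, h2⟩)
    · exact mem_union_left _ (mem_product.2 ⟨mem_filter.2 ⟨hq, h1⟩, hf⟩)
  have hQb : (BadQ.card : ℝ) ≤ δ / 2 * Q.card := by
    have := hQK _ (mem_image_of_mem _ hg)
    rwa [show {x | x ∈ Q ∧ (g : G ⧸ N) * x ∉ Q} = (↑BadQ : Set (G ⧸ N)) by ext; simp [BadQ],
      Set.ncard_coe_finset] at this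
  have hFb : ∀ q ∈ Q, ((BadF q).card : ℝ) ≤ δ / 2 * F.card := fun q hq => by
    have := hFK _ (mem_image.2 ⟨(g, q), mem_product.2 ⟨hg, hq⟩, rfl⟩)
    rwa [show {x | x ∈ F ∧ z g q * x ∉ F} = (↑(BadF q) : Set N) by ext; simp [BadF],
      Set.ncard_coe_finset] at this
  have h := Set.ncard_le_ncard hsub (Finset.finite_toSet _)
  rw [Set.ncard_coe_finset] at h
  replace h := h.trans (card_image_le.trans ((card_union_le _ _).trans
    (add_le_add le_rfl card_biUnion_le)))
  simp only [card_product, card_singleton, one_mul] at h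
  have h' : ({x | x ∈ (Q ×ˢ F).image mk ∧ g * x ∉ (Q ×ˢ F).image mk}.ncard : ℝ) ≤
      (BadQ.card : ℝ) * F.card + ∑ q ∈ Q, ((BadF q).card : ℝ) := by exact_mod_cast h
  refine h'.trans ?_
  rw [card_image_of_injective _ hmk, card_product, Nat.cast_mul]
  calc (BadQ.card : ℝ) * F.card + ∑ q ∈ Q, ((BadF q).card : ℝ)
      ≤ δ / 2 * Q.card * F.card + ∑ _q ∈ Q, δ / 2 * (F.card : ℝ) := by
        gcongr with q hq
        exact hFb q hq
    _ = δ * ((Q.card : ℝ) * F.card) := by
        rw [sum_const, nsmul_eq_mul]; ring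

theorem folner_of_nilpotent (G : Type*) [Group G] [IsNilpotent G] : Folner G := by
  apply @Group.nilpotent_center_quotient_ind _ G _ _ <;> clear! G
  · intro G _ _
    exact folner_of_finite G
  · intro G _ _ ih
    exact folner_extension (center G)
      (folner_of_comm _ fun a b => Subtype.ext (mem_center_iff.1 b.2 a.1)) ih

theorem folner_of_virtuallyNilpotent {G : Type*} [Group G] (h : IsVirtuallyNilpotent G) :
    Folner G := by
  obtain ⟨N, hN, hfi⟩ := h
  have : IsNilpotent (N.normalCore.subgroupOf N) := inferInstance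
  have : IsNilpotent N.normalCore :=
    Group.nilpotent_of_mulEquiv (subgroupOfEquivOfLe (normalCore_le N))
  exact folner_extension N.normalCore (folner_of_nilpotent _) (folner_of_finite _)

/-- A graph on a group whose edges are right translations by a finite set is amenable. -/
theorem amenable_cayley {G : Type} [Group G] [DecidableEq G] (h : Folner G) (S : Finset G)
    (Gr : SimpleGraph G) (hadj : ∀ x y, Gr.Adj x y → x⁻¹ * y ∈ S) : Zd.Amenable Gr := by
  intro ε hε
  obtain ⟨A, hA, hAK⟩ := h (S.image fun s => s⁻¹) (ε / (S.card + 1)) (by positivity)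
  refine ⟨A.image fun x => x⁻¹, hA.image _, ?_⟩
  have hsub : P165.vertexBoundary Gr (A.image fun x => x⁻¹) ⊆
      ↑(S.biUnion fun s => (A.filter fun x => s⁻¹ * x ∉ A).image fun x => x⁻¹ * s) := by
    rintro v ⟨hv, u, hu, huv⟩
    obtain ⟨x, hx, rfl⟩ := mem_image.1 hu
    have hs := hadj _ _ huv
    rw [inv_inv] at hs
    refine mem_biUnion.2 ⟨x * v, hs, mem_image.2 ⟨x, mem_filter.2 ⟨hx, fun hc => hv ?_⟩, by group⟩⟩
    exact mem_image.2 ⟨_, hc, by simp⟩
  have h1 := Set.ncard_le_ncard hsub (Finset.finite_toSet _)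
  rw [Set.ncard_coe_finset] at h1
  replace h1 := h1.trans (card_biUnion_le.trans (sum_le_sum fun _ _ => card_image_le))
  have h1' : ((P165.vertexBoundary Gr (A.image fun x => x⁻¹)).ncard : ℝ) ≤
      ∑ s ∈ S, ((A.filter fun x => s⁻¹ * x ∉ A).card : ℝ) := by exact_mod_cast h1
  refine h1'.trans ((sum_le_card_nsmul _ _ (ε / (S.card + 1) * A.card) fun s hs => ?_).trans ?_)
  · have := hAK _ (mem_image_of_mem _ hs)
    rwa [show {x | x ∈ A ∧ s⁻¹ * x ∉ A} = (↑(A.filter fun x => s⁻¹ * x ∉ A) : Set G) by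
      ext; simp, Set.ncard_coe_finset] at this
  · rw [nsmul_eq_mul, card_image_of_injective _ inv_injective, ← mul_assoc]
    refine mul_le_mul_of_nonneg_right ?_ (Nat.cast_nonneg _)
    rw [← mul_div_assoc, div_le_iff₀ (by positivity)]
    nlinarith

end Vale.Agent.P151.Zt
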