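import Mathlib

/-!
# Virtually nilpotent groups that are not virtually cyclic map virtually onto `ℤ ^ 2`

A finitely generated nilpotent group without a homomorphism onto `ℤ ^ 2` has a finite commutator
subgroup, hence a cyclic subgroup of finite index.
-/

namespace Vale.Agent.P151.Zt

open Subgroup Group

/-- The free rank two quotient. -/
abbrev Z2 : Type := Multiplicative (ℤ × ℤ)

/-- A finitely generated abelian group either maps onto `ℤ ^ 2` or is virtually cyclic. -/
theorem abelian_dichotomy (A : Type*) [CommGroup A] [Group.FG A] :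
    (∃ f : A →* Z2, Function.Surjective f) ∨ ∃ x : A, (zpowers x).FiniteIndex := by
  classical
  obtain ⟨n, ι, _, p, hp, e, ⟨φ⟩⟩ := AddCommGroup.equiv_free_prod_directSum_zmod (Additive A)
  let toFree : Additive A →+ (Fin n →₀ ℤ) :=
    (AddMonoidHom.fst _ _).comp φ.toAddMonoidHom
  have htoFree : Function.Surjective toFree := fun v =>
    ⟨φ.symm (v, 0), by simp [toFree]⟩
  by_cases hn : 2 ≤ n
  · left
    let i0 : Fin n := ⟨0, by omega⟩
    let i1 : Fin n := ⟨1, by omega⟩
    let g : Additive A →+ ℤ × ℤ :=
      (AddMonoidHom.prod (Finsupp.applyAddHom i0) (Finsupp.applyAddHom i1)).comp toFree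
    refine ⟨g.toMultiplicativeRight, fun y => ?_⟩
    obtain ⟨a, ha⟩ := htoFree
      (Finsupp.single i0 y.toAdd.1 + Finsupp.single i1 y.toAdd.2)
    refine ⟨a.toMul, Multiplicative.toAdd.injective ?_⟩
    have h01 : i0 ≠ i1 := by simp [i0, i1]
    ext <;> simp [g, ha, h01, h01.symm]
  · right
    have hsub : Subsingleton (Fin n) := ⟨fun i j => Fin.ext (by omega)⟩
    let v : Fin n →₀ ℤ := Finsupp.equivFunOnFinite.symm fun _ => 1
    obtain ⟨a, ha⟩ := htoFree v
    refine ⟨a.toMul, ?_⟩
    have : ∀ i, NeZero (p i ^ e i) := fun i => ⟨pow_ne_zero _ (hp i).ne_zero⟩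
    have hfin : Finite (DirectSum ι fun i => ZMod (p i ^ e i)) :=
      Finite.of_equiv _ DFinsupp.equivFunOnFintype.symm
    let tor : DirectSum ι (fun i => ZMod (p i ^ e i)) → A ⧸ zpowers (a.toMul) := fun t =>
      QuotientGroup.mk (φ.symm (0, t)).toMul
    have hsurj : Function.Surjective tor := by
      intro q
      obtain ⟨b, rfl⟩ := QuotientGroup.mk_surjective q
      let m : ℤ := if h : 0 < n then toFree (Additive.ofMul b) ⟨0, h⟩ else 0
      have hm : toFree (Additive.ofMul b - m • a) = 0 := by
        ext i
        have hi : i = ⟨0, lt_of_le_of_lt (Nat.zero_le _) i.2⟩ := Subsingleton.elim _ _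
        have hn0 : 0 < n := lt_of_le_of_lt (Nat.zero_le _) i.2
        simp only [map_sub, map_zsmul, ha, Finsupp.sub_apply, Finsupp.smul_apply, Finsupp.zero_apply]
        simp [v, m, hn0, hi]
      refine ⟨(φ (Additive.ofMul b - m • a)).2, QuotientGroup.eq.2 ⟨m, ?_⟩⟩
      have hpair : ((0 : Fin n →₀ ℤ), (φ (Additive.ofMul b - m • a)).2)
          = φ (Additive.ofMul b - m • a) := Prod.ext hm.symm rfl
      simp only [hpair, AddEquiv.symm_apply_apply, toMul_sub, toMul_zsmul, toMul_ofMul]
      simp
    have := Finite.of_surjective tor hsurj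
    exact Subgroup.finiteIndex_of_finite_quotient

/-- If the commutator subgroup is finite, a cyclic subgroup of finite index lifts from the
abelianisation. -/
theorem finiteIndex_zpowers_of_abelianization {G : Type*} [Group G] [Finite (commutator G)] {x : G}
    (hx : (zpowers (Abelianization.of x)).FiniteIndex) : (zpowers x).FiniteIndex := by
  let Q := Abelianization G ⧸ zpowers (Abelianization.of x)
  have : Finite Q := inferInstance
  choose s hs using fun q : Q => QuotientGroup.mk_surjective q
  choose t ht using fun a : Abelianization G => (QuotientGroup.mk_surjective a : ∃ g : G, _ = a)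
  let cover : Q × commutator G → G ⧸ zpowers x := fun z =>
    QuotientGroup.mk (t (s z.1) * z.2.1)
  have hsurj : Function.Surjective cover := by
    intro q
    obtain ⟨g, rfl⟩ := QuotientGroup.mk_surjective q
    let z : Q := QuotientGroup.mk (Abelianization.of g)
    obtain ⟨k, hk⟩ := mem_zpowers_iff.1 (QuotientGroup.eq.1 (hs z))
    have hc : (t (s z))⁻¹ * (g * (x ^ k)⁻¹) ∈ commutator G := by
      rw [← Abelianization.ker_of, MonoidHom.mem_ker, map_mul, map_mul, map_inv, map_inv, map_zpow,
        show Abelianization.of (t (s z)) = s z from ht (s z), hk]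
      group
    refine ⟨(z, ⟨_, hc⟩), QuotientGroup.eq.2 (mem_zpowers_iff.2 ⟨k, ?_⟩)⟩
    group
  have := Finite.of_surjective cover hsurj
  exact Subgroup.finiteIndex_of_finite_quotient

/-- With finitely many cosets of the centre there are finitely many commutators. -/
theorem finite_commutatorSet_of_finite_quotient_center (G : Type*) [Group G]
    [Finite (G ⧸ center G)] : Finite (commutatorSet G) := by
  refine Finite.Set.subset (Set.range fun q : (G ⧸ center G) × (G ⧸ center G) =>
    q.1.out * q.2.out * q.1.out⁻¹ * q.2.out⁻¹) ?_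
  rintro _ ⟨a, b, rfl⟩
  refine ⟨((a : G ⧸ center G), (b : G ⧸ center G)), ?_⟩
  obtain ⟨u, hu⟩ := QuotientGroup.mk_out_eq_mul (center G) a
  obtain ⟨v, hv⟩ := QuotientGroup.mk_out_eq_mul (center G) b
  have cu := mem_center_iff.1 u.2
  have cv := mem_center_iff.1 v.2
  simp only [hu, hv, commutatorElement_def, mul_inv_rev]
  calc a * u.1 * (b * v.1) * (u.1⁻¹ * a⁻¹) * (v.1⁻¹ * b⁻¹)
      = a * (u.1 * (b * v.1)) * u.1⁻¹ * a⁻¹ * v.1⁻¹ * b⁻¹ := by group
    _ = a * b * (v.1 * a⁻¹) * v.1⁻¹ * b⁻¹ := by rw [← cu (b * v.1)]; group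
    _ = a * b * a⁻¹ * b⁻¹ := by rw [← cv a⁻¹]; group

/-- A finitely generated nilpotent group that does not map onto `ℤ ^ 2` has a finite commutator
subgroup. -/
theorem finite_commutator_of_no_Z2 (G : Type*) [Group G] [IsNilpotent G] :
    Group.FG G → (¬∃ f : G →* Z2, Function.Surjective f) → Finite (commutator G) := by
  apply @Group.nilpotent_center_quotient_ind _ G _ _ <;> clear! G
  · intro G _ _ _ _
    infer_instance
  · intro G _ _ ih hfg hno
    let π : G →* G ⧸ center G := QuotientGroup.mk' (center G)
    have hπ : Function.Surjective π := QuotientGroup.mk'_surjective _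
    have hfgQ : Group.FG (G ⧸ center G) := Group.fg_of_surjective hπ
    have hnoQ : ¬∃ f : G ⧸ center G →* Z2, Function.Surjective f := fun ⟨f, hf⟩ =>
      hno ⟨f.comp π, hf.comp hπ⟩
    have hQc : Finite (commutator (G ⧸ center G)) := ih hfgQ hnoQ
    have : Group.FG (Abelianization (G ⧸ center G)) :=
      Group.fg_of_surjective (f := Abelianization.of) QuotientGroup.mk_surjective
    obtain ⟨⟨f, hf⟩⟩ | ⟨xb, hxb⟩ := abelian_dichotomy (Abelianization (G ⧸ center G))
    · exact absurd ⟨f.comp Abelianization.of, hf.comp QuotientGroup.mk_surjective⟩ hnoQ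
    obtain ⟨xb, rfl⟩ := QuotientGroup.mk_surjective xb
    have hxfi : (zpowers xb).FiniteIndex := finiteIndex_zpowers_of_abelianization hxb
    obtain ⟨x, rfl⟩ := hπ xb
    -- a power of the image of `x` is central in the quotient
    have : Finite (commutatorSet (G ⧸ center G)) := by
      have hsub : commutatorSet (G ⧸ center G) ⊆ (commutator (G ⧸ center G) : Set _) := by
        rintro _ ⟨a, b, rfl⟩
        exact commutator_mem_commutator (mem_top a) (mem_top b)
      exact Finite.Set.subset _ hsub
    have hcfi : (center (G ⧸ center G)).FiniteIndex := inferInstance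
    obtain ⟨a, ha0, -, ha⟩ := exists_pow_mem_of_index_ne_zero hcfi.index_ne_zero (π x)
    -- modulo the centre, the powers of `x` have finite index
    set M : Subgroup G := (zpowers (π x)).comap π with hM
    have hMfi : M.FiniteIndex := ⟨by
      rw [hM, index_comap_of_surjective _ hπ]; exact hxfi.index_ne_zero⟩
    have hcomm : ∀ g ∈ M, ∀ j : ℕ, g * x ^ j = x ^ j * g := by
      intro g hg j
      obtain ⟨k, hk⟩ := mem_zpowers_iff.1 hg
      have hz : (x ^ k)⁻¹ * g ∈ center G := by
        rw [← QuotientGroup.eq_one_iff]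
        show π _ = 1
        rw [map_mul, map_inv, map_zpow, hk, inv_mul_cancel]
      have e : g = x ^ k * ((x ^ k)⁻¹ * g) := by group
      rw [e, mul_assoc, ← mem_center_iff.1 hz (x ^ j), ← mul_assoc, ← mul_assoc]
      congr 1
      group
    set y := x ^ a with hy
    have hcz : ∀ g : G, g * y * g⁻¹ * y⁻¹ ∈ center G := by
      intro g
      rw [← QuotientGroup.eq_one_iff]
      show π _ = 1
      rw [map_mul, map_mul, map_mul, hy, map_inv, map_inv, map_pow, mem_center_iff.1 ha (π g)]
      group
    -- so a power of `x` is central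
    let c : G →* G :=
      { toFun := fun g => g * y * g⁻¹ * y⁻¹
        map_one' := by group
        map_mul' := fun g h => by
          have hc := mem_center_iff.1 (hcz h) g
          calc g * h * y * (g * h)⁻¹ * y⁻¹
              = g * (h * y * h⁻¹ * y⁻¹) * (y * g⁻¹ * y⁻¹) := by group
            _ = (h * y * h⁻¹ * y⁻¹) * g * (y * g⁻¹ * y⁻¹) := by rw [hc]
            _ = (h * y * h⁻¹ * y⁻¹) * (g * y * g⁻¹ * y⁻¹) := by group
            _ = (g * y * g⁻¹ * y⁻¹) * (h * y * h⁻¹ * y⁻¹) := (mem_center_iff.1 (hcz h) _).symm }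
    set m := M.normalCore.index with hm
    have hm0 : m ≠ 0 := FiniteIndex.index_ne_zero
    have hcm : ∀ g, c g ^ m = 1 := by
      intro g
      have hgm : g ^ m ∈ M := normalCore_le M (hm ▸ M.normalCore.pow_index_mem g)
      rw [← map_pow]
      show g ^ m * y * (g ^ m)⁻¹ * y⁻¹ = 1
      rw [hy, hcomm _ hgm a]
      group
    have hpow : y ^ m ∈ center G := by
      rw [mem_center_iff]
      intro g
      have hconj : g * y * g⁻¹ = c g * y := by
        show _ = g * y * g⁻¹ * y⁻¹ * y
        group
      have hcy : Commute (c g) y := (mem_center_iff.1 (hcz g) y).symm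
      have h := congrArg (· ^ m) hconj
      simp only [conj_pow, hcy.mul_pow, hcm, one_mul] at h
      calc g * y ^ m = g * y ^ m * g⁻¹ * g := by group
        _ = y ^ m * g := by rw [h]
    -- hence the centre has finite index
    have hord : IsOfFinOrder (π x) := isOfFinOrder_iff_pow_eq_one.2
      ⟨a * m, Nat.pos_of_ne_zero (mul_ne_zero (by omega) hm0), by
        rw [← map_pow, pow_mul]
        exact (QuotientGroup.eq_one_iff _).2 hpow⟩
    have : Finite (zpowers (π x)) := hord.finite_zpowers
    have : Finite (G ⧸ center G) :=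
      Finite.of_subgroup_quotient (zpowers (π x))
    have : (center G).FiniteIndex := Subgroup.finiteIndex_of_finite_quotient
    have : Finite (commutatorSet G) := finite_commutatorSet_of_finite_quotient_center G
    infer_instance

/-- A finitely generated virtually nilpotent group without a cyclic subgroup of finite index has a
subgroup of finite index that maps onto `ℤ ^ 2`. -/
theorem exists_map_Z2 (G : Type*) [Group G] [Group.FG G] (hnil : IsVirtuallyNilpotent G)
    (hcyc : ∀ x : G, ¬(zpowers x).FiniteIndex) :
    ∃ H : Subgroup G, H.FiniteIndex ∧ ∃ f : H →* Z2, Function.Surjective f := by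
  obtain ⟨N, hN, hfi⟩ := hnil
  refine ⟨N, hfi, ?_⟩
  by_contra hno
  have hfg : Group.FG N := inferInstance
  have : Finite (commutator N) := finite_commutator_of_no_Z2 N hfg hno
  have : Group.FG (Abelianization N) :=
    Group.fg_of_surjective (f := Abelianization.of) QuotientGroup.mk_surjective
  obtain ⟨f, hf⟩ | ⟨x, hx⟩ := abelian_dichotomy (Abelianization N)
  · exact hno ⟨f.comp Abelianization.of, hf.comp QuotientGroup.mk_surjective⟩
  obtain ⟨x, rfl⟩ := QuotientGroup.mk_surjective x
  have hx' : (zpowers x).FiniteIndex := finiteIndex_zpowers_of_abelianization hx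
  refine hcyc (x : G) ⟨?_⟩
  have e : (zpowers x).map N.subtype = zpowers (x : G) := MonoidHom.map_zpowers _ _
  rw [← e, index_map_subtype]
  exact mul_ne_zero hx'.index_ne_zero hfi.index_ne_zero

end Vale.Agent.P151.Zt
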