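import Vale.Agent.P151.Link
import Vale.Agent.P151.Zt.Nilpotent
import Vale.Agent.P151.Zt.Folner

/-!
# Cayley graphs of groups that map virtually onto `ℤ ^ 2`

A homomorphism of a finite-index subgroup `H` onto `ℤ ^ 2` extends to a position map on the group
that is equivariant for left translations by `H` and moves a bounded amount along every edge.
-/

namespace Vale.Agent.P151.Zt

open Finset Vale.Agent.P165

variable {Γ : Type} [Group Γ] [DecidableEq Γ] {S : Finset Γ}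

omit [DecidableEq Γ] in
/-- The Cayley graph is connected only if the generators generate, so the group is finitely
generated. -/
theorem fg_of_connected (hS : Gens S) (hc : (cayley S).Connected) : Group.FG Γ := by
  refine Group.fg_iff'.2 ⟨S.card, S, rfl, eq_top_iff.2 fun g _ => ?_⟩
  obtain ⟨w⟩ := hc.preconnected 1 g
  have : ∀ {u v : Γ} (w : (cayley S).Walk u v), u⁻¹ * v ∈ Subgroup.closure (S : Set Γ) := by
    intro u v w
    induction w with
    | nil => simp
    | @cons a b c h _ ih =>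
      have hb := Subgroup.subset_closure (k := (S : Set Γ)) (hS.adj.1 h)
      simpa [mul_assoc] using mul_mem hb ih
  simpa using this w

omit [DecidableEq Γ] in
theorem quasiTransitive_cayley (hS : Gens S) : QuasiTransitive (cayley S) :=
  ⟨{1}, fun v => ⟨translate hS v⁻¹, by simp [translate]⟩⟩

theorem amenable_of_folner (hS : Gens S) (h : Folner Γ) : Zd.Amenable (cayley S) :=
  amenable_cayley h S _ fun _ _ hxy => hS.adj.1 hxy

/-- The integer point of the plane. -/
def toPlane (z : Z2) : ℝ × ℝ := ((z.toAdd.1 : ℝ), (z.toAdd.2 : ℝ))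

theorem toPlane_mul (z w : Z2) : toPlane (z * w) = toPlane z + toPlane w := by
  simp [toPlane]

omit [DecidableEq Γ] in
/-- Coset representatives give an equivariant position map, with finitely many orbits and bounded
steps. -/
theorem exists_pos (S : Finset Γ) (H : Subgroup Γ) [H.FiniteIndex] (f : H →* Z2)
    (hf : Function.Surjective f) :
    ∃ pos : Γ → ℝ × ℝ,
      (∀ (h : H) (g : Γ), pos (h.1 * g) = toPlane (f h) + pos g) ∧
      (∃ R : Finset Γ, ∀ g, ∃ h : H, ∃ r ∈ R, g = h.1 * r) ∧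
      (∃ L : ℝ, ∀ g, ∀ a ∈ S, ‖pos (g * a) - pos g‖ ≤ L) ∧
      ∃ h1 h2 : H, toPlane (f h1) = (1, 0) ∧ toPlane (f h2) = (0, 1) := by
  classical
  have : Finite (Γ ⧸ H) := inferInstance
  cases nonempty_fintype (Γ ⧸ H)
  let c : Γ → Γ := fun g => (QuotientGroup.mk g⁻¹ : Γ ⧸ H).out
  have hc : ∀ g, g * c g ∈ H := fun g => by
    have h := QuotientGroup.eq.1
      ((QuotientGroup.mk g⁻¹ : Γ ⧸ H).out_eq.symm : (QuotientGroup.mk g⁻¹ : Γ ⧸ H) = _)
    simpa [c] using h
  have hct : ∀ (h : H) (g : Γ), c (h.1 * g) = c g := fun h g => by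
    have : (QuotientGroup.mk (h.1 * g)⁻¹ : Γ ⧸ H) = QuotientGroup.mk g⁻¹ := by
      rw [mul_inv_rev]; exact QuotientGroup.mk_mul_of_mem _ (inv_mem h.2)
    simp only [c, this]
  let pos : Γ → ℝ × ℝ := fun g => toPlane (f ⟨_, hc g⟩)
  have heq : ∀ (h : H) (g : Γ), pos (h.1 * g) = toPlane (f h) + pos g := fun h g => by
    simp only [pos]
    rw [← toPlane_mul, ← map_mul]
    congr 2
    exact Subtype.ext (by simp [hct h g, mul_assoc])
  let R : Finset Γ := (univ : Finset (Γ ⧸ H)).image fun q => q.out⁻¹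
  have hR : ∀ g, ∃ h : H, ∃ r ∈ R, g = h.1 * r := fun g =>
    ⟨⟨_, hc g⟩, (c g)⁻¹, mem_image.2 ⟨_, mem_univ _, rfl⟩, by simp⟩
  clear_value pos R c
  refine ⟨pos, heq, ⟨R, hR⟩, ⟨∑ q ∈ R ×ˢ S, ‖pos (q.1 * q.2) - pos q.1‖, fun g a ha => ?_⟩, ?_⟩
  · obtain ⟨h, r, hr, rfl⟩ := hR g
    rw [mul_assoc, heq, heq, add_sub_add_left_eq_sub]
    have hmem : (r, a) ∈ R ×ˢ S := mem_product.2 ⟨hr, ha⟩
    have := single_le_sum (f := fun q : Γ × Γ => ‖pos (q.1 * q.2) - pos q.1‖)
      (fun q _ => norm_nonneg _) hmem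
    exact this
  · obtain ⟨h1, e1⟩ := hf (Multiplicative.ofAdd (1, 0))
    obtain ⟨h2, e2⟩ := hf (Multiplicative.ofAdd (0, 1))
    exact ⟨h1, h2, by simp [toPlane, e1], by simp [toPlane, e2]⟩

/-- The plane structure of a virtually nilpotent group that is not virtually cyclic. -/
theorem exists_pos_of_virtuallyNilpotent (hS : Gens S) (hconn : (cayley S).Connected)
    (hnil : Group.IsVirtuallyNilpotent Γ) (hcyc : ∀ x : Γ, ¬(Subgroup.zpowers x).FiniteIndex) :
    Zd.Amenable (cayley S) ∧ ∃ (H : Subgroup Γ) (f : H →* Z2) (pos : Γ → ℝ × ℝ),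
      (∀ (h : H) (g : Γ), pos (h.1 * g) = toPlane (f h) + pos g) ∧
      (∃ R : Finset Γ, ∀ g, ∃ h : H, ∃ r ∈ R, g = h.1 * r) ∧
      (∃ L : ℝ, ∀ x y, (cayley S).Adj x y → ‖pos y - pos x‖ ≤ L) ∧
      ∃ h1 h2 : H, toPlane (f h1) = (1, 0) ∧ toPlane (f h2) = (0, 1) := by
  refine ⟨amenable_of_folner hS (folner_of_virtuallyNilpotent hnil), ?_⟩
  have := fg_of_connected hS hconn
  obtain ⟨H, hH, f, hf⟩ := exists_map_Z2 Γ hnil hcyc
  obtain ⟨pos, heq, hR, ⟨L, hL⟩, hshift⟩ := exists_pos S H f hf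
  refine ⟨H, f, pos, heq, hR, ⟨L, fun x y hxy => ?_⟩, hshift⟩
  simpa using hL x _ (hS.adj.1 hxy)

end Vale.Agent.P151.Zt
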