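import Vale.Agent.P151.Zt.Defs
import Vale.Agent.P151.Zd.Unique

/-!
# Exits of strips on a chart

A ball about the base vertex reaches, with probability near one, many points just outside a large
region of a strip, within a bounded distance; this holds uniformly in the direction of the strip.
-/

open MeasureTheory ProbabilityTheory Filter Topology

namespace Vale.Agent.P151.Zt

open Glue0 Vale.Agent.P165

variable {V ι : Type} [Fintype ι] {G : SimpleGraph V} {nb : V → ι → V}

omit [Fintype ι] in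
/-- A chart has finitely many orbits. -/
theorem Chart.quasiTransitive (Ch : Chart G) : QuasiTransitive G := by
  obtain ⟨R, hR⟩ := Ch.orbits
  refine ⟨R, fun v => ?_⟩
  obtain ⟨φ, z, -, r, hr, rfl⟩ := hR v
  exact ⟨φ.symm, by simpa using hr⟩

omit [Fintype ι] in
/-- Every linear form of the position is shifted by some automorphism. -/
theorem Chart.exists_shift (Ch : Chart G) (v : ℝ × ℝ) (hv : v ≠ 0) :
    ∃ (φ : G ≃g G) (c : ℝ), c ≠ 0 ∧ ∀ x, lin Ch.pos v (φ x) = lin Ch.pos v x + c := by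
  by_cases h1 : v.1 = 0
  · have h2 : v.2 ≠ 0 := fun h => hv (Prod.ext h1 h)
    obtain ⟨φ, hφ⟩ := Ch.shift (0, 1)
    exact ⟨φ, v.2, h2, fun x => by simp [lin, hφ x, gridPt]; ring⟩
  · obtain ⟨φ, hφ⟩ := Ch.shift (1, 0)
    exact ⟨φ, v.1, h1, fun x => by simp [lin, hφ x, gridPt]; ring⟩

/-- A large ball has many exits from a large region of a strip near the base vertex, uniformly in
the direction of the strip. -/
theorem side_exits (hl : Listing G nb) (hc : G.Connected) (ha : Zd.Amenable G) (Ch : Chart G)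
    (p : unitInterval) (h1 : (p : ℝ) < 1) (hθ : 0 < perc G p (hasInfinite G)) :
    ∀ ε > (0 : ℝ), ∃ K : Finset V, Ch.o ∈ K ∧ ∀ M : ℕ, ∃ ρ : ℝ, ∀ w : ℝ, ∃ R : ℝ,
      ∀ f : ℝ × ℝ, size f = 1 → ∀ P Side : Set V, (∀ v ∈ P, |lin Ch.pos f v| ≤ w) →
        (∀ v, size (Ch.pos v) ≤ ρ → v ∈ P) →
        (∀ v, v ∉ P → size (Ch.pos v) ≤ R → v ∈ Side) →
        Likely G (p : ℝ) K M ε P Side := by
  classical
  intro ε hε
  haveI : IsProbabilityMeasure (perc G p) := by unfold perc; infer_instance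
  haveI : Countable V := countable_of_connected hl hc
  set μ := perc G p
  have hu : μ (Zd.twoInfinite G) = 0 :=
    Zd.twoInfinite_null hl hc (Ch.quasiTransitive) ha p
  have hone : μ (hasInfinite G) = 1 :=
    (Zd.hasInfinite_zero_or_one hl p).resolve_left hθ.ne'
  let K : ℕ → Finset V := fun n => (Zd.grow nb)^[n] {Ch.o}
  let B : ℕ → Set (Config G) := fun n => ⋃ x ∈ K n, infAt G x
  have hBmono : Monotone B := monotone_nat_of_le_succ fun n =>
    Set.biUnion_subset_biUnion_left fun x hx => by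
      show x ∈ (Zd.grow nb)^[n + 1] {Ch.o}
      rw [Function.iterate_succ_apply']
      exact Finset.mem_union_left _ hx
  have hBall : (⋃ n, B n) = hasInfinite G := by
    rw [hasInfinite_eq]
    ext ω
    simp only [B, Set.mem_iUnion]
    constructor
    · rintro ⟨n, x, hx, h⟩; exact ⟨x, h⟩
    · rintro ⟨x, h⟩
      obtain ⟨w⟩ := hc.preconnected Ch.o x
      exact ⟨w.length, x,
        Zd.mem_iterate_grow hl w _ le_rfl _ (Finset.mem_singleton_self _), h⟩
  have hlim : Tendsto (fun n => μ.real (B n)) atTop (𝓝 1) := by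
    have h := (ENNReal.tendsto_toReal (measure_ne_top _ _)).comp
      (tendsto_measure_iUnion_atTop (μ := μ) hBmono)
    rw [hBall, hone, ENNReal.toReal_one] at h
    exact h
  obtain ⟨r, hr⟩ := (hlim.eventually (eventually_ge_nhds (show 1 - ε / 4 < 1 by linarith))).exists
  have hBm : MeasurableSet (B r) :=
    MeasurableSet.biUnion (Finset.countable_toSet _) fun x _ => measurableSet_infAt hl x
  have hnot : μ.real (B r)ᶜ ≤ ε / 4 := by
    rw [measureReal_compl hBm, probReal_univ]; linarith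
  obtain ⟨L, hL⟩ := Ch.short
  refine ⟨K r, Zd.subset_iterate_grow _ r (Finset.mem_singleton_self _), fun M => ?_⟩
  have hE : ∀ x y, G.Adj x y →
      |(Ch.pos x).1 - (Ch.pos y).1| ≤ max L 0 ∧ |(Ch.pos x).2 - (Ch.pos y).2| ≤ max L 0 := by
    intro x y hxy
    have := hL x y hxy
    simp only [size, Prod.fst_sub, Prod.snd_sub] at this
    constructor <;>
      linarith [le_max_left L 0, abs_nonneg ((Ch.pos x).1 - (Ch.pos y).1),
        abs_nonneg ((Ch.pos x).2 - (Ch.pos y).2)]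
  obtain ⟨ρ₀, hρ₀⟩ := many_side_exits Ch.pos hl p h1 hu (Ch.exists_shift)
    (max L 0) (le_max_right _ _) hE (K r) M (show 0 < ε / 4 by positivity)
  obtain ⟨ρ₁, hρ₁⟩ : ∃ ρ₁ : ℝ, ∀ x ∈ K r, size (Ch.pos x) ≤ ρ₁ :=
    ⟨∑ x ∈ K r, size (Ch.pos x), fun x hx => Finset.single_le_sum
      (f := fun x => size (Ch.pos x))
      (fun y _ => add_nonneg (abs_nonneg _) (abs_nonneg _)) hx⟩
  refine ⟨max (2 * ρ₀) ρ₁, fun w => ?_⟩
  obtain ⟨R₀, hR₀⟩ := hρ₀ (2 * max w 0)
  refine ⟨2 * R₀, fun f hf P Side hP hρ hQ => ?_⟩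
  set s := Real.sqrt (f.1 ^ 2 + f.2 ^ 2) with hsdef
  have hs2 : s ^ 2 = f.1 ^ 2 + f.2 ^ 2 := Real.sq_sqrt (by positivity)
  have hs : 1 / 2 ≤ s := by
    refine Real.le_sqrt_of_sq_le ?_
    have : (|f.1| + |f.2|) ^ 2 = 1 := by simp only [size] at hf; rw [hf]; norm_num
    nlinarith [sq_nonneg (|f.1| - |f.2|), sq_abs f.1, sq_abs f.2]
  have hs0 : 0 < s := by linarith
  have hKP : ∀ x ∈ K r, x ∈ P := fun x hx => hρ x ((hρ₁ x hx).trans (le_max_right _ _))
  have hbad := hR₀ (f.1 / s, f.2 / s) (by field_simp; linarith) P Side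
    hKP (fun x hx => hρ x ?_) (fun x hx => ?_) (fun z hz hzR => hQ z hz ?_)
  rotate_left
  · obtain ⟨a, b⟩ := hx
    simp only [size]; linarith [le_max_left (2 * ρ₀) ρ₁]
  · have h := hP x hx
    have e : lin Ch.pos (f.1 / s, f.2 / s) x = lin Ch.pos f x / s := by
      simp only [lin]; field_simp
    rw [e, abs_div, abs_of_pos hs0, div_le_iff₀ hs0]
    nlinarith [le_max_left w 0, le_max_right w 0]
  · obtain ⟨a, b⟩ := hzR
    simp only [size]; linarith
  have hfew : (perc G p).real {ω | (exits G P (K r) ω ∩ Side).encard < M} ≤ ε / 2 := by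
    refine (measureReal_mono (s₂ := {ω : Config G | (exits G P (K r) ω ∩ Side).encard ≤ M})
      (fun ω hω => le_of_lt (show (exits G P (K r) ω ∩ Side).encard < M from hω))
      (measure_ne_top _ _)).trans (hbad.trans ?_)
    linarith
  obtain ⟨Λ, hΛ⟩ := exists_window p P Side (K r) M (half_pos hε) hfew
  refine ⟨Λ, ?_⟩
  linarith [hΛ Λ subset_rfl]

/-- A large ball has many exits from a large region of a strip. -/
theorem exits_many (hl : Listing G nb) (hc : G.Connected) (ha : Zd.Amenable G) (Ch : Chart G)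
    (p : unitInterval) (h1 : (p : ℝ) < 1) (hθ : 0 < perc G p (hasInfinite G)) :
    ∀ ε > (0 : ℝ), ∃ K : Finset V, Ch.o ∈ K ∧ ∀ M : ℕ, ∃ ρ : ℝ, ∀ P : Set V,
      (∃ f : ℝ × ℝ, ∃ w : ℝ, f ≠ 0 ∧ ∀ v ∈ P, |lin Ch.pos f v| ≤ w) →
      (∀ v, size (Ch.pos v) ≤ ρ → v ∈ P) →
      Likely G (p : ℝ) K M ε P Set.univ := by
  intro ε hε
  obtain ⟨K, ho, hK⟩ := side_exits hl hc ha Ch p h1 hθ ε hε
  refine ⟨K, ho, fun M => ?_⟩
  obtain ⟨ρ, hρ⟩ := hK M
  refine ⟨ρ, fun P ⟨f, w, hf, hP⟩ hP' => ?_⟩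
  have hpos : 0 < size f := by
    by_contra hn
    simp only [size, not_lt] at hn
    exact hf (Prod.ext (abs_eq_zero.1 (le_antisymm (by linarith [abs_nonneg f.2]) (abs_nonneg _)))
      (abs_eq_zero.1 (le_antisymm (by linarith [abs_nonneg f.1]) (abs_nonneg _))))
  obtain ⟨R, hR⟩ := hρ (w / size f)
  refine hR (f.1 / size f, f.2 / size f) ?_ P _ (fun v hv => ?_) hP' fun _ _ _ => trivial
  · simp only [size, abs_div]
    rw [show |(|f.1| + |f.2|)| = |f.1| + |f.2| from abs_of_nonneg (by positivity),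
      ← add_div, div_self]
    exact hpos.ne'
  · have e : lin Ch.pos (f.1 / size f, f.2 / size f) v = lin Ch.pos f v / size f := by
      simp only [lin]; field_simp
    rw [e, abs_div, abs_of_pos hpos]
    exact div_le_div_of_nonneg_right (hP v hv) hpos.le

end Vale.Agent.P151.Zt
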