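import Vale.Agent.P151.Renorm.StepTools

/-!
# One hop, without geometry

A zone is a finite family of seeds: each seed has a set of edges and an attach point. A seed is
good when its edges are open and, given the states of the edges of all seeds of its zone, each
of its aimed events is likely. A cluster that has reached a good seed of one zone reaches an open
good seed of the zone its event aims at.
-/

open Finset

namespace Vale.Agent.P151.Zt

open Glue0 Renorm

variable {V E ι κ : Type}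

/-- The seeds of a zone. -/
structure Seeds (V E ι : Type) where
  /-- The seeds. -/
  idx : Finset ι
  /-- The edges of a seed. -/
  box : ι → Set E
  /-- The point through which a seed is reached. -/
  pt : ι → V

/-- The edges of all seeds of a zone. -/
def Seeds.slab (Z : Seeds V E ι) : Set E := ⋃ c ∈ Z.idx, Z.box c

/-- The seed is open. -/
def Seeds.isOpen (Z : Seeds V E ι) (c : ι) : Set (E → Bool) := {w | ∀ e ∈ Z.box c, w e = true}

variable [Fintype E] [DecidableEq E]

/-- An open seed whose aimed events are all likely given the states of its zone. -/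
def Good (Z : Seeds V E ι) (H : ι → κ → Set (E → Bool)) (p δ : ℝ) (c : ι) (w : E → Bool) : Prop :=
  w ∈ Z.isOpen c ∧ ∀ k, 1 - δ ≤ Pr (fixOut (Z.slab)ᶜ w fun _ => p) (H c k)

/-- The vertex `a` is joined inside `A` to a good seed of the zone. -/
def HitGood (en : E → V × V) (Z : Seeds V E ι) (H : ι → κ → Set (E → Bool)) (p δ : ℝ) (A : Set E)
    (a : V) : Set (E → Bool) :=
  {w | ∃ c ∈ Z.idx, Good Z H p δ c w ∧ Z.pt c ∈ cluster en (shut Aᶜ w) a}

omit [Fintype E] [DecidableEq E] in
theorem isOpen_local (Z : Seeds V E ι) {c : ι} (hc : c ∈ Z.idx) :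
    LocalEv Z.slab (Z.isOpen c) := fun w w' h =>
  forall₂_congr fun e he => by rw [h e (Set.mem_biUnion hc he)]

theorem good_local (Z : Seeds V E ι) (H : ι → κ → Set (E → Bool)) (p δ : ℝ) {c : ι}
    (hc : c ∈ Z.idx) {w w' : E → Bool} (h : ∀ e, e ∈ Z.slab → w e = w' e) :
    Good Z H p δ c w ↔ Good Z H p δ c w' := by
  have e1 : fixOut (Z.slab)ᶜ w (fun _ => p) = fixOut (Z.slab)ᶜ w' (fun _ => p) := by
    funext e
    by_cases he : e ∈ Z.slab <;> simp [fixOut, he, h]
  exact and_congr (isOpen_local Z hc w w' h) (by rw [e1])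

theorem good_mono (Z : Seeds V E ι) {H : ι → κ → Set (E → Bool)} {p δ : ℝ}
    (hp : p ∈ Set.Icc (0 : ℝ) 1) {c : ι} (hH : ∀ k, IsUpperSet (H c k)) {w w' : E → Bool}
    (h : w ≤ w') (hw : Good Z H p δ c w) : Good Z H p δ c w' := by
  refine ⟨fun e he => le_antisymm le_top ((hw.1 e he).symm.le.trans (h e)), fun k =>
    (hw.2 k).trans (Pr_weights_mono (fixOut_mem (fun _ => hp) _ w) (fixOut_mem (fun _ => hp) _ w')
      (fun e => ?_) (hH k))⟩
  by_cases he : e ∈ Z.slab
  · have := h e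
    simp only [fixOut, if_neg (show e ∉ (Z.slab)ᶜ from not_not_intro he)]
    revert this
    cases w e <;> cases w' e <;> simp
  · simp [fixOut, he]

theorem hitGood_upper (en : E → V × V) (Z : Seeds V E ι) {H : ι → κ → Set (E → Bool)} {p δ : ℝ}
    (hp : p ∈ Set.Icc (0 : ℝ) 1) (hH : ∀ c ∈ Z.idx, ∀ k, IsUpperSet (H c k)) (A : Set E)
    (a : V) : IsUpperSet (HitGood en Z H p δ A a) := fun _ _ h ⟨c, hc, hg, hcl⟩ =>
  ⟨c, hc, good_mono Z hp (hH c hc) h hg, cluster_mono (shut_mono _ h) a hcl⟩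

theorem hitGood_local (en : E → V × V) (Z : Seeds V E ι) (H : ι → κ → Set (E → Bool)) (p δ : ℝ)
    {A : Set E} (hS : Z.slab ⊆ A) (a : V) : LocalEv A (HitGood en Z H p δ A a) := fun w w' h => by
  have e : shut Aᶜ w = shut Aᶜ w' := shut_eq_of_agree fun e he => h e (by simpa using he)
  simp only [HitGood, Set.mem_ofPred_eq, e]
  exact exists_congr fun c => and_congr_right fun hc =>
    and_congr_left' (good_local Z H p δ hc fun e he => h e (hS he))

omit [Fintype E] [DecidableEq E] in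
/-- A cluster joined inside a larger set of edges is still joined. -/
theorem cluster_shut_mono (en : E → V × V) {A A' : Set E} (hA : A ⊆ A') (w : E → Bool) (a : V) :
    cluster en (shut Aᶜ w) a ⊆ cluster en (shut A'ᶜ w) a :=
  cluster_mono (fun e => by
    by_cases he : e ∈ A
    · simp [shut, he, hA he]
    · simp [shut, he]) a

/-- The error of one hop: gluing, no open seed among `M` disjoint ones, an open seed that is
not good. -/
noncomputable def hopErr (M : ℕ) (π π' δ : ℝ) (n : ℕ) : ℝ :=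
  δ + (1 - π) ^ M + M * (n * (π' * δ))

theorem hop [Fintype V] [DecidableEq V] [Fintype κ] (en : E → V × V) {p δ π π' : ℝ} {K M : ℕ}
    (hp : p ∈ Set.Icc (0 : ℝ) 1) (hδ : 0 < δ) (q : E → ℝ) (hq : ∀ e, q e ∈ Set.Icc (0 : ℝ) 1)
    (Z Z' : Seeds V E ι) (H H' : ι → κ → Set (E → Bool)) (B : ι → κ → Set E) (k : κ)
    (A A' : Set E) (a : V)
    (hdisj : Disjoint A Z'.slab) (hA' : A ∪ Z'.slab ⊆ A')
    (hH : ∀ c ∈ Z.idx, IsUpperSet (H c k) ∧ LocalEv (B c k) (H c k) ∧ B c k ⊆ A ∧
      ∀ e ∈ B c k, p ≤ q e)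
    (htarget : ∀ c ∈ Z.idx, ∀ w ∈ H c k, w ∈ Z.isOpen c →
      K ≤ {c' | c' ∈ Z'.idx ∧ Z'.pt c' ∈ cluster en (shut Aᶜ w) (Z.pt c)}.ncard)
    (hsep : ∀ s ⊆ Z'.idx, K ≤ s.card →
      ∃ T ⊆ s, T.card = M ∧ (T : Set ι).Pairwise fun x y => Disjoint (Z'.box x) (Z'.box y))
    (hπ : π ≤ 1) (hπ0 : 0 ≤ π') (hp' : ∀ e ∈ Z'.slab, q e = p)
    (hnext : ∀ c ∈ Z'.idx, π ≤ Pr (fun _ => p) (Z'.isOpen c) ∧
      Pr (fun _ => p) (Z'.isOpen c) ≤ π' ∧
      ∀ k, IsUpperSet (H' c k) ∧ 1 - δ ^ 2 ≤ Pr (fun _ => p) (H' c k)) :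
    Pr q (HitGood en Z H p δ A a \ HitGood en Z' H' p δ A' a) ≤
      hopErr M π π' δ (Fintype.card κ) := by
  classical
  set S := Z.slab with hSdef
  set S' := Z'.slab with hS'def
  have hp0 : ∀ _e : E, p ∈ Set.Icc (0 : ℝ) 1 := fun _ => hp
  have hq' : ∀ T, LocalEv S' T → Pr q T = Pr (fun _ => p) T := fun T hT =>
    Ev_congr_local hT.indicator hp'
  let hits : Set V → Finset ι := fun C => Z'.idx.filter fun c' => Z'.pt c' ∈ C
  let F : Set V → ℝ := fun C => if K ≤ (hits C).card then 1 else 0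
  have hF : Monotone F := by
    intro C C' h
    simp only [F]
    split_ifs with h1 h2 <;> norm_num
    exact h2 (h1.trans (card_le_card fun c hc => by
      simp only [hits, mem_filter] at hc ⊢
      exact ⟨hc.1, h hc.2⟩))
  let G : V → Set (E → Bool) := fun v => {w | ∃ c ∈ Z.idx, Z.pt c = v ∧ Good Z H p δ c w}
  have hG : ∀ v, LocalEv S (G v) := fun v w w' h =>
    exists_congr fun c => and_congr_right fun hc =>
      and_congr_right fun _ => good_local Z H p δ hc h
  have hgood : ∀ v w, w ∈ G v →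
      1 - δ ≤ Ev (fixOut Sᶜ w q) (fun u => F (cluster en (shut Aᶜ u) v)) := by
    rintro v w ⟨c, hc, rfl, hopen, hk⟩
    obtain ⟨hup, hloc, hBA, hpq⟩ := hH c hc
    have h1 : Pr (fixOut Sᶜ w (fun _ => p)) (H c k) ≤ Pr (fixOut Sᶜ w q) (H c k) := by
      have e1 : Pr (fixOut Sᶜ w (fun _ => p)) (H c k)
          = Pr (fixOut Sᶜ w (fun e => if e ∈ B c k then p else 0)) (H c k) :=
        Ev_congr_local hloc.indicator fun e he => by simp [fixOut, he]
      rw [e1]
      refine Pr_weights_mono (fixOut_mem (fun e => ?_) _ _) (fixOut_mem hq _ _) (fun e => ?_) hup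
      · split
        · exact hp
        · simp
      · by_cases he : e ∈ S
        · simp [fixOut, he]
        · by_cases hb : e ∈ B c k
          · simp [fixOut, he, hb, hpq e hb]
          · simp [fixOut, he, hb, (hq e).1]
    refine (hk k).trans (h1.trans ?_)
    rw [Pr, Ev_fixOut, Ev_fixOut]
    refine Ev_mono hq fun u => ?_
    by_cases hm : mix Sᶜ w u ∈ H c k
    · rw [Set.indicator_of_mem hm, Pi.one_apply]
      simp only [F]
      rw [if_pos]
      refine le_trans (htarget c hc _ hm fun e he => ?_) (le_of_eq ?_)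
      · rw [mix_out _ _ (not_not_intro (Set.mem_biUnion hc he : e ∈ S))]
        exact hopen e he
      · rw [← Set.ncard_coe_finset]
        congr 1
        ext c'
        simp [hits]
    · rw [Set.indicator_of_notMem hm]
      simp only [F]
      split <;> norm_num
  have hfirst := Renorm.glue_step en hq A S G hG a hF
    (fun C => by simp only [F]; split <;> norm_num) hδ.le hgood
  -- many hits, but none of them an open good seed
  set Y : Set (E → Bool) := {w | K ≤ (hits (cluster en (shut Aᶜ w) a)).card} with hY'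
  set X : Set (E → Bool) :=
    {w | ∀ c' ∈ hits (cluster en (shut Aᶜ w) a), ¬Good Z' H' p δ c' w}
  have hsame : ∀ w w' : E → Bool, (∀ e, e ∈ S'ᶜ → w e = w' e) → shut Aᶜ w = shut Aᶜ w' :=
    fun w w' h => shut_eq_of_agree fun e he =>
      h e (Set.disjoint_left.1 hdisj (by simpa using he))
  have hYl : LocalEv S'ᶜ Y := fun w w' h => by
    simp only [hY', Set.mem_ofPred_eq, hsame w w' h]
  have hbad : ∀ c ∈ Z'.idx,
      Pr q {v | v ∈ Z'.isOpen c ∧ ¬Good Z' H' p δ c v} ≤ Fintype.card κ * (π' * δ) ∧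
        π ≤ Pr q (Z'.isOpen c) := by
    intro c hc
    obtain ⟨hlo, hhi, hk'⟩ := hnext c hc
    set O := Z'.isOpen c with hO
    have hOl : LocalEv S' O := isOpen_local Z' hc
    refine ⟨?_, by rwa [hq' O hOl]⟩
    have hl : LocalEv S' {v | v ∈ O ∧ ¬Good Z' H' p δ c v} := fun w w' h =>
      and_congr (hOl w w' h) (not_congr (good_local Z' H' p δ hc h))
    rw [hq' _ hl]
    have hone : ∀ j, Pr (fun _ => p) (O ∩ badOut S'ᶜ (fun _ => p) δ (H' c j)ᶜ) ≤ π' * δ := by
      intro j
      have hm := Pr_badOut_le (p := fun _ : E => p) hp0 S'ᶜ (O := O) (F := (H' c j)ᶜ) (a := δ)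
        (ε := δ ^ 2) (fun w w' h hw e he => le_antisymm le_top ((hw e he).symm.le.trans (h e)))
        (by rwa [compl_compl]) (hk' j).1.compl hδ (by rw [Pr_compl]; linarith [(hk' j).2])
      rw [pow_two, mul_div_assoc, div_self hδ.ne', mul_one] at hm
      exact hm.trans (by rw [mul_comm]; exact mul_le_mul_of_nonneg_right hhi hδ.le)
    refine (Pr_mono hp0
      (B := ⋃ j ∈ (univ : Finset κ), O ∩ badOut S'ᶜ (fun _ => p) δ (H' c j)ᶜ) ?_).trans
      ((Pr_biUnion_le hp0 univ _).trans ((sum_le_sum fun j _ => hone j).trans_eq ?_))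
    · rintro v ⟨hvO, hvG⟩
      simp only [Good, not_and, not_forall, not_le] at hvG
      obtain ⟨j, hj⟩ := hvG hvO
      refine Set.mem_biUnion (mem_univ j) ⟨hvO, ?_⟩
      simp only [badOut, prOut, Set.mem_ofPred_eq, Pr_compl]
      linarith
    · rw [sum_const, card_univ, nsmul_eq_mul]
  have hX : ∀ w ∈ Y, Pr (fixOut S' w q) X ≤ (1 - π) ^ M + M * (Fintype.card κ * (π' * δ)) := by
    intro w hw
    obtain ⟨T, hT, hTc, hTp⟩ := hsep _ (filter_subset _ _) hw
    have hTI : ∀ c ∈ T, c ∈ Z'.idx := fun c hc => (mem_filter.1 (hT hc)).1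
    have e := prOut_eq S' q X w
    rw [prOut] at e
    rw [e]
    refine (Pr_mono hq (B := {v | ∀ c ∈ T, v ∉ Z'.isOpen c} ∪
        ⋃ c ∈ T, {v | v ∈ Z'.isOpen c ∧ ¬Good Z' H' p δ c v}) fun v hv => ?_).trans
      ((Pr_union_le hq _ _).trans (add_le_add ?_ ?_))
    · by_cases hno : ∃ c ∈ T, v ∈ Z'.isOpen c
      swap
      · exact Or.inl fun c hc hop => hno ⟨c, hc, hop⟩
      refine Or.inr ?_
      obtain ⟨c, hc, hopen⟩ := hno
      refine Set.mem_biUnion hc ⟨hopen, fun hg => hv c ?_ ?_⟩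
      · rw [hsame (mix S' w v) w fun e he => mix_out _ _ he]
        exact hT hc
      · exact (good_local Z' H' p δ (hTI c hc) fun e he => (mix_in _ _ he).symm).1 hg
    · exact (Pr_none_le hq T Z'.isOpen Z'.box
        (fun c _ w w' h => forall₂_congr fun e he => by rw [h e he])
        (fun x hx y hy hne => hTp hx hy hne)
        (fun c hc => (hbad c (hTI c hc)).2) hπ).trans_eq (by rw [hTc])
    · refine (Pr_biUnion_le hq T _).trans
        ((sum_le_sum fun c hc => (hbad c (hTI c hc)).1).trans_eq ?_)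
      rw [sum_const, hTc, nsmul_eq_mul]
  have hsecond : Pr q (Y ∩ X) ≤ (1 - π) ^ M + M * (Fintype.card κ * (π' * δ)) :=
    (Pr_inter_le_mul hq S' hYl hX).trans (mul_le_of_le_one_right
      (add_nonneg (pow_nonneg (by linarith) _) (by positivity)) (Pr_le_one hq _))
  -- together
  set W : Set (E → Bool) := {w | ∃ v, w ∈ G v ∧ v ∈ cluster en (shut Aᶜ w) a}
  calc Pr q (HitGood en Z H p δ A a \ HitGood en Z' H' p δ A' a)
      ≤ Pr q ((W ∩ Yᶜ) ∪ (Y ∩ X)) := Pr_mono hq fun w ⟨hw, hw'⟩ => by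
        by_cases hy : w ∈ Y
        · refine Or.inr ⟨hy, fun c' hc' hg => hw' ?_⟩
          simp only [hits, mem_filter] at hc'
          exact ⟨c', hc'.1, hg,
            cluster_shut_mono en (fun e he => hA' (Or.inl he)) w a hc'.2⟩
        · obtain ⟨c, hc, hg, hcl⟩ := hw
          exact Or.inl ⟨⟨_, ⟨c, hc, rfl, hg⟩, hcl⟩, hy⟩
    _ ≤ Pr q (W ∩ Yᶜ) + Pr q (Y ∩ X) := Pr_union_le hq _ _
    _ ≤ δ + ((1 - π) ^ M + M * (Fintype.card κ * (π' * δ))) := by
        refine add_le_add (le_trans (le_of_eq ?_) hfirst) hsecond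
        rw [Pr]
        congr 1
        funext w
        by_cases h1 : w ∈ W <;>
          by_cases h2 : K ≤ (hits (cluster en (shut Aᶜ w) a)).card <;>
            simp [h1, h2, F, hY']
    _ = hopErr M π π' δ (Fintype.card κ) := by rw [hopErr]; ring

end Vale.Agent.P151.Zt
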