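import Vale.Agent.P151.Zt.Defs
import Vale.Agent.P151.Zt.Hop

/-!
# Hits, and the composition of two moves

Hits are increasing local events that move along automorphisms. If many hits of one region are
likely, and every possible hit carries a seed beyond that region from which many hits of a larger
region are likely, then many hits of the larger region are likely from the start.
-/

open Finset

namespace Vale.Agent.P151.Zt

open Glue0 Renorm

variable {V : Type} {G : SimpleGraph V} {Λ : Finset V}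

section Hits

variable {P Side : Set V} {K : Finset V} {M : ℕ}

theorem hitEv_upper (P Side : Set V) (K : Finset V) (M : ℕ) :
    IsUpperSet (hitEv G Λ P Side K M) := fun w w' h hw => by
  refine le_trans (show M ≤ _ from hw) (Set.ncard_le_ncard ?_ (Set.toFinite _))
  rintro z ⟨hz, hs, x, hx, hc⟩
  exact ⟨hz, hs, x, hx, cluster_mono (shut_mono _ h) x hc⟩

theorem hitEv_local (P Side : Set V) (K : Finset V) (M : ℕ) :
    LocalEv (touching G Λ P) (hitEv G Λ P Side K M) := fun w w' h => by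
  have : shut (touching G Λ P)ᶜ w = shut (touching G Λ P)ᶜ w' :=
    shut_eq_of_agree fun e he => h e (by simpa using he)
  simp only [hitEv, hitSet, Set.mem_ofPred_eq, this]

/-- Edges inside the source do not matter. -/
theorem hitEv_local_source (P Side : Set V) (K : Finset V) (M : ℕ) :
    LocalEv (touching G Λ P \ within G Λ (K : Set V)) (hitEv G Λ P Side K M) := by
  intro w w' h
  suffices key : ∀ w w' : WE G Λ → Bool,
      (∀ e, e ∈ touching G Λ P \ within G Λ (K : Set V) → w e = w' e) →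
        hitSet G Λ P Side K w ⊆ hitSet G Λ P Side K w' by
    have := Set.Subset.antisymm (key w w' h) (key w' w fun e he => (h e he).symm)
    simp only [hitEv, Set.mem_ofPred_eq, this]
  rintro w w' h z ⟨hz, hs, x, hx, hc⟩
  refine ⟨hz, hs, ?_⟩
  change Relation.ReflTransGen (openAdj (wEnds G Λ) (shut (touching G Λ P)ᶜ w)) x z at hc
  clear hz hs
  induction hc with
  | refl => exact ⟨x, hx, mem_cluster_self _ _⟩
  | @tail b c _ hbc ih =>
    obtain ⟨e, he, hee⟩ := hbc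
    have het : e ∈ touching G Λ P := by
      by_contra hne
      simp [shut, hne] at he
    by_cases hK : e ∈ within G Λ (K : Set V)
    · refine ⟨c, ?_, mem_cluster_self _ _⟩
      rcases hee with r | r <;> simp [within, r] at hK
      exacts [hK.2, hK.1]
    · obtain ⟨x', hx', hc'⟩ := ih
      refine ⟨x', hx', Relation.ReflTransGen.tail hc' ⟨e, ?_, hee⟩⟩
      simp only [shut, Set.mem_compl_iff, het, not_true, if_false] at he ⊢
      rw [← h e ⟨het, hK⟩]
      exact he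

/-- A hit is next to the region. -/
theorem hit_adj (hKP : ∀ x ∈ K, x ∈ P) {w : WE G Λ → Bool} {z : WV Λ}
    (hz : z ∈ hitSet G Λ P Side K w) : ∃ y : WV Λ, (y : V) ∈ P ∧ G.Adj (y : V) z := by
  obtain ⟨hzP, -, x, hx, hc⟩ := hz
  rcases Relation.ReflTransGen.cases_tail hc with rfl | ⟨b, -, e, he, hee⟩
  · exact absurd (hKP _ hx) hzP
  have het : e ∈ touching G Λ P := by
    by_contra hne
    simp [shut, hne] at he
  have hadj := adj_wEnds e
  refine ⟨b, ?_, ?_⟩ <;> rcases hee with r | r <;> simp [touching, r] at het hadj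
  · exact het.resolve_right hzP
  · exact het.resolve_left hzP
  · exact hadj
  · exact hadj.symm

/-- A path of the cluster moves along an automorphism. -/
theorem cluster_touching_map {Λ' : Finset V} (φ : G ≃g G) (h : ∀ v ∈ Λ, φ v ∈ Λ')
    {P' : Set V} (hP : ∀ v ∈ P, φ v ∈ P') (w : WE G Λ' → Bool) (x : WV Λ) {y : WV Λ}
    (hy : y ∈ cluster (wEnds G Λ) (shut (touching G Λ P)ᶜ (w ∘ moveE φ h)) x) :
    moveV φ h y ∈ cluster (wEnds G Λ') (shut (touching G Λ' P')ᶜ w) (moveV φ h x) := by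
  refine cluster_shut_mono _ ?_ _ _ (cluster_move φ h _ w x hy)
  rintro _ ⟨e, he, rfl⟩
  rcases wEnds_moveE φ h e with r | r <;> simp only [touching, Set.mem_ofPred_eq, r]
  · exact he.imp (hP _) (hP _)
  · exact he.symm.imp (hP _) (hP _)

/-- Hits move along automorphisms into larger windows and regions. -/
theorem hitEv_map {Λ' : Finset V} (φ : G ≃g G) (h : ∀ v ∈ Λ, φ v ∈ Λ') {P' Side' : Set V}
    {K' : Finset V} (hK : ∀ x ∈ K, φ x ∈ K') (hKP : ∀ x ∈ K, x ∈ P) (hP : ∀ v ∈ P, φ v ∈ P')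
    (hS : ∀ y z, y ∈ P → z ∈ Λ → z ∉ P → z ∈ Side → G.Adj y z → φ z ∉ P' ∧ φ z ∈ Side')
    {M' : ℕ} (hM : M' ≤ M) :
    moveEv φ h (hitEv G Λ P Side K M) ⊆ hitEv G Λ' P' Side' K' M' := by
  intro w hw
  refine hM.trans (le_trans (show M ≤ _ from hw) ?_)
  rw [← Set.ncard_image_of_injective _ (moveV_injective φ h)]
  refine Set.ncard_le_ncard ?_ (Set.toFinite _)
  rintro _ ⟨z, hz, rfl⟩
  obtain ⟨y, hy, hyz⟩ := hit_adj hKP hz
  obtain ⟨hzP, hs, x, hx, hc⟩ := hz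
  obtain ⟨h1, h2⟩ := hS y z hy z.2 hzP hs hyz
  exact ⟨h1, h2, moveV φ h x, hK _ hx, cluster_touching_map φ h hP w x hc⟩

theorem Pr_hitEv_map {Λ' : Finset V} (φ : G ≃g G) (h : ∀ v ∈ Λ, φ v ∈ Λ') {P' Side' : Set V}
    {K' : Finset V} (hK : ∀ x ∈ K, φ x ∈ K') (hKP : ∀ x ∈ K, x ∈ P) (hP : ∀ v ∈ P, φ v ∈ P')
    (hS : ∀ y z, y ∈ P → z ∈ Λ → z ∉ P → z ∈ Side → G.Adj y z → φ z ∉ P' ∧ φ z ∈ Side')
    {M' : ℕ} (hM : M' ≤ M) {p : ℝ} (hp : p ∈ Set.Icc (0 : ℝ) 1) :
    Pr (fun _ : WE G Λ => p) (hitEv G Λ P Side K M) ≤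
      Pr (fun _ : WE G Λ' => p) (hitEv G Λ' P' Side' K' M') := by
  rw [← Pr_moveEv φ h]
  exact Pr_mono (fun _ => hp) (hitEv_map φ h hK hKP hP hS hM)

theorem exitHits_subset_hitEv :
    exitHits G Λ P Side K M ⊆ hitEv G Λ P Side K M := by
  intro w hw
  have h1 : (M : ℕ∞) ≤ (wExits G Λ P Side K w).encard := hw
  have h2 : wExits G Λ P Side K w ⊆ hitSet G Λ P Side K w := by
    rintro z ⟨hz, hs, x, hx, y, hy, hc, e, he, hee⟩
    refine ⟨hz, hs, x, hx, Relation.ReflTransGen.tail (cluster_shut_mono _ ?_ w x hc) ⟨e, ?_, hee⟩⟩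
    · exact fun f hf => Or.inl hf.1
    · have : e ∈ touching G Λ P := by
        rcases hee with r | r <;> simp [touching, r, hy]
      simpa [shut, this] using he
  have h3 := h1.trans (Set.encard_le_encard h2)
  rw [← (Set.toFinite _).cast_ncard_eq, Nat.cast_le] at h3
  exact h3

/-- Likely exits are likely hits, in every larger region. -/
theorem Likely.toHit {p : ℝ} (hp : p ∈ Set.Icc (0 : ℝ) 1) {K' : Finset V} {M' : ℕ} {ε ε' : ℝ}
    {P' Side' : Set V} (h : Likely G p K M ε P Side) (hK : K ⊆ K') (hKP : ∀ x ∈ K, x ∈ P)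
    (hP : P ⊆ P') (hS : ∀ y z, y ∈ P → z ∉ P → z ∈ Side → G.Adj y z → z ∉ P' ∧ z ∈ Side')
    (hM : M' ≤ M) (hε : ε ≤ ε') : LikelyHit G p K' M' ε' P' Side' := by
  obtain ⟨Λ, hΛ⟩ := h
  exact ⟨Λ, (by linarith [hΛ] : 1 - ε' ≤ _).trans ((Pr_mono (fun _ => hp)
    exitHits_subset_hitEv).trans (Pr_hitEv_map (SimpleGraph.Iso.refl) (fun v hv => hv)
      (fun x hx => hK hx) hKP (fun v hv => hP hv) (fun y z hy _ => hS y z hy) hM hp))⟩

/-- Likely hits stay likely in larger regions. -/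
theorem LikelyHit.mono {p : ℝ} (hp : p ∈ Set.Icc (0 : ℝ) 1) {K' : Finset V} {M' : ℕ} {ε ε' : ℝ}
    {P' Side' : Set V} (h : LikelyHit G p K M ε P Side) (hK : K ⊆ K') (hKP : ∀ x ∈ K, x ∈ P)
    (hP : P ⊆ P') (hS : ∀ y z, y ∈ P → z ∉ P → z ∈ Side → G.Adj y z → z ∉ P' ∧ z ∈ Side')
    (hM : M' ≤ M) (hε : ε ≤ ε') : LikelyHit G p K' M' ε' P' Side' := by
  obtain ⟨Λ, hΛ⟩ := h
  exact ⟨Λ, (by linarith [hΛ] : 1 - ε' ≤ _).trans (Pr_hitEv_map (SimpleGraph.Iso.refl)
    (fun v hv => hv) (fun x hx => hK hx) hKP (fun v hv => hP hv) (fun y z hy _ => hS y z hy) hM hp)⟩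

end Hits

/-- The error of one composition: gluing, no open seed among `M` disjoint ones, an open seed
that is not good. -/
noncomputable def compErr (M : ℕ) (π δ : ℝ) : ℝ := δ + (1 - π) ^ M + M * (π * δ)

/-- Two moves in one window. -/
theorem compose_window {p δ ε : ℝ} (hp : p ∈ Set.Icc (0 : ℝ) 1) (hδ : 0 < δ) (o : WV Λ)
    (K : Finset V) (hKconn : ∀ x ∈ K, ∀ h : x ∈ Λ, (⟨x, h⟩ : WV Λ) ∈
      cluster (wEnds G Λ) (shut (within G Λ (K : Set V))ᶜ fun _ => true) o)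
    (hoK : (o : V) ∈ K) {P₁ Side₁ P Side : Set V} (hKP : ∀ x ∈ K, x ∈ P₁) (hP₁P : P₁ ⊆ P)
    {M₁ M₀ M m R : ℕ}
    (hspread : ∀ s : Finset V, M₁ ≤ s.card → ∃ T ⊆ s, T.card = M₀ ∧
      (T : Set V).Pairwise fun x y =>
        Disjoint {v | ∃ w : G.Walk x v, w.length ≤ R} {v | ∃ w : G.Walk y v, w.length ≤ R})
    (h1 : 1 - ε ≤ Pr (fun _ : WE G Λ => p) (hitEv G Λ P₁ Side₁ K M₁))
    (hseed : ∀ y : WV Λ, (y : V) ∉ P₁ → (y : V) ∈ Side₁ →
      (∃ y' : V, y' ∈ P₁ ∧ G.Adj y' y) →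
      ∃ (box : Finset (WE G Λ)) (H : Set (WE G Λ → Bool)), box.card = m ∧
        (∀ e ∈ box, ∀ v ∈ (e.1 : Sym2 V), v ∉ P₁ ∧ v ∈ P ∧ ∃ w : G.Walk y v, w.length ≤ R) ∧
        IsUpperSet H ∧ LocalEv (touching G Λ P) H ∧ 1 - δ ^ 2 ≤ Pr (fun _ => p) H ∧
        ∀ w ∈ H, (∀ e ∈ box, w e = true) → M ≤ {z : WV Λ | (z : V) ∉ P ∧ (z : V) ∈ Side ∧
          z ∈ cluster (wEnds G Λ) (shut (touching G Λ P)ᶜ w) y}.ncard) :
    1 - (ε + compErr M₀ (p ^ m) δ) ≤
      Pr (fun _ : WE G Λ => p) (hitEv G Λ P Side K M) := by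
  classical
  choose! box H hcard hbox hup hloc hlik htgt using hseed
  set ok : WV Λ → Prop := fun y =>
    (y : V) ∉ P₁ ∧ (y : V) ∈ Side₁ ∧ ∃ y' : V, y' ∈ P₁ ∧ G.Adj y' y with hok
  set inK : Set (WE G Λ) := within G Λ (K : Set V) with hinK
  set q : WE G Λ → ℝ := fun e => if e ∈ inK then 1 else p with hqdef
  have hq : ∀ e, q e ∈ Set.Icc (0 : ℝ) 1 := fun e => by
    simp only [hqdef]
    split
    · simp
    · exact hp
  have hpp : ∀ _e : WE G Λ, p ∈ Set.Icc (0 : ℝ) 1 := fun _ => hp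
  set A := touching G Λ P with hA
  set slab : Set (WE G Λ) := {e | ∃ y, ok y ∧ e ∈ box y} with hslab
  have htouch : touching G Λ P₁ ⊆ A := fun e he => he.imp (fun h => hP₁P h) fun h => hP₁P h
  have hslabK : ∀ e ∈ slab, e ∉ inK ∧ e ∉ touching G Λ P₁ := by
    rintro e ⟨y, ⟨h₁, h₂, h₃⟩, he⟩
    have hv := hbox y h₁ h₂ h₃ e he
    have ha := hv _ (Sym2.out_fst_mem _)
    have hb := hv _ (Sym2.out_snd_mem _)
    exact ⟨fun h => ha.1 (hKP _ h.1), fun h => h.elim ha.1 hb.1⟩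
  have hqS : ∀ e ∈ slab, q e = p := fun e he => by simp [hqdef, (hslabK e he).1]
  let O : WV Λ → Set (WE G Λ → Bool) := fun y => {w | ∀ e ∈ box y, w e = true}
  let good : WV Λ → Set (WE G Λ → Bool) := fun y =>
    {w | ok y ∧ w ∈ O y ∧ 1 - δ ≤ Pr (fixOut slabᶜ w fun _ => p) (H y)}
  have hO : ∀ y, LocalEv (box y : Set (WE G Λ)) (O y) := fun y w w' h =>
    forall₂_congr fun e he => by rw [h e he]
  have hgood : ∀ y, LocalEv slab (good y) := fun y w w' h => by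
    by_cases hy : ok y
    · have e1 : fixOut slabᶜ w (fun _ => p) = fixOut slabᶜ w' (fun _ => p) := by
        funext e
        by_cases he : e ∈ slab <;> simp [fixOut, he, h]
      refine and_congr_right fun _ => and_congr (hO y w w' fun e he => h e ⟨y, hy, he⟩) ?_
      rw [e1]
    · simp [good, hy]
  let F : Set (WV Λ) → ℝ := fun C =>
    if M ≤ {z : WV Λ | (z : V) ∉ P ∧ (z : V) ∈ Side ∧ z ∈ C}.ncard then 1 else 0
  have hF : Monotone F := by
    intro C C' h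
    simp only [F]
    split_ifs with h1 h2 <;> norm_num
    exact h2 (h1.trans (Set.ncard_le_ncard (fun z hz => ⟨hz.1, hz.2.1, h hz.2.2⟩)
      (Set.toFinite _)))
  have hglue := Renorm.glue_step (wEnds G Λ) hq A slab good hgood o hF
    (fun C => by simp only [F]; split <;> norm_num) hδ.le fun y w hw => by
    obtain ⟨⟨h₁, h₂, h₃⟩, hopen, hk⟩ := hw
    have hle : Pr (fixOut slabᶜ w fun _ => p) (H y) ≤ Pr (fixOut slabᶜ w q) (H y) := by
      refine Pr_weights_mono (fixOut_mem hpp _ _) (fixOut_mem hq _ _) (fun e => ?_)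
        (hup y h₁ h₂ h₃)
      by_cases he : e ∈ slab
      · simp [fixOut, he]
      · simp only [fixOut, Set.mem_compl_iff, he, not_false_eq_true, if_true, hqdef]
        split
        · exact hp.2
        · exact le_rfl
    refine hk.trans (hle.trans ?_)
    rw [Pr, Ev_fixOut, Ev_fixOut]
    refine Ev_mono hq fun u => ?_
    by_cases hm : mix slabᶜ w u ∈ H y
    · rw [Set.indicator_of_mem hm, Pi.one_apply]
      simp only [F]
      rw [if_pos]
      refine htgt y h₁ h₂ h₃ _ hm fun e he => ?_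
      rw [mix_out _ _ (not_not_intro (show e ∈ slab from ⟨y, ⟨h₁, h₂, h₃⟩, he⟩))]
      exact hopen e he
    · rw [Set.indicator_of_notMem hm]
      simp only [F]
      split <;> norm_num
  set Y₁ := hitEv G Λ P₁ Side₁ K M₁ with hY₁
  set N : Set (WE G Λ → Bool) := {w | ∀ y ∈ hitSet G Λ P₁ Side₁ K w, w ∉ good y} with hN
  have hY₁q : Pr q Y₁ = Pr (fun _ => p) Y₁ :=
    Ev_congr_local (hitEv_local_source P₁ Side₁ K M₁).indicator fun e he => by
      simp [hqdef, show e ∉ inK from he.2]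
  have hYq : Pr q (hitEv G Λ P Side K M) = Pr (fun _ => p) (hitEv G Λ P Side K M) :=
    Ev_congr_local (hitEv_local_source P Side K M).indicator
      fun e he => by simp [hqdef, show e ∉ inK from he.2]
  have hπ1 : p ^ m ≤ 1 := pow_le_one₀ hp.1 hp.2
  have hsecond : Pr q (Y₁ ∩ N) ≤ (1 - p ^ m) ^ M₀ + M₀ * (p ^ m * δ) := by
    have hl : LocalEv slabᶜ Y₁ := (hitEv_local P₁ Side₁ K M₁).mono fun e he hes =>
      (hslabK e hes).2 he
    refine (Pr_inter_le_mul hq slab hl fun w hw => ?_).trans (mul_le_of_le_one_right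
      (add_nonneg (pow_nonneg (sub_nonneg.2 hπ1) _)
        (by have := pow_nonneg hp.1 m; positivity)) (Pr_le_one hq _))
    set hits := (Set.toFinite (hitSet G Λ P₁ Side₁ K w)).toFinset with hhits
    have hc : M₁ ≤ (hits.map ⟨Subtype.val, Subtype.val_injective⟩).card := by
      rw [card_map, hhits, ← Set.ncard_eq_toFinset_card _ (Set.toFinite _)]
      exact hw
    obtain ⟨T, hT, hTc, hTd⟩ := hspread _ hc
    set T' : Finset (WV Λ) := hits.filter fun y : WV Λ => (y : V) ∈ T with hT'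
    have hT'c : T'.card = M₀ := by
      rw [← hTc]
      refine card_bij (fun y _ => (y : V)) (fun y hy => (mem_filter.1 hy).2)
        (fun a _ b _ h => Subtype.ext h) fun v hv => ?_
      obtain ⟨y, hy, rfl⟩ := mem_map.1 (hT hv)
      exact ⟨y, mem_filter.2 ⟨hy, hv⟩, rfl⟩
    have hTok : ∀ y ∈ T', ok y := fun y hy => by
      have hy' := (Set.Finite.mem_toFinset _).1 (mem_filter.1 hy).1
      obtain ⟨y', h', ha⟩ := hit_adj hKP hy'
      exact ⟨hy'.1, hy'.2.1, y', h', ha⟩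
    have e := prOut_eq slab q N w
    rw [prOut] at e
    rw [e]
    refine (Pr_mono hq (B := {v | ∀ y ∈ T', v ∉ O y} ∪
        ⋃ y ∈ T', O y ∩ badOut slabᶜ (fun _ => p) δ (H y)ᶜ) fun v hv => ?_).trans
      ((Pr_union_le hq _ _).trans (add_le_add ?_ ?_))
    · by_cases hno : ∃ y ∈ T', v ∈ O y
      swap
      · exact Or.inl fun y hy hop => hno ⟨y, hy, hop⟩
      obtain ⟨y, hy, hopen⟩ := hno
      refine Or.inr (Set.mem_biUnion hy ⟨hopen, ?_⟩)
      have hsame : hitSet G Λ P₁ Side₁ K (mix slab w v) = hitSet G Λ P₁ Side₁ K w := by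
        have : shut (touching G Λ P₁)ᶜ (mix slab w v) = shut (touching G Λ P₁)ᶜ w :=
          shut_eq_of_agree fun e he => mix_out _ _ fun hes => (hslabK e hes).2 (by simpa using he)
        simp only [hitSet, this]
      have hng := hv y (hsame ▸ (Set.Finite.mem_toFinset _).1 (mem_filter.1 hy).1)
      have hg := (hgood y (mix slab w v) v fun e he => mix_in _ _ he)
      rw [hg] at hng
      simp only [badOut, prOut, Set.mem_ofPred_eq, Pr_compl]
      by_contra hlt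
      exact hng ⟨hTok y hy, hopen, by linarith⟩
    · refine (Pr_none_le hq T' O (fun y => (box y : Set (WE G Λ))) (fun y _ => hO y) ?_ ?_
        hπ1).trans_eq (by rw [hT'c])
      · intro x hx y hy hne
        refine Set.disjoint_left.2 fun e hex hey => ?_
        obtain ⟨h₁, h₂, h₃⟩ := hTok x hx
        obtain ⟨k₁, k₂, k₃⟩ := hTok y hy
        exact Set.disjoint_left.1 (hTd (mem_filter.1 hx).2 (mem_filter.1 hy).2
          fun h => hne (Subtype.ext h))
          (hbox x h₁ h₂ h₃ e hex _ (Sym2.out_fst_mem _)).2.2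
          (hbox y k₁ k₂ k₃ e hey _ (Sym2.out_fst_mem _)).2.2
      · intro y hy
        obtain ⟨h₁, h₂, h₃⟩ := hTok y hy
        refine le_of_eq ?_
        rw [Renorm.Pr_open, prod_congr rfl fun e he => hqS e ⟨y, hTok y hy, he⟩, prod_const,
          hcard y h₁ h₂ h₃]
    · refine (Pr_biUnion_le hq T' _).trans ?_
      refine (sum_le_sum (g := fun _ => p ^ m * δ) fun y hy => ?_).trans_eq (by
        rw [sum_const, hT'c, nsmul_eq_mul])
      obtain ⟨h₁, h₂, h₃⟩ := hTok y hy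
      have hl' : LocalEv slab (O y ∩ badOut slabᶜ (fun _ => p) δ (H y)ᶜ) := by
        refine ((hO y).mono (R' := slab) fun e he => ⟨y, hTok y hy, he⟩).inter ?_
        have hb := prOut_local slabᶜ (fun _ => p) (H y)ᶜ
        rw [compl_compl] at hb
        intro u u' h
        simp only [badOut, Set.mem_ofPred_eq, hb u u' h]
      rw [show Pr q (O y ∩ badOut slabᶜ (fun _ => p) δ (H y)ᶜ) =
        Pr (fun _ => p) (O y ∩ badOut slabᶜ (fun _ => p) δ (H y)ᶜ) from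
          Ev_congr_local hl'.indicator hqS]
      have hm := Pr_badOut_le (p := fun _ : WE G Λ => p) hpp slabᶜ (O := O y) (F := (H y)ᶜ)
        (a := δ) (ε := δ ^ 2)
        (fun u u' h hu e he => le_antisymm le_top ((hu e he).symm.le.trans (h e)))
        (by rw [compl_compl]; exact (hO y).mono fun e he => ⟨y, hTok y hy, he⟩)
        (hup y h₁ h₂ h₃).compl hδ (by rw [Pr_compl]; linarith [hlik y h₁ h₂ h₃])
      rw [pow_two, mul_div_assoc, div_self hδ.ne', mul_one, Renorm.Pr_open, prod_const,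
        hcard y h₁ h₂ h₃] at hm
      linarith
  set Fo : Set (WE G Λ → Bool) := {w | ∀ e ∈ inK, w e = true} with hFo
  have hFo0 : Pr q Foᶜ = 0 := by
    have hFo' : Fo = {w | ∀ e ∈ (Set.toFinite inK).toFinset, w e = true} := by
      ext w; simp [hFo]
    rw [Pr_compl, hFo', Renorm.Pr_open, prod_eq_one fun e he => ?_, sub_self]
    simp [hqdef, (Set.Finite.mem_toFinset _).1 he]
  set W : Set (WE G Λ → Bool) :=
    {w | ∃ y, w ∈ good y ∧ y ∈ cluster (wEnds G Λ) (shut Aᶜ w) o} with hW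
  set Z : Set (WE G Λ → Bool) := {w | F (cluster (wEnds G Λ) (shut Aᶜ w) o) = 0} with hZ
  have hglue' : Pr q (W ∩ Z) ≤ δ := by
    refine le_trans (le_of_eq ?_) hglue
    rw [Pr]
    congr 1
    funext w
    by_cases h1 : w ∈ W <;>
      by_cases h2 : M ≤ {z : WV Λ | (z : V) ∉ P ∧ (z : V) ∈ Side ∧
        z ∈ cluster (wEnds G Λ) (shut Aᶜ w) o}.ncard
    · have hw : w ∉ Z := by simp [hZ, F, h2]
      simp [h1, hw, F, h2]
    · have hw : w ∈ Z := by simp [hZ, F, not_le.1 h2]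
      simp [h1, hw, F, h2]
    · simp [h1]
    · simp [h1]
  have hcover : (hitEv G Λ P Side K M)ᶜ ⊆ (Foᶜ ∪ Y₁ᶜ) ∪ ((Y₁ ∩ N) ∪ (W ∩ Z)) := by
    intro w hw
    by_cases hfo : w ∈ Fo
    swap
    · exact Or.inl (Or.inl hfo)
    by_cases hy : w ∈ Y₁
    swap
    · exact Or.inl (Or.inr hy)
    refine Or.inr ?_
    by_cases hn : w ∈ N
    · exact Or.inl ⟨hy, hn⟩
    refine Or.inr ?_
    simp only [hN, Set.mem_ofPred_eq, not_forall, not_not] at hn
    obtain ⟨y, ⟨-, -, x, hx, hyx⟩, hg⟩ := hn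
    have hox : x ∈ cluster (wEnds G Λ) (shut Aᶜ w) o := by
      refine cluster_mono (fun e => ?_) o (hKconn _ hx x.2)
      by_cases he : e ∈ inK
      · have hAe : e ∈ A := Or.inl (hP₁P (hKP _ he.1))
        simp [shut, hAe, hfo e he]
      · simp [shut, show e ∉ inK from he]
    refine ⟨⟨y, hg, ?_⟩, ?_⟩
    · rw [← cluster_eq hox]
      exact cluster_shut_mono _ htouch w x hyx
    · by_contra hz
      refine hw ?_
      simp only [hZ, F, Set.mem_ofPred_eq] at hz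
      split_ifs at hz with hM
      · refine hM.trans (Set.ncard_le_ncard (fun z hz => ?_) (Set.toFinite _))
        exact ⟨hz.1, hz.2.1, o, hoK, hz.2.2⟩
      · exact absurd rfl hz
  have := (Pr_mono hq hcover).trans ((Pr_union_le hq _ _).trans
    (add_le_add (Pr_union_le hq _ _) ((Pr_union_le hq _ _).trans (add_le_add hsecond hglue'))))
  rw [Pr_compl, Pr_compl q Y₁, hFo0, hY₁q, hYq] at this
  rw [compErr]
  linarith

/-- A walk with open edges of the window stays in the cluster. -/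
theorem cluster_of_walk {A : Set (WE G Λ)} {w : WE G Λ → Bool} {a b : V} (W : G.Walk a b)
    (ha : a ∈ Λ) (hb : b ∈ Λ)
    (h : ∀ e ∈ W.edges, ∃ f : WE G Λ, (f.1 : Sym2 V) = e ∧ f ∈ A ∧ w f = true) :
    (⟨b, hb⟩ : WV Λ) ∈ cluster (wEnds G Λ) (shut Aᶜ w) ⟨a, ha⟩ := by
  induction W with
  | nil => exact mem_cluster_self _ _
  | @cons a c b hac W ih =>
    obtain ⟨f, hf, hfA, hfo⟩ := h s(a, c) (List.mem_cons_self ..)
    have hc : c ∈ Λ := f.2 c (hf ▸ Sym2.mem_mk_right a c)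
    refine Relation.ReflTransGen.head ⟨f, by simp [shut, hfA, hfo], ?_⟩
      (ih hc hb fun e he => h e (List.mem_cons_of_mem _ he))
    rcases Sym2.eq_iff.1 ((wEnds_sym2 f).trans hf) with ⟨h1, h2⟩ | ⟨h1, h2⟩
    · exact Or.inl (Prod.ext (Subtype.ext h1) (Subtype.ext h2))
    · exact Or.inr (Prod.ext (Subtype.ext h1) (Subtype.ext h2))

/-- Two moves on the graph. -/
theorem compose {p δ ε : ℝ} (hp : p ∈ Set.Icc (0 : ℝ) 1) (hδ : 0 < δ) {o : V} {K : Finset V}
    (hoK : o ∈ K) (hKconn : ∀ x ∈ K, ∃ W : G.Walk o x, ∀ v ∈ W.support, v ∈ K)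
    {P₁ Side₁ P Side : Set V} (hKP : ∀ x ∈ K, x ∈ P₁) (hP₁P : P₁ ⊆ P) {M₁ M₀ M m R : ℕ}
    (hspread : ∀ s : Finset V, M₁ ≤ s.card → ∃ T ⊆ s, T.card = M₀ ∧
      (T : Set V).Pairwise fun x y =>
        Disjoint {v | ∃ w : G.Walk x v, w.length ≤ R} {v | ∃ w : G.Walk y v, w.length ≤ R})
    (h1 : LikelyHit G p K M₁ ε P₁ Side₁)
    (hseed : ∀ y, y ∉ P₁ → y ∈ Side₁ → (∃ y', y' ∈ P₁ ∧ G.Adj y' y) →
      ∃ (φ : G ≃g G) (edges : Finset (Sym2 V)) (P₂ Side₂ : Set V), edges.card = m ∧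
        (∀ e ∈ edges, e ∈ G.edgeSet ∧
          ∀ v ∈ e, v ∉ P₁ ∧ v ∈ P ∧ ∃ w : G.Walk y v, w.length ≤ R) ∧
        (∀ x ∈ K, ∃ w : G.Walk y (φ x), ∀ e ∈ w.edges, e ∈ edges) ∧
        LikelyHit G p K M (δ ^ 2) P₂ Side₂ ∧ (∀ x ∈ K, x ∈ P₂) ∧ (∀ v ∈ P₂, φ v ∈ P) ∧
        ∀ v z, v ∈ P₂ → z ∉ P₂ → z ∈ Side₂ → G.Adj v z → φ z ∉ P ∧ φ z ∈ Side) :
    LikelyHit G p K M (ε + compErr M₀ (p ^ m) δ) P Side := by
  classical
  choose! φ edges P₂ Side₂ hcard hedges hwalk hlik hKP₂ hP₂ hS using hseed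
  choose! Λ₂ hΛ₂ using hlik
  obtain ⟨Λ₁, hΛ₁⟩ := h1
  let cand := Λ₁.filter fun y => y ∉ P₁ ∧ y ∈ Side₁ ∧ ∃ y', y' ∈ P₁ ∧ G.Adj y' y
  let Λ : Finset V := Λ₁ ∪ K ∪ cand.biUnion fun y =>
    ((Λ₂ y ∪ K).image (φ y)) ∪ (edges y).biUnion fun e => e.toFinset
  have hsub₁ : ∀ v ∈ Λ₁, v ∈ Λ := fun v hv => mem_union_left _ (mem_union_left _ hv)
  have hsubK : ∀ v ∈ K, v ∈ Λ := fun v hv => mem_union_left _ (mem_union_right _ hv)
  refine ⟨Λ, compose_window (o := ⟨o, hsubK o hoK⟩) hp hδ K ?_ hoK hKP hP₁P hspread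
    (Side₁ := {y | y ∈ Side₁ ∧ y ∈ Λ₁}) ?_ ?_⟩
  · intro x hx h
    obtain ⟨W, hW⟩ := hKconn x hx
    refine cluster_of_walk (A := within G Λ (K : Set V)) W _ h fun e he => ?_
    have hv : ∀ v ∈ e, v ∈ K := fun v hv => hW v (W.mem_support_of_mem_edges he hv)
    exact ⟨⟨⟨e, W.edges_subset_edgeSet he⟩, fun v hv' => hsubK v (hv v hv')⟩, rfl,
      ⟨hv _ (Sym2.out_fst_mem _), hv _ (Sym2.out_snd_mem _)⟩, rfl⟩
  · exact hΛ₁.trans (Pr_hitEv_map (Side' := {y | y ∈ Side₁ ∧ y ∈ Λ₁}) (SimpleGraph.Iso.refl)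
      hsub₁ (fun x hx => hx) hKP
      (fun v hv => hv) (fun y z _ hz hzP hzS _ => ⟨hzP, hzS, hz⟩) le_rfl hp)
  · rintro y hyP ⟨hyS, hyΛ⟩ hadj
    have hy : (y : V) ∈ cand := mem_filter.2 ⟨hyΛ, hyP, hyS, hadj⟩
    have hin : ∀ v ∈ ((Λ₂ y ∪ K).image (φ y)) ∪ (edges y).biUnion fun e => e.toFinset, v ∈ Λ :=
      fun v hv => mem_union_right _ (mem_biUnion.2 ⟨y, hy, hv⟩)
    have hh : ∀ v ∈ Λ₂ y, φ y v ∈ Λ := fun v hv =>
      hin _ (mem_union_left _ (mem_image_of_mem _ (mem_union_left _ hv)))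
    have hend : ∀ e ∈ edges y, ∀ v ∈ e, v ∈ Λ := fun e he v hv =>
      hin _ (mem_union_right _ (mem_biUnion.2 ⟨e, he, Sym2.mem_toFinset.2 hv⟩))
    have hed := hedges y hyP hyS hadj
    let ι : edges y ↪ WE G Λ := ⟨fun e => ⟨⟨e.1, (hed e.1 e.2).1⟩, hend e.1 e.2⟩,
      fun a b h => Subtype.ext (congrArg (fun f : WE G Λ => (f.1 : Sym2 V)) h)⟩
    refine ⟨(edges y).attach.map ι, moveEv (φ y) hh (hitEv G (Λ₂ y) (P₂ y) (Side₂ y) K M),
      by rw [card_map, card_attach, hcard y hyP hyS hadj], ?_,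
      moveEv_upper _ _ (hitEv_upper _ _ _ _), ?_, ?_, ?_⟩
    · intro e he v hv
      obtain ⟨e', -, rfl⟩ := mem_map.1 he
      exact (hed e'.1 e'.2).2 v hv
    · refine (moveEv_local _ _ (hitEv_local _ _ _ _)).mono ?_
      rintro _ ⟨e, he, rfl⟩
      rcases wEnds_moveE (φ y) hh e with r | r <;> simp only [touching, Set.mem_ofPred_eq, r]
      · exact he.imp (hP₂ y hyP hyS hadj _) (hP₂ y hyP hyS hadj _)
      · exact he.symm.imp (hP₂ y hyP hyS hadj _) (hP₂ y hyP hyS hadj _)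
    · exact (hΛ₂ y hyP hyS hadj).trans_eq (Pr_moveEv _ _ _ _).symm
    · intro w hw hopen
      refine le_trans (show M ≤ _ from hw) ?_
      rw [← Set.ncard_image_of_injective _ (moveV_injective (φ y) hh)]
      refine Set.ncard_le_ncard ?_ (Set.toFinite _)
      rintro _ ⟨z, hz, rfl⟩
      obtain ⟨v, hv, hvz⟩ := hit_adj (hKP₂ y hyP hyS hadj) hz
      obtain ⟨hzP, hzS, x, hx, hc⟩ := hz
      obtain ⟨h1, h2⟩ := hS y hyP hyS hadj v z hv hzP hzS hvz
      refine ⟨h1, h2, ?_⟩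
      obtain ⟨W, hW⟩ := hwalk y hyP hyS hadj x hx
      have hyx : moveV (φ y) hh x ∈ cluster (wEnds G Λ) (shut (touching G Λ P)ᶜ w) y := by
        refine cluster_of_walk W y.2 _ fun e he => ⟨ι ⟨e, hW e he⟩, rfl, ?_,
          hopen _ (mem_map_of_mem ι (mem_attach _ _))⟩
        exact Or.inl ((hed e (hW e he)).2 _ (Sym2.out_fst_mem _)).2.1
      rw [← cluster_eq hyx]
      exact cluster_touching_map (φ y) hh (hP₂ y hyP hyS hadj) w x hc

end Vale.Agent.P151.Zt
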