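import Vale.Agent.P151.Zd.Conclude

/-!
# The critical point of a graph on which percolation is an open condition
-/

namespace Vale.Agent.P151.Zt

open MeasureTheory Vale.Agent.P165

variable {V : Type} [Countable V] {G : SimpleGraph V}

/-- If an infinite cluster at `p` forces one at a smaller parameter, there is none at `pc`. -/
theorem no_percolation_at_pc
    (h : ∀ (p : unitInterval) (o : V), 0 < perc G p (infAt G o) →
      ∃ q : unitInterval, ∃ o' : V, (q : ℝ) < p ∧ 0 < perc G q (infAt G o'))
    (p : unitInterval) (hp : (p : ℝ) = pc G) :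
    perc G p (hasInfinite G) = 0 ∧ ∀ x, perc G p (infAt G x) = 0 := by
  have h0 : ∀ x, perc G p (infAt G x) = 0 := by
    intro x
    by_contra hne
    obtain ⟨q, o', hqp, hq⟩ := h p x (pos_iff_ne_zero.2 hne)
    have hpos : 0 < perc G q (hasInfinite G) := by
      refine hq.trans_le (measure_mono ?_)
      rw [hasInfinite_eq]
      exact Set.subset_iUnion (fun y => infAt G y) o'
    have hle : pc G ≤ (q : ℝ) :=
      csInf_le ⟨0, by rintro _ ⟨r, -, rfl⟩; exact r.2.1⟩ ⟨q, hpos, rfl⟩
    linarith
  refine ⟨?_, h0⟩
  rw [hasInfinite_eq]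
  exact measure_iUnion_null h0

end Vale.Agent.P151.Zt
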