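import Vale.Agent.P151.Zt.Blocks
import Vale.Agent.P151.Zt.Base

/-!
# The finite criterion from an infinite cluster

The elementary moves of a percolating graph with a chart, composed through seeds, give a forward
move with a free lateral aim.
-/

open MeasureTheory ProbabilityTheory

namespace Vale.Agent.P151.Zt

open Glue0 Vale.Agent.P165

variable {V ι : Type} [Fintype ι] {G : SimpleGraph V} {nb : V → ι → V}

/-- A small glue error: the number of seeds may depend on the probability of a seed, the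
confidence does not. -/
theorem compErr_small {e c : ℝ} (he : 0 < e) (hc : 0 < c) :
    ∃ δ, 0 < δ ∧ δ ≤ c ∧ ∀ π : ℝ, 0 < π → π ≤ 1 → ∃ M : ℕ, compErr M π δ ≤ e := by
  obtain ⟨k, hk⟩ := exists_nat_ge (2 / e)
  have hkpos : (0 : ℝ) < k := lt_of_lt_of_le (by positivity) hk
  have hδ0 : 0 < min c (e / (2 * (k + 2))) := lt_min hc (by positivity)
  refine ⟨_, hδ0, min_le_left _ _, fun π hπ hπ1 => ⟨⌈(k : ℝ) / π⌉₊, ?_⟩⟩
  set δ := min c (e / (2 * ((k : ℝ) + 2))) with hδ
  set M := ⌈(k : ℝ) / π⌉₊ with hM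
  have h1 : (k : ℝ) ≤ M * π := by
    have := Nat.le_ceil ((k : ℝ) / π)
    rwa [div_le_iff₀ hπ] at this
  have h2 : M * π ≤ k + 1 := by
    have h := mul_le_mul_of_nonneg_right
      (Nat.ceil_lt_add_one (div_nonneg hkpos.le hπ.le : 0 ≤ (k : ℝ) / π)).le hπ.le
    rw [add_mul, div_mul_cancel₀ _ hπ.ne', one_mul] at h
    linarith
  have h3 : (1 - π) ^ M ≤ e / 2 := by
    have hb : (1 - π) ^ M * (1 + M * π) ≤ 1 := by
      calc (1 - π) ^ M * (1 + M * π) ≤ (1 - π) ^ M * (1 + π) ^ M :=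
            mul_le_mul_of_nonneg_left (one_add_mul_le_pow (by linarith) M)
              (pow_nonneg (by linarith) _)
        _ = ((1 - π) * (1 + π)) ^ M := (mul_pow _ _ _).symm
        _ ≤ 1 := pow_le_one₀ (mul_nonneg (by linarith) (by linarith))
              (by linarith [mul_nonneg hπ.le hπ.le])
    have hk2 : 2 ≤ k * e := by rwa [div_le_iff₀ he] at hk
    have hpow : 0 ≤ (1 - π) ^ M := pow_nonneg (by linarith) _
    have h4 : (1 - π) ^ M * k ≤ 1 := by
      have := mul_le_mul_of_nonneg_left h1 hpow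
      linarith
    have h5 := mul_le_mul_of_nonneg_right h4 he.le
    have h6 := mul_le_mul_of_nonneg_left hk2 hpow
    linarith
  have h7 : δ * ((k : ℝ) + 2) ≤ e / 2 := by
    calc δ * ((k : ℝ) + 2) ≤ e / (2 * (k + 2)) * (k + 2) :=
          mul_le_mul_of_nonneg_right (min_le_right _ _) (by positivity)
      _ = e / 2 := by field_simp
  have h8 : (M : ℝ) * π * δ ≤ (k + 1) * δ := mul_le_mul_of_nonneg_right h2 hδ0.le
  unfold compErr
  linarith

/-- An infinite cluster on a graph with a chart gives the finite criterion. -/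
theorem steer_of_infinite (hl : Listing G nb) (hc : G.Connected) (ha : Zd.Amenable G)
    (Ch : Chart G) (p : unitInterval) (h0 : 0 < (p : ℝ)) (h1 : (p : ℝ) < 1)
    (hθ : 0 < perc G p (hasInfinite G)) :
    ∀ ε > (0 : ℝ), ∃ K : Finset V, Ch.o ∈ K ∧ ∀ (S : Seeding Ch K) (M : ℕ) (η : ℝ), 0 < η →
      ∀ T₀ : ℕ, ∃ (t s : ℝ × ℝ) (T : ℕ), IsAxis t ∧ s ≠ 0 ∧ T₀ ≤ T ∧ size s ≤ η ∧
        Steer S.toCut (p : ℝ) K M ε t s T := by
  classical
  intro ε hε
  have hp : (p : ℝ) ∈ Set.Icc (0 : ℝ) 1 := p.2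
  -- the errors, from the last composition back to the legs
  have he3 : 0 < min ε (1 / 2) / 72 := by positivity
  obtain ⟨δ₂, hδ₂, -, hM₂⟩ := compErr_small he3 one_pos
  set εB := min (δ₂ ^ 2) (min ε (1 / 2) / 2) with hεB
  have hεB0 : 0 < εB := lt_min (by positivity) (by positivity)
  obtain ⟨δ₁, hδ₁, -, hM₁⟩ := compErr_small (half_pos hεB0) one_pos
  set εX := min (δ₁ ^ 2) (εB / 2) with hεX
  have hεX0 : 0 < εX := lt_min (by positivity) (by positivity)
  set e := εX / (2 * 3202) with he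
  have he0 : 0 < e := by positivity
  obtain ⟨δ₀, hδ₀, hδ₀c, hM₀⟩ := compErr_small he0 (lt_min one_pos (half_pos hεX0))
  have hδ₀sq : δ₀ ^ 2 ≤ εX / 2 := by
    calc δ₀ ^ 2 ≤ δ₀ * 1 := by
          rw [sq]; exact mul_le_mul_of_nonneg_left (hδ₀c.trans (min_le_left _ _)) hδ₀.le
      _ ≤ εX / 2 := by rw [mul_one]; exact hδ₀c.trans (min_le_right _ _)
  obtain ⟨K₀, hoK₀, hlegs⟩ := legs_of_infinite hl hc ha Ch p h1 hθ (δ₀ ^ 2) (by positivity)
  -- a connected seed
  let walk : ∀ x, G.Reachable Ch.o x := fun x => hc.preconnected Ch.o x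
  set K : Finset V := K₀ ∪ K₀.biUnion fun x => (walk x).some.support.toFinset with hK
  have hK₀ : K₀ ⊆ K := Finset.subset_union_left
  have hoK : Ch.o ∈ K := hK₀ hoK₀
  have hconn : ∀ x ∈ K, ∃ W : G.Walk Ch.o x, ∀ v ∈ W.support, v ∈ K := by
    intro x hx
    obtain ⟨y, hy, hxy⟩ : ∃ y ∈ K₀, x ∈ (walk y).some.support := by
      rcases Finset.mem_union.1 hx with hx | hx
      · exact ⟨x, hx, (walk x).some.end_mem_support⟩
      · obtain ⟨y, hy, hxy⟩ := Finset.mem_biUnion.1 hx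
        exact ⟨y, hy, List.mem_toFinset.1 hxy⟩
    refine ⟨(walk y).some.takeUntil x hxy, fun v hv => Finset.mem_union_right _ ?_⟩
    exact Finset.mem_biUnion.2 ⟨y, hy,
      List.mem_toFinset.2 ((walk y).some.support_takeUntil_subset_support hxy hv)⟩
  refine ⟨K, hoK, fun S M η hη T₀ => ?_⟩
  obtain ⟨D, hD⟩ := Base.spread hl S.R
  set π := (p : ℝ) ^ S.m with hπdef
  have hπ0 : 0 < π := pow_pos h0 _
  have hπ1 : π ≤ 1 := pow_le_one₀ hp.1 hp.2
  obtain ⟨m₀, hm₀⟩ := hM₀ π hπ0 hπ1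
  obtain ⟨m₁, hm₁⟩ := hM₁ π hπ0 hπ1
  obtain ⟨m₂, hm₂⟩ := hM₂ π hπ0 hπ1
  set M₁ := max M (D * (m₀ + m₁ + m₂)) + 1 with hM₁def
  have hglue : ∀ {δ e' : ℝ} {m : ℕ}, compErr m π δ ≤ e' → m ≤ m₀ + m₁ + m₂ →
      Glue S (p : ℝ) δ e' M₁ := by
    intro δ e' m hm hle
    refine ⟨m, hm, fun s hs => ?_⟩
    have h2 : D * m ≤ s.card := by
      have := Nat.mul_le_mul_left D hle
      omega
    exact hD m s h2
  obtain ⟨l₀, hl₀⟩ := Ch.short
  set l := max l₀ 0 with hldef
  have hstep : StepBound Ch l := fun x y h => (hl₀ x y h).trans (le_max_left _ _)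
  set k₀ : ℝ := ∑ x ∈ K, size (Ch.pos x) with hk₀def
  have hk₀ : ∀ x ∈ K, size (Ch.pos x) ≤ k₀ := fun x hx =>
    Finset.single_le_sum (f := fun x => size (Ch.pos x)) (fun _ _ => size_nonneg _) hx
  have hk0 : 0 ≤ k₀ := Finset.sum_nonneg fun _ _ => size_nonneg _
  have hl0 : 0 ≤ l := le_max_right _ _
  set E : ℝ := S.D + l + S.R * l + S.ρ + k₀ + 1 with hEdef
  have hρ0 : (0 : ℝ) ≤ S.ρ := Nat.cast_nonneg _
  have hR0 : 0 ≤ (S.R : ℝ) * l := by positivity
  have hD0 := S.D_nonneg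
  have hE1 : 1 ≤ E := by linarith
  set tgt := min η (1 / (100 * E)) with htgt
  have htgt0 : 0 < tgt := lt_min hη (by positivity)
  set η₀ := min (1 / (100000 * E)) (tgt / 2) with hη₀def
  have hη₀ : 0 < η₀ := lt_min (by positivity) (half_pos htgt0)
  obtain ⟨n₀, hn₀⟩ := exists_nat_ge (10 * E + T₀ + 1 / tgt)
  obtain ⟨t, f, n, L, ht, hf, hn, hL, hslope, hleg⟩ := hlegs S.toCut M₁ η₀ hη₀ n₀
  have hn' : 10 * E + T₀ + 1 / tgt ≤ (n : ℝ) := hn₀.trans (Nat.cast_le.2 hn)
  have htgt' : 0 ≤ 1 / tgt := by positivity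
  have hT₀0 : (0 : ℝ) ≤ T₀ := Nat.cast_nonneg _
  have hsc : Scale S K₀ (p : ℝ) δ₀ e M₁ l k₀ η₀ t f n L :=
    { conn := hconn, hK₀ := hK₀, base := hoK, near := hk₀, hl := hstep, l_nonneg := hl0,
      prob := hp, δ_pos := hδ₀, glue := hglue hm₀ (by omega), axis := ht, f_ne := hf,
      L_pos := hL, η_pos := hη₀, slope := hslope
      small := by
        rw [← hEdef]
        calc η₀ * E ≤ 1 / (100000 * E) * E :=
              mul_le_mul_of_nonneg_right (min_le_left _ _) (by linarith)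
          _ = 1 / 100000 := by field_simp
      large := by rw [← hEdef]; linarith
      legs := hleg }
  have hblock := hsc.block he0.le hδ₁ (hglue hm₁ (by omega))
    (by have := min_le_left (δ₁ ^ 2) (εB / 2); rw [he]; linarith) (ε := εB)
    (by have := min_le_right (δ₁ ^ 2) (εB / 2); rw [he]; linarith)
  set T := 1600 * n with hTdef
  set s := latForm t f L T with hs
  have hn1 : 1 / tgt ≤ (n : ℝ) := by linarith
  have hnpos : (0 : ℝ) < n := lt_of_lt_of_le (by positivity) hn1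
  have hsize : size s ≤ tgt := by
    refine (size_latForm_le t f hL T).trans ?_
    rw [ht.size_eq, mul_one]
    have a1 : size f / (11 * L) ≤ tgt / 2 := by
      rw [div_le_iff₀ (by positivity)]
      have := mul_le_mul_of_nonneg_right (min_le_right (1 / (100000 * E)) (tgt / 2)) hL.le
      have := mul_nonneg htgt0.le hL.le
      linarith
    have a2 : 9 / (T : ℝ) ≤ tgt / 2 := by
      rw [div_le_iff₀ htgt0] at hn1
      rw [hTdef, Nat.cast_mul, Nat.cast_ofNat, div_le_iff₀ (by positivity)]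
      linarith
    linarith
  have hs0 : s ≠ 0 := by
    intro h
    obtain ⟨Λ, hΛ⟩ := hblock 8 (by norm_num)
    have hempty : hitEv G Λ (S.cyl t s T T 30 30)
        {v | v ∉ S.side t T ∧ |lin Ch.pos s v - ((8 : ℤ) : ℝ)| ≤ 1} K M₁ = ∅ := by
      refine Set.eq_empty_of_forall_notMem fun w hw => ?_
      have : hitSet G Λ (S.cyl t s T T 30 30)
          {v | v ∉ S.side t T ∧ |lin Ch.pos s v - ((8 : ℤ) : ℝ)| ≤ 1} K w = ∅ := by
        refine Set.eq_empty_of_forall_notMem fun z hz => ?_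
        have h8 := hz.2.1.2
        rw [h] at h8
        norm_num [lin] at h8
      have hw' : M₁ ≤ _ := hw
      rw [this, Set.ncard_empty] at hw'
      omega
    rw [hempty] at hΛ
    have : Pr (fun _ : WE G Λ => (p : ℝ)) (∅ : Set (WE G Λ → Bool)) = 0 := by simp [Pr, Ev]
    rw [this] at hΛ
    have := min_le_right (δ₂ ^ 2) (min ε (1 / 2) / 2)
    have := min_le_right ε (1 / 2 : ℝ)
    linarith
  refine ⟨t, s, 36 * T + 35 * S.ρ, ht, hs0, ?_, hsize.trans (min_le_left _ _),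
    steer_iterate hconn hoK hp hδ₂ (hglue hm₂ (by omega)) (min_le_left _ _) ?_ hstep hl0 ht hk₀
      ?_ ?_ (by omega) hblock⟩
  · have : (T₀ : ℝ) ≤ n := by linarith
    have : T₀ ≤ n := by exact_mod_cast this
    omega
  · have := min_le_right (δ₂ ^ 2) (min ε (1 / 2) / 2)
    have := min_le_left ε (1 / 2 : ℝ)
    linarith
  · rw [hTdef, Nat.cast_mul, Nat.cast_ofNat]
    linarith
  · calc size s * (S.D + l + S.R * l + k₀ + 1) ≤ tgt * E := by
          refine mul_le_mul hsize (by linarith) (by linarith) htgt0.le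
      _ ≤ 1 / (100 * E) * E := mul_le_mul_of_nonneg_right (min_le_right _ _) (by linarith)
      _ = 1 / 100 := by field_simp

end Vale.Agent.P151.Zt
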