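import Vale.Agent.P151.Zt.ChartExits

/-!
# Elementary moves from an infinite cluster

If a ball has many exits from every large region of a strip, then at some scale it has many exits
beyond the front of a box, on either side of its axis, and beyond one side of a box, for every
length in an interval. The box is found from the least half width whose two ends get the exits;
the Harris inequality in one finite window picks the signs.
-/

open Finset MeasureTheory ProbabilityTheory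

namespace Vale.Agent.P151.Zt

open Glue0 Vale.Agent.P165

variable {V : Type} {G : SimpleGraph V}

section Lik

variable {p : ℝ} {K : Finset V}

/-- Likely exits, in a larger region and on a larger part of its boundary. -/
theorem Likely.mono (hp : p ∈ Set.Icc (0 : ℝ) 1) {M M' : ℕ} {ε ε' : ℝ} {P P' S S' : Set V}
    (hM : M' ≤ M) (hε : ε ≤ ε') (hP : P ⊆ P')
    (hS : ∀ z, ∀ y ∈ P, G.Adj y z → z ∉ P → z ∈ S → z ∉ P' ∧ z ∈ S')
    (h : Likely G p K M ε P S) : Likely G p K M' ε' P' S' := by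
  obtain ⟨Λ, hΛ⟩ := h
  refine ⟨Λ, le_trans (le_trans (by linarith) hΛ) (Pr_mono (fun _ => hp) fun w hw => ?_)⟩
  refine le_trans (Nat.cast_le.2 hM) (le_trans (show (M : ℕ∞) ≤ _ from hw)
    (Set.encard_le_encard ?_))
  rintro z ⟨hz, hzS, x, hx, y, hy, hc, hadj⟩
  have hA : G.Adj (y : V) z := by
    obtain ⟨e, -, hee⟩ := hadj
    have := adj_wEnds e
    rcases hee with r | r <;> rw [r] at this
    exacts [this, this.symm]
  obtain ⟨h1, h2⟩ := hS z y hy hA hz hzS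
  refine ⟨h1, h2, x, hx, y, hP hy, cluster_mono (fun e => ?_) x hc, hadj⟩
  by_cases he : e ∈ within G Λ P
  · have he' : e ∈ within G Λ P' := ⟨hP he.1, hP he.2⟩
    simp [shut, he, he']
  · simp [shut, he]

/-- Two increasing events fail together at least as often as independently. -/
theorem Pr_compl_harris {E : Type} [Fintype E] [DecidableEq E] {q : E → ℝ}
    (hq : ∀ e, q e ∈ Set.Icc (0 : ℝ) 1) {A B : Set (E → Bool)} (hA : IsUpperSet A)
    (hB : IsUpperSet B) : Pr q Aᶜ * Pr q Bᶜ ≤ Pr q (Aᶜ ∩ Bᶜ) := by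
  have h := Pr_harris_anti hq hA hB.compl
  have e : Pr q (A ∩ Bᶜ) + Pr q (Aᶜ ∩ Bᶜ) = Pr q Bᶜ := by
    simp only [Pr, ← Ev_add]
    congr 1
    funext w
    by_cases h1 : w ∈ A <;> by_cases h2 : w ∈ B <;> simp [h1, h2]
  rw [Pr_compl q A]
  linarith

/-- Exits on two parts of the boundary: one of the parts gets its share. -/
theorem Likely.split (hp : p ∈ Set.Icc (0 : ℝ) 1) {M₁ M₂ : ℕ} {a b : ℝ} (ha : 0 ≤ a) (hb : 0 ≤ b)
    {P S S₁ S₂ : Set V} (hS : ∀ z, z ∉ P → z ∈ S → z ∈ S₁ ∨ z ∈ S₂)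
    (h : Likely G p K (M₁ + M₂) (a * b) P S) :
    Likely G p K M₁ a P S₁ ∨ Likely G p K M₂ b P S₂ := by
  obtain ⟨Λ, hΛ⟩ := h
  by_contra hno
  simp only [Likely, not_or, not_exists, not_le] at hno
  have hp' : ∀ _ : WE G Λ, p ∈ Set.Icc (0 : ℝ) 1 := fun _ => hp
  have hsub : (exitHits G Λ P S₁ K M₁)ᶜ ∩ (exitHits G Λ P S₂ K M₂)ᶜ
      ⊆ (exitHits G Λ P S K (M₁ + M₂))ᶜ := by
    rintro w ⟨h1, h2⟩ h12
    have hu : wExits G Λ P S K w ⊆ wExits G Λ P S₁ K w ∪ wExits G Λ P S₂ K w := by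
      rintro z ⟨hz, hzS, hr⟩
      exact (hS _ hz hzS).imp (fun hs => ⟨hz, hs, hr⟩) fun hs => ⟨hz, hs, hr⟩
    have h3 := (show ((M₁ + M₂ : ℕ) : ℕ∞) ≤ _ from h12).trans
      ((Set.encard_le_encard hu).trans (Set.encard_union_le _ _))
    simp only [exitHits, Set.mem_compl_iff, Set.mem_ofPred_eq, not_le] at h1 h2
    have hlt : (wExits G Λ P S₁ K w).encard + (wExits G Λ P S₂ K w).encard
        < ((M₁ + M₂ : ℕ) : ℕ∞) := by
      lift (wExits G Λ P S₁ K w).encard to ℕ using h1.ne_top with i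
      lift (wExits G Λ P S₂ K w).encard to ℕ using h2.ne_top with j
      norm_cast at h1 h2 ⊢
      omega
    exact absurd h3 (not_le.2 hlt)
  have hh := (Pr_compl_harris hp' (exitHits_upper G Λ P S₁ K M₁)
    (exitHits_upper G Λ P S₂ K M₂)).trans (Pr_mono hp' hsub)
  simp only [Pr_compl] at hh
  have := mul_lt_mul'' (show a < 1 - Pr (fun _ => p) (exitHits G Λ P S₁ K M₁) by linarith [hno.1 Λ])
    (show b < 1 - Pr (fun _ => p) (exitHits G Λ P S₂ K M₂) by linarith [hno.2 Λ]) ha hb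
  linarith

/-- A level splitting the exits into two large parts. -/
theorem Likely.median (hp : p ∈ Set.Icc (0 : ℝ) 1) {M : ℕ} {e B h : ℝ} (he : 0 ≤ e) (he1 : e ≤ 1)
    (hh : 0 < h) (hB : 0 ≤ B) {P S : Set V} {g : V → ℝ}
    (hg : ∀ z, ∀ y ∈ P, G.Adj y z → z ∉ P → z ∈ S → |g z| ≤ B)
    (hl : Likely G p K (M + M) (e * e) P S) :
    ∃ c, |c| ≤ B + h ∧ Likely G p K M e P {z | z ∈ S ∧ g z ≤ c} ∧
      Likely G p K M e P {z | z ∈ S ∧ c - h ≤ g z} := by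
  classical
  obtain ⟨N, hN⟩ := exists_nat_ge (2 * B / h)
  rw [div_le_iff₀ hh] at hN
  have hee : e * e ≤ e := mul_le_of_le_one_left he he1
  let Q : ℕ → Prop := fun j => Likely G p K M e P {z | z ∈ S ∧ g z ≤ -B + j * h}
  have hQN : Q N := hl.mono hp (Nat.le_add_right M M) hee subset_rfl fun z y hy hA hz hzS =>
    ⟨hz, hzS, by have := (abs_le.1 (hg z y hy hA hz hzS)).2; linarith⟩
  have hex : ∃ j, Q j := ⟨N, hQN⟩
  set j := Nat.find hex
  refine ⟨-B + j * h, ?_, Nat.find_spec hex, ?_⟩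
  · rw [abs_le]
    have h0 : (0 : ℝ) ≤ j * h := by positivity
    refine ⟨by linarith, ?_⟩
    rcases Nat.eq_zero_or_pos j with hj | hj
    · simp only [hj, Nat.cast_zero, zero_mul, add_zero]; linarith
    · by_contra hc
      have hj' : ¬Q (j - 1) := Nat.find_min hex (Nat.sub_lt hj one_pos)
      refine hj' (hl.mono hp (Nat.le_add_right M M) hee subset_rfl fun z y hy hA hz hzS =>
        ⟨hz, hzS, ?_⟩)
      have := (abs_le.1 (hg z y hy hA hz hzS)).2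
      rw [Nat.cast_sub hj, Nat.cast_one]
      linarith [not_le.1 hc]
  · rcases Nat.eq_zero_or_pos j with hj | hj
    · refine hl.mono hp (Nat.le_add_right M M) hee subset_rfl fun z y hy hA hz hzS =>
        ⟨hz, hzS, ?_⟩
      have := (abs_le.1 (hg z y hy hA hz hzS)).1
      simp only [hj, Nat.cast_zero, zero_mul]
      linarith
    · have hj' : ¬Q (j - 1) := Nat.find_min hex (Nat.sub_lt hj one_pos)
      refine (Likely.split hp he he (fun z _ hzS => ?_) hl).resolve_left hj'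
      by_cases hc : g z ≤ -B + ((j - 1 : ℕ) : ℝ) * h
      · exact Or.inl ⟨hzS, hc⟩
      · refine Or.inr ⟨hzS, ?_⟩
        rw [Nat.cast_sub hj, Nat.cast_one] at hc
        linarith [not_le.1 hc]

end Lik

section Geometry

variable {Ch : Chart G}

theorem size_nonneg (x : ℝ × ℝ) : 0 ≤ size x := add_nonneg (abs_nonneg _) (abs_nonneg _)

theorem size_neg (x : ℝ × ℝ) : size (-x) = size x := by simp [size]

theorem lin_neg (pos : V → ℝ × ℝ) (f : ℝ × ℝ) (v : V) : lin pos (-f) v = -lin pos f v := by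
  simp only [lin, Prod.fst_neg, Prod.snd_neg]; ring

theorem abs_lin_le (pos : V → ℝ × ℝ) (f : ℝ × ℝ) (v : V) :
    |lin pos f v| ≤ size f * size (pos v) := by
  refine (abs_add_le _ _).trans ?_
  rw [abs_mul, abs_mul]
  simp only [size]
  nlinarith [mul_nonneg (abs_nonneg f.1) (abs_nonneg (pos v).2),
    mul_nonneg (abs_nonneg f.2) (abs_nonneg (pos v).1)]

theorem lin_adj {E : ℝ} (hE : ∀ x y, G.Adj x y → size (Ch.pos x - Ch.pos y) ≤ E) (f : ℝ × ℝ)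
    {y z : V} (h : G.Adj y z) : |lin Ch.pos f z - lin Ch.pos f y| ≤ size f * E := by
  have e : lin Ch.pos f z - lin Ch.pos f y = lin (fun v => Ch.pos v - Ch.pos y) f z := by
    simp only [lin, Prod.fst_sub, Prod.snd_sub]; ring
  rw [e]
  exact (abs_lin_le _ _ _).trans (mul_le_mul_of_nonneg_left (hE z y h.symm) (size_nonneg f))

namespace Cut

variable (C : Cut Ch)

theorem lt_of_notMem {f : ℝ × ℝ} {X : ℝ} {v : V} (h : v ∉ C.side f X) : X < lin Ch.pos f v :=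
  not_le.1 fun hle => h (C.le_subset f X v hle)

theorem cyl_neg (t f : ℝ × ℝ) (a k a' l : ℝ) : C.cyl (-t) f a k a' l = C.cyl t f k a a' l := by
  simp only [Cut.cyl, neg_neg, Set.inter_comm (C.side t a) (C.side (-t) k)]

theorem cyl_comm (t f : ℝ × ℝ) (a k a' l : ℝ) : C.cyl t f a k a' l = C.cyl f t a' l a k :=
  Set.inter_comm _ _

theorem cyl_mono (t f : ℝ × ℝ) {a k a' l A K' A' L' : ℝ} (h1 : a ≤ A) (h2 : k ≤ K')
    (h3 : a' ≤ A') (h4 : l ≤ L') : C.cyl t f a k a' l ⊆ C.cyl t f A K' A' L' :=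
  fun _ hv => ⟨⟨C.mono _ _ _ h1 hv.1.1, C.mono _ _ _ h2 hv.1.2⟩,
    C.mono _ _ _ h3 hv.2.1, C.mono _ _ _ h4 hv.2.2⟩

theorem cyl_bound {t f : ℝ × ℝ} {a k a' l : ℝ} {y : V} (hy : y ∈ C.cyl t f a k a' l) :
    (-(a + C.D * size t) ≤ lin Ch.pos t y ∧ lin Ch.pos t y ≤ k + C.D * size t) ∧
      (-(a' + C.D * size f) ≤ lin Ch.pos f y ∧ lin Ch.pos f y ≤ l + C.D * size f) := by
  have h1 := C.bounded _ _ _ hy.1.1
  have h3 := C.bounded _ _ _ hy.2.1
  rw [lin_neg, size_neg] at h1 h3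
  exact ⟨⟨by linarith, C.bounded _ _ _ hy.1.2⟩, by linarith, C.bounded _ _ _ hy.2.2⟩

theorem mem_two {f : ℝ × ℝ} {a k : ℝ} {v : V} (h1 : -a ≤ lin Ch.pos f v)
    (h2 : lin Ch.pos f v ≤ k) : v ∈ C.side (-f) a ∩ C.side f k :=
  ⟨C.le_subset _ _ _ (by rw [lin_neg]; linarith), C.le_subset _ _ _ h2⟩

/-- If every box with ends `a`, `k` in `[u, v]` sends many exits through its two ends, then one
end works for every length. -/
theorem one_sign {p : ℝ} (hp : p ∈ Set.Icc (0 : ℝ) 1) {K : Finset V} {M : ℕ} {e : ℝ} (he : 0 ≤ e)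
    (t f : ℝ × ℝ) {u v A b b' B B' : ℝ} (hA : v ≤ A) (hb : b ≤ B) (hb' : b' ≤ B')
    (h : ∀ a k : ℝ, a ∈ Set.Icc u v → k ∈ Set.Icc u v → Likely G p K (M + M) (e * e)
      (C.cyl t f a k b b') ((C.side (-t) a)ᶜ ∪ (C.side t k)ᶜ)) :
    (∀ k ∈ Set.Icc u v, Likely G p K M e (C.cyl t f A k B B') (C.side t k)ᶜ) ∨
      ∀ k ∈ Set.Icc u v, Likely G p K M e (C.cyl (-t) f A k B B') (C.side (-t) k)ᶜ := by
  by_cases hgood : ∀ k ∈ Set.Icc u v, Likely G p K M e (C.cyl t f A k B B') (C.side t k)ᶜ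
  · exact Or.inl hgood
  push Not at hgood
  obtain ⟨k₀, hk₀, hbad⟩ := hgood
  refine Or.inr fun a ha => ?_
  rcases Likely.split hp he he (fun z _ hz => hz) (h a k₀ ha hk₀) with h1 | h1
  · refine h1.mono hp le_rfl le_rfl ?_ ?_
    · rw [C.cyl_neg]
      exact C.cyl_mono t f le_rfl (hk₀.2.trans hA) hb hb'
    · exact fun z _ _ _ _ hz => ⟨fun hz' => hz hz'.1.2, hz⟩
  · refine absurd (h1.mono hp le_rfl le_rfl (C.cyl_mono t f (ha.2.trans hA) le_rfl hb hb') ?_) hbad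
    exact fun z _ _ _ _ hz => ⟨fun hz' => hz hz'.1.2, hz⟩

theorem near_bound {E : ℝ} (hE : ∀ x y, G.Adj x y → size (Ch.pos x - Ch.pos y) ≤ E)
    {t g : ℝ × ℝ} (ht : size t = 1) {a k a' l : ℝ} {y z : V} (hy : y ∈ C.cyl t g a k a' l)
    (hyz : G.Adj y z) :
    (-(a + C.D + E) ≤ lin Ch.pos t z ∧ lin Ch.pos t z ≤ k + C.D + E) ∧
      (-(a' + (C.D + E) * size g) ≤ lin Ch.pos g z ∧
        lin Ch.pos g z ≤ l + (C.D + E) * size g) := by
  obtain ⟨⟨b1, b2⟩, b3, b4⟩ := C.cyl_bound hy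
  obtain ⟨b5, b6⟩ := abs_le.1 (lin_adj hE t hyz)
  obtain ⟨b7, b8⟩ := abs_le.1 (lin_adj hE g hyz)
  rw [ht] at b1 b2 b5 b6
  rw [add_mul]
  refine ⟨⟨?_, ?_⟩, ?_, ?_⟩ <;> linarith [mul_comm (size g) E]

theorem shear_front {p : ℝ} (hp : p ∈ Set.Icc (0 : ℝ) 1) {K : Finset V} {M n : ℕ}
    {e ε η η' E L₁ c : ℝ} {t f₀ f : ℝ × ℝ}
    (hE : ∀ x y, G.Adj x y → size (Ch.pos x - Ch.pos y) ≤ E)
    (hη : 0 < η) (hη' : 0 < η') (hη1 : η' ≤ 1) (hηη : η' ≤ η) (heε : e ≤ ε) (hee : e * e ≤ ε)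
    (ht1 : size t = 1) (hn0 : (0 : ℝ) < n)
    (hlf : ∀ v, lin Ch.pos f v = lin Ch.pos f₀ v - c / n * lin Ch.pos t v)
    (hE0 : 0 ≤ E) (hslack : (C.D + E) * size f₀ ≤ L₁ / 10) (hc' : |c| ≤ 13 / 10 * L₁)
    (hcn1 : |c / n| * (C.D + E) ≤ η' * L₁ / 10)
    (hfront : ∀ k ∈ Set.Icc (n : ℝ) (2 * n),
      Likely G p K (M + M) (e * e) (C.cyl t f₀ (2 * n) k L₁ L₁) (C.side t k)ᶜ)
    (hlow : Likely G p K M e (C.cyl t f₀ (2 * n) n L₁ L₁)
      {z | z ∈ (C.side t n)ᶜ ∧ lin Ch.pos f₀ z ≤ c})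
    (hhigh : Likely G p K M e (C.cyl t f₀ (2 * n) n L₁ L₁)
      {z | z ∈ (C.side t n)ᶜ ∧ c - η' * L₁ / 8 ≤ lin Ch.pos f₀ z}) :
    (∀ b : Bool, Likely G p K M ε (C.cyl t f (2 * n) n (3 * (3 / 2 * L₁)) (3 * (3 / 2 * L₁)))
      {v | v ∉ C.side t n ∧ |lin Ch.pos f v| ≤ 4 * (3 / 2 * L₁) ∧
        (if b then lin Ch.pos f v ≤ η * (3 / 2 * L₁) else -(η * (3 / 2 * L₁)) ≤ lin Ch.pos f v)}) ∧
    ∀ k : ℕ, n ≤ k → k ≤ 2 * n → Likely G p K M ε
      (C.cyl t f (2 * n) k (3 * (3 / 2 * L₁)) (3 * (3 / 2 * L₁)))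
      {v | v ∉ C.side t k ∧ |lin Ch.pos f v| ≤ 4 * (3 / 2 * L₁)} := by
  have hL0 : 0 ≤ L₁ := by linarith [abs_nonneg c]
  have hηL : η' * L₁ ≤ L₁ := mul_le_of_le_one_left hL0 hη1
  have hcnn : |c / n| * n = |c| := by rw [abs_div, abs_of_pos hn0, div_mul_cancel₀ _ hn0.ne']
  obtain ⟨L, hL⟩ : ∃ L : ℝ, L = 3 / 2 * L₁ := ⟨_, rfl⟩
  rw [← hL]
  have hnear : ∀ k : ℝ, ∀ z, ∀ y ∈ C.cyl t f₀ (2 * n) k L₁ L₁, G.Adj y z →
      (-(2 * n + C.D + E) ≤ lin Ch.pos t z ∧ lin Ch.pos t z ≤ k + C.D + E) ∧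
        |lin Ch.pos f₀ z| ≤ L₁ + (C.D + E) * size f₀ := fun k z y hy hyz => by
    obtain ⟨h, h'⟩ := C.near_bound hE ht1 hy hyz
    exact ⟨h, abs_le.2 h'⟩
  have hturn : ∀ v w, |lin Ch.pos t v| ≤ w →
      |lin Ch.pos f v| ≤ |lin Ch.pos f₀ v| + |c / n| * w := fun v w hw => by
    rw [hlf]
    refine (abs_sub _ _).trans ?_
    rw [abs_mul]
    linarith [mul_le_mul_of_nonneg_left hw (abs_nonneg (c / n))]
  have hincl : ∀ k : ℝ, k ≤ 2 * n →
      C.cyl t f₀ (2 * n) k L₁ L₁ ⊆ C.cyl t f (2 * n) k (3 * L) (3 * L) := by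
    intro k hk y hy
    obtain ⟨⟨b1, b2⟩, b3, b4⟩ := C.cyl_bound hy
    rw [ht1, mul_one] at b1 b2
    have h := hturn y (2 * n + C.D) (abs_le.2 ⟨by linarith, by linarith⟩)
    have h' : |lin Ch.pos f₀ y| ≤ L₁ + C.D * size f₀ := abs_le.2 ⟨by linarith, by linarith⟩
    have hD : C.D * size f₀ ≤ (C.D + E) * size f₀ :=
      mul_le_mul_of_nonneg_right (le_add_of_nonneg_right hE0) (size_nonneg _)
    have hD' : |c / n| * C.D ≤ |c / n| * (C.D + E) :=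
      mul_le_mul_of_nonneg_left (le_add_of_nonneg_right hE0) (abs_nonneg _)
    obtain ⟨b5, b6⟩ := abs_le.1 (show |lin Ch.pos f y| ≤ 3 * L by linarith)
    exact ⟨hy.1, C.mem_two b5 b6⟩
  have hband : ∀ k : ℝ, (n : ℝ) ≤ k → k ≤ 2 * n → ∀ z, ∀ y ∈ C.cyl t f₀ (2 * n) k L₁ L₁,
      G.Adj y z → z ∉ C.side t k → |lin Ch.pos f z| ≤ 4 * L := by
    intro k hk hk' z y hy hyz _
    obtain ⟨⟨b1, b2⟩, h'⟩ := hnear k z y hy hyz
    have h := hturn z (2 * n + (C.D + E)) (abs_le.2 ⟨by linarith, by linarith⟩)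
    linarith
  have hηLL : η' * L₁ ≤ η * L := le_trans (mul_le_mul_of_nonneg_right hηη (by positivity))
    (mul_le_mul_of_nonneg_left (by linarith) hη.le)
  have hhalf : ∀ b : Bool, Likely G p K M ε (C.cyl t f (2 * n) n (3 * L) (3 * L))
      {v | v ∉ C.side t n ∧ |lin Ch.pos f v| ≤ 4 * L ∧
        (if b then lin Ch.pos f v ≤ η * L else -(η * L) ≤ lin Ch.pos f v)} := by
    intro b
    have key : ∀ z, ∀ y ∈ C.cyl t f₀ (2 * n) n L₁ L₁, G.Adj y z → z ∉ C.side t n →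
        |lin Ch.pos f z - (lin Ch.pos f₀ z - c)| ≤ η' * L₁ / 10 := by
      intro z y hy hyz hz
      obtain ⟨⟨-, b2⟩, -⟩ := hnear _ z y hy hyz
      have hlo := C.lt_of_notMem hz
      have e1 : lin Ch.pos f z - (lin Ch.pos f₀ z - c) = c / n * (n - lin Ch.pos t z) := by
        rw [hlf, mul_sub, div_mul_cancel₀ _ hn0.ne']; ring
      rw [e1, abs_mul]
      refine le_trans (mul_le_mul_of_nonneg_left ?_ (abs_nonneg _)) hcn1
      exact abs_le.2 ⟨by linarith, by linarith⟩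
    cases b
    · refine hhigh.mono hp le_rfl heε (hincl n (by linarith)) fun z y hy hyz _ hz => ?_
      obtain ⟨hz, hzc⟩ := hz
      refine ⟨fun h => hz h.1.2, hz, hband n le_rfl (by linarith) z y hy hyz hz, ?_⟩
      simp only [Bool.false_eq_true, if_false]
      linarith [(abs_le.1 (key z y hy hyz hz)).1, mul_nonneg hη'.le hL0]
    · refine hlow.mono hp le_rfl heε (hincl n (by linarith)) fun z y hy hyz _ hz => ?_
      obtain ⟨hz, hzc⟩ := hz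
      refine ⟨fun h => hz h.1.2, hz, hband n le_rfl (by linarith) z y hy hyz hz, ?_⟩
      simp only [if_true]
      linarith [(abs_le.1 (key z y hy hyz hz)).2, mul_nonneg hη'.le hL0]
  have hfwd : ∀ k : ℕ, n ≤ k → k ≤ 2 * n → Likely G p K M ε
      (C.cyl t f (2 * n) k (3 * L) (3 * L))
      {v | v ∉ C.side t k ∧ |lin Ch.pos f v| ≤ 4 * L} := by
    intro k hk hk'
    have hk1 : (n : ℝ) ≤ k := by exact_mod_cast hk
    have hk2 : (k : ℝ) ≤ 2 * n := by exact_mod_cast hk'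
    refine (hfront k ⟨hk1, hk2⟩).mono hp (Nat.le_add_right M M) hee (hincl k hk2) ?_
    exact fun z y hy hyz _ hz => ⟨fun h => hz h.1.2, hz, hband k hk1 hk2 z y hy hyz hz⟩
  exact ⟨hhalf, hfwd⟩

theorem mem_cyl {t : ℝ × ℝ} (ht : size t = 1) (f : ℝ × ℝ) {n ρ a k a' l : ℝ} {v : V}
    (ha : n ≤ a) (hk : n ≤ k) (ha' : ρ * size f ≤ a') (hl : ρ * size f ≤ l)
    (hv : size (Ch.pos v) ≤ ρ) (hn : size (Ch.pos v) ≤ n) : v ∈ C.cyl t f a k a' l := by
  obtain ⟨b1, b2⟩ := abs_le.1 (abs_lin_le Ch.pos t v)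
  obtain ⟨b3, b4⟩ := abs_le.1 ((abs_lin_le Ch.pos f v).trans
    ((mul_le_mul_of_nonneg_left hv (size_nonneg f)).trans_eq (mul_comm _ _)))
  rw [ht, one_mul] at b1 b2
  exact ⟨C.mem_two (by linarith) (by linarith), C.mem_two (by linarith) (by linarith)⟩

end Cut

/-- From the ball of radius `ρ`, regions in strips of width `w` have many exits, away from the
part of the boundary that is within `R`. -/
def StripExits (Ch : Chart G) (p : ℝ) (K : Finset V) (M : ℕ) (ε ρ w R : ℝ) : Prop :=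
  ∀ f : ℝ × ℝ, size f = 1 → ∀ P Side : Set V, (∀ v ∈ P, |lin Ch.pos f v| ≤ w) →
    (∀ v, size (Ch.pos v) ≤ ρ → v ∈ P) → (∀ v, v ∉ P → size (Ch.pos v) ≤ R → v ∈ Side) →
    Likely G p K M ε P Side

namespace Cut

variable (C : Cut Ch)

theorem cyl_wide {t : ℝ × ℝ} (ht : size t = 1) (f : ℝ × ℝ) {A a k a' l : ℝ} (ha : a ≤ A)
    (hk : k ≤ A) {y : V} (hy : y ∈ C.cyl t f a k a' l) : |lin Ch.pos t y| ≤ A + C.D := by
  obtain ⟨⟨b1, b2⟩, -⟩ := C.cyl_bound hy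
  rw [ht, mul_one] at b1 b2
  exact abs_le.2 ⟨by linarith, by linarith⟩

/-- Some box of the wanted proportions has its exits at the two ends, and there is a least one. -/
theorem exists_least {p : ℝ} (hp : p ∈ Set.Icc (0 : ℝ) 1) {K : Finset V} {M M' : ℕ}
    {δ δ' ρ₀ ρ ρ' R n : ℝ} {t : ℝ × ℝ} (ht : t = (1, 0)) (hM : M ≤ M') (hδ : δ' ≤ δ)
    (hρ₀ : ρ₀ ≤ ρ) (hρ : ρ ≤ ρ') (hn : ρ ≤ n) (h : StripExits Ch p K M' δ' ρ₀ (2 * n + C.D) R) :
    ∃ (L : ℕ) (s : ℝ), ρ' * (|s| + 1) ≤ L ∧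
      (∀ a k : ℝ, a ∈ Set.Icc n (2 * n) → k ∈ Set.Icc n (2 * n) →
        Likely G p K M δ (C.cyl t (s, 1) a k L L) ((C.side (-t) a)ᶜ ∪ (C.side t k)ᶜ)) ∧
      ∀ W : ℕ, W < L → ∀ s' : ℝ, ρ' * (|s'| + 1) ≤ W → ∃ a k : ℝ,
        a ∈ Set.Icc n (2 * n) ∧ k ∈ Set.Icc n (2 * n) ∧
        ¬Likely G p K M δ (C.cyl t (s', 1) a k W W) ((C.side (-t) a)ᶜ ∪ (C.side t k)ᶜ) := by
  classical
  subst ht
  have ht : size ((1 : ℝ), (0 : ℝ)) = 1 := by simp [size]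
  let Φ : ℕ → Prop := fun L => ∃ s : ℝ, ρ' * (|s| + 1) ≤ L ∧
    ∀ a k : ℝ, a ∈ Set.Icc n (2 * n) → k ∈ Set.Icc n (2 * n) →
      Likely G p K M δ (C.cyl (1, 0) (s, 1) a k L L)
        ((C.side (-(1, 0)) a)ᶜ ∪ (C.side (1, 0) k)ᶜ)
  have hex : ∃ L, Φ L := by
    obtain ⟨L, hL⟩ := exists_nat_ge (max R ρ')
    refine ⟨L, 0, by simpa using le_of_max_le_right hL, fun a k ha hk => ?_⟩
    have hρL : ρ * size ((0 : ℝ), (1 : ℝ)) ≤ L := by
      simp only [size, abs_zero, abs_one, zero_add, mul_one]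
      linarith [le_of_max_le_right hL]
    refine (h _ ht _ _ (fun y hy => C.cyl_wide ht _ ha.2 hk.2 hy)
      (fun v hv => C.mem_cyl ht _ ha.1 hk.1 hρL hρL (hv.trans hρ₀) ((hv.trans hρ₀).trans hn))
      fun v hv hvR => ?_).mono hp hM hδ subset_rfl fun z _ _ _ hz hzS => ⟨hz, hzS⟩
    by_contra hno
    simp only [Set.mem_union, Set.mem_compl_iff, not_or, not_not] at hno
    obtain ⟨b3, b4⟩ := abs_le.1 (abs_lin_le Ch.pos ((0 : ℝ), (1 : ℝ)) v)
    simp only [size, abs_zero, abs_one, zero_add, one_mul] at b3 b4 hvR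
    exact hv ⟨hno, C.mem_two (by linarith [le_of_max_le_left hL])
      (by linarith [le_of_max_le_left hL])⟩
  obtain ⟨s, hsw, hs⟩ := Nat.find_spec hex
  refine ⟨_, s, hsw, hs, fun W hW s' hs' => ?_⟩
  have h' := Nat.find_min hex hW
  simp only [Φ, not_exists, not_and, not_forall] at h'
  obtain ⟨a, k, ha, hk, hfail⟩ := h' s' hs'
  exact ⟨a, k, ha, hk, hfail⟩

/-- A box too narrow for its ends has its exits at the sides, on one of them for every length. -/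
theorem exists_sides {p : ℝ} (hp : p ∈ Set.Icc (0 : ℝ) 1) {K : Finset V} {M : ℕ}
    {e ρ₀ ρ ρ' R₁ R₂ W L E n : ℝ} {t₀ f : ℝ × ℝ} (ht₀ : size t₀ = 1) (he : 0 ≤ e)
    (he1 : e * e ≤ 1) (hρ₀ : ρ₀ ≤ ρ) (hn : ρ ≤ n) (hn0 : 0 ≤ n) (hR₁n : R₁ ≤ n)
    (hE : ∀ x y, G.Adj x y → size (Ch.pos x - Ch.pos y) ≤ E) (hDn : C.D + E ≤ n)
    (h₁ : StripExits Ch p K (M + M + (M + M) + (M + M)) (e * e * (e * e) * (e * e)) ρ₀
      (ρ' + C.D) R₁)
    (h₂ : StripExits Ch p K (M + M + (M + M) + (M + M)) (e * e * (e * e) * (e * e)) ρ₀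
      (2 * n + C.D) R₂)
    (hf : 0 < size f) (hρf : ρ * size f ≤ L / 4) (hLW : L / 2 ≤ W) (hL : 0 ≤ L)
    (hfail : ρ' * size f ≤ W → ∃ a k : ℝ, a ∈ Set.Icc n (2 * n) ∧ k ∈ Set.Icc n (2 * n) ∧
      ¬Likely G p K (M + M + (M + M)) (e * e * (e * e)) (C.cyl t₀ f a k W W)
        ((C.side (-t₀) a)ᶜ ∪ (C.side t₀ k)ᶜ)) :
    ∃ f', (f' = f ∨ f' = -f) ∧ ∀ t, t = t₀ ∨ t = -t₀ → ∀ l : ℝ, L / 4 ≤ l → l ≤ L / 2 →
      Likely G p K M e (C.cyl t f' (2 * n) (2 * n) L l)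
        {v | v ∉ C.side f' l ∧ |lin Ch.pos t v| ≤ 3 * n} := by
  have hball : ∀ (a k a' l : ℝ), n ≤ a → n ≤ k → L / 4 ≤ a' → L / 4 ≤ l →
      ∀ v, size (Ch.pos v) ≤ ρ₀ → v ∈ C.cyl t₀ f a k a' l := fun a k a' l ha hk ha' hl' v hv =>
    C.mem_cyl ht₀ f ha hk (hρf.trans ha') (hρf.trans hl') (hv.trans hρ₀)
      ((hv.trans hρ₀).trans hn)
  obtain ⟨a, k, ha2, hk2, hside⟩ : ∃ a k : ℝ, a ≤ 2 * n ∧ k ≤ 2 * n ∧ ∀ a' l : ℝ,
      a' ∈ Set.Icc (L / 4) (L / 2) → l ∈ Set.Icc (L / 4) (L / 2) →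
      Likely G p K (M + M) (e * e) (C.cyl t₀ f a k a' l)
        ((C.side (-f) a')ᶜ ∪ (C.side f l)ᶜ) := by
    by_cases hbig : ρ' * size f ≤ W
    · obtain ⟨a, k, ha, hk, hfail⟩ := hfail hbig
      refine ⟨a, k, ha.2, hk.2, fun a' l ha' hl' => ?_⟩
      have hall := h₂ t₀ ht₀ (C.cyl t₀ f a k a' l) Set.univ
        (fun y hy => C.cyl_wide ht₀ f ha.2 hk.2 hy) (hball a k a' l ha.1 hk.1 ha'.1 hl'.1)
        fun _ _ _ => trivial
      refine (Likely.split hp (S₁ := (C.side (-t₀) a)ᶜ ∪ (C.side t₀ k)ᶜ)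
        (mul_nonneg (mul_nonneg he he) (mul_nonneg he he))
        (mul_nonneg he he) (fun z hz _ => ?_) hall).resolve_left fun hends => hfail ?_
      · by_contra hno
        simp only [Set.mem_union, Set.mem_compl_iff, not_or, not_not] at hno
        exact hz ⟨hno.1, hno.2⟩
      · refine hends.mono hp le_rfl le_rfl
          (C.cyl_mono t₀ f le_rfl le_rfl (ha'.2.trans hLW) (hl'.2.trans hLW)) ?_
        exact fun z _ _ _ _ hz => ⟨fun h => hz.elim (fun h' => h' h.1.1) fun h' => h' h.1.2, hz⟩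
    · refine ⟨n, n, by linarith, by linarith, fun a' l ha' hl' => ?_⟩
      refine (h₁ (f.1 / size f, f.2 / size f) ?_ (C.cyl t₀ f n n a' l) _ (fun y hy => ?_)
        (hball n n a' l le_rfl le_rfl ha'.1 hl'.1) fun v hv hvR => ?_).mono hp (by omega)
        (mul_le_of_le_one_left (mul_nonneg he he)
          (mul_le_one₀ he1 (mul_nonneg he he) he1))
        subset_rfl fun z _ _ _ hz hzS => ⟨hz, hzS⟩
      · simp only [size, abs_div]
        rw [show |(|f.1| + |f.2|)| = |f.1| + |f.2| from abs_of_nonneg (by positivity),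
          ← add_div, div_self]
        exact hf.ne'
      · have el : lin Ch.pos (f.1 / size f, f.2 / size f) y = lin Ch.pos f y / size f := by
          simp only [lin]; field_simp
        rw [el, abs_div, abs_of_pos hf, div_le_iff₀ hf, add_mul]
        obtain ⟨-, b3, b4⟩ := C.cyl_bound hy
        exact abs_le.2 ⟨by linarith [ha'.2], by linarith [hl'.2]⟩
      · by_contra hno
        simp only [Set.mem_union, Set.mem_compl_iff, not_or, not_not] at hno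
        have h0 := (abs_lin_le Ch.pos t₀ v).trans_eq (by rw [ht₀, one_mul])
        obtain ⟨b1, b2⟩ := abs_le.1 (h0.trans (hvR.trans hR₁n))
        exact hv ⟨C.mem_two b1 b2, hno⟩
  obtain ⟨f', hf', hsides⟩ : ∃ f', (f' = f ∨ f' = -f) ∧ ∀ l ∈ Set.Icc (L / 4) (L / 2),
      Likely G p K M e (C.cyl f' t₀ L l (2 * n) (2 * n)) (C.side f' l)ᶜ := by
    rcases C.one_sign hp he f t₀ (u := L / 4) (v := L / 2) (A := L) (b := a) (b' := k) (by linarith) ha2 hk2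
      (fun a' l ha' hl' => by rw [C.cyl_comm]; exact hside a' l ha' hl') with h | h
    exacts [⟨f, Or.inl rfl, h⟩, ⟨-f, Or.inr rfl, h⟩]
  refine ⟨f', hf', fun t ht l hl1 hl2 => ?_⟩
  have e1 : C.cyl f' t₀ L l (2 * n) (2 * n) = C.cyl t f' (2 * n) (2 * n) L l := by
    rcases ht with rfl | rfl
    · rw [C.cyl_comm]
    · rw [C.cyl_neg, C.cyl_comm]
  have ht1 : size t = 1 := by rcases ht with rfl | rfl <;> simp [ht₀, size_neg]
  refine (hsides l ⟨hl1, hl2⟩).mono hp le_rfl le_rfl e1.subset fun z y hy hyz _ hz => ?_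
  refine ⟨fun h => hz h.2.2, hz, abs_le.2 ?_⟩
  obtain ⟨⟨b1, b2⟩, -⟩ := C.near_bound hE ht1 (e1 ▸ hy) hyz
  constructor <;> linarith

/-- The median of the front gives a new lateral form, with the two halves. -/
theorem exists_shear {p : ℝ} (hp : p ∈ Set.Icc (0 : ℝ) 1) {K : Finset V} {M n : ℕ}
    {e ε η η' E ρ L₁ s : ℝ} {t : ℝ × ℝ}
    (hE : ∀ x y, G.Adj x y → size (Ch.pos x - Ch.pos y) ≤ E) (hE0 : 0 ≤ E)
    (he : 0 ≤ e) (he1 : e ≤ 1) (hη : 0 < η) (hη' : 0 < η') (hη1 : η' ≤ 1) (hηη : η' ≤ η)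
    (heε : e ≤ ε) (hee : e * e ≤ ε) (hρ : 0 ≤ ρ) (hn0 : (0 : ℝ) < n) (hL₁ : 0 < L₁)
    (h16 : 16 * (C.D + E + ρ + 1) ≤ n * η') (ht1 : size t = 1) (ht2 : t.2 = 0)
    (hslack : (C.D + E) * size (s, (1 : ℝ)) ≤ L₁ / 10)
    (hfront : ∀ k ∈ Set.Icc (n : ℝ) (2 * n),
      Likely G p K (M + M) (e * e) (C.cyl t (s, 1) (2 * n) k L₁ L₁) (C.side t k)ᶜ) :
    ∃ s' d : ℝ, 0 ≤ d ∧ size (s', (1 : ℝ)) ≤ size (s, (1 : ℝ)) + d ∧
      d * (C.D + E + ρ + 1) ≤ η' * L₁ / 10 ∧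
      (∀ b : Bool, Likely G p K M ε
        (C.cyl t (s', 1) (2 * n) n (3 * (3 / 2 * L₁)) (3 * (3 / 2 * L₁)))
        {v | v ∉ C.side t n ∧ |lin Ch.pos (s', 1) v| ≤ 4 * (3 / 2 * L₁) ∧
          (if b then lin Ch.pos (s', 1) v ≤ η * (3 / 2 * L₁)
            else -(η * (3 / 2 * L₁)) ≤ lin Ch.pos (s', 1) v)}) ∧
      ∀ k : ℕ, n ≤ k → k ≤ 2 * n → Likely G p K M ε
        (C.cyl t (s', 1) (2 * n) k (3 * (3 / 2 * L₁)) (3 * (3 / 2 * L₁)))
        {v | v ∉ C.side t k ∧ |lin Ch.pos (s', 1) v| ≤ 4 * (3 / 2 * L₁)} := by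
  have hh : 0 < η' * L₁ / 8 := by positivity
  obtain ⟨c, hc, hlow, hhigh⟩ := Likely.median (g := lin Ch.pos (s, 1)) (B := L₁ * (11 / 10))
    hp he he1 hh (by positivity)
    (fun z y hy hyz _ _ => abs_le.2 (by
      obtain ⟨-, b3, b4⟩ := C.near_bound hE ht1 hy hyz
      constructor <;> linarith))
    (hfront n ⟨le_rfl, by linarith⟩)
  have hηL : η' * L₁ ≤ L₁ := mul_le_of_le_one_left hL₁.le hη1
  have hc' : |c| ≤ 13 / 10 * L₁ := by linarith
  have hD := C.D_nonneg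
  have hcn : |c / n| * (C.D + E + ρ + 1) ≤ η' * L₁ / 10 := by
    rw [abs_div, abs_of_pos hn0, div_mul_eq_mul_div, div_le_iff₀ hn0]
    have : |c| * (16 * (C.D + E + ρ + 1)) ≤ 13 / 10 * L₁ * (n * η') :=
      mul_le_mul hc' h16 (by positivity) (by positivity)
    nlinarith [mul_nonneg (mul_nonneg hη'.le hL₁.le) hn0.le]
  have hcn1 : |c / n| * (C.D + E) ≤ η' * L₁ / 10 :=
    le_trans (mul_le_mul_of_nonneg_left (by linarith) (abs_nonneg _)) hcn
  have hlf : ∀ v, lin Ch.pos (s - c / n * t.1, (1 : ℝ)) v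
      = lin Ch.pos (s, 1) v - c / n * lin Ch.pos t v := fun v => by
    simp only [lin, ht2]; ring
  have hnη : (n : ℝ) * η' ≤ n := mul_le_of_le_one_right hn0.le hη1
  have ht : |t.1| = 1 := by simpa [size, ht2] using ht1
  refine ⟨s - c / n * t.1, |c / n|, abs_nonneg _, ?_, hcn,
    C.shear_front hp hE hη hη' hη1 hηη heε hee ht1 hn0 hlf hE0 hslack hc' hcn1
      hfront hlow hhigh⟩
  simp only [size]
  linarith [(abs_sub _ _ : |s - c / n * t.1| ≤ |s| + |c / n * t.1|),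
    (by rw [abs_mul, ht, mul_one] : |c / n * t.1| = |c / n|)]

end Cut

/-- Turning the lateral form round keeps `Legs` for the front, and mirrors its halves. -/
theorem legs_of_sign (C : Cut Ch) {p : ℝ} {K : Finset V} {M : ℕ} {ε η : ℝ} {t f f' : ℝ × ℝ}
    {n : ℕ} {L : ℝ} (hf' : f' = f ∨ f' = -f)
    (h1 : ∀ b : Bool, Likely G p K M ε (C.cyl t f (2 * n) n (3 * L) (3 * L))
      {v | v ∉ C.side t n ∧ |lin Ch.pos f v| ≤ 4 * L ∧
        (if b then lin Ch.pos f v ≤ η * L else -(η * L) ≤ lin Ch.pos f v)})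
    (h2 : ∀ k : ℕ, n ≤ k → k ≤ 2 * n → Likely G p K M ε (C.cyl t f (2 * n) k (3 * L) (3 * L))
      {v | v ∉ C.side t k ∧ |lin Ch.pos f v| ≤ 4 * L})
    (h3 : ∀ l : ℝ, L / 4 ≤ l → l ≤ L / 2 → Likely G p K M ε (C.cyl t f' (2 * n) (2 * n) L l)
      {v | v ∉ C.side f' l ∧ |lin Ch.pos t v| ≤ 3 * n}) :
    Legs C p K M ε η t f' n L := by
  rcases hf' with rfl | rfl
  · exact ⟨h1, h2, h3⟩
  have hc : ∀ k : ℝ, C.cyl t (-f) (2 * n) k (3 * L) (3 * L)
      = C.cyl t f (2 * n) k (3 * L) (3 * L) := fun k => by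
    rw [C.cyl_comm, C.cyl_neg, ← C.cyl_comm]
  refine ⟨fun b => ?_, fun k hk hk' => ?_, h3⟩
  · rw [hc]
    convert h1 (!b) using 1
    ext v
    cases b <;> simp [lin_neg, abs_neg, neg_le, le_neg]
  · rw [hc]
    simpa [lin_neg, abs_neg] using h2 k hk hk'

end Geometry

variable {ι : Type} [Fintype ι] {nb : V → ι → V}

/-- From an infinite cluster, the elementary moves at some large scale. -/
theorem legs_of_infinite (hl : Listing G nb) (hc : G.Connected) (ha : Zd.Amenable G)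
    (Ch : Chart G) (p : unitInterval) (h1 : (p : ℝ) < 1)
    (hθ : 0 < perc G p (hasInfinite G)) :
    ∀ ε > (0 : ℝ), ∃ K : Finset V, Ch.o ∈ K ∧ ∀ (C : Cut Ch) (M : ℕ) (η : ℝ), 0 < η →
      ∀ n₀ : ℕ, ∃ (t f : ℝ × ℝ) (n : ℕ) (L : ℝ), IsAxis t ∧ f ≠ 0 ∧ n₀ ≤ n ∧ 0 < L ∧
        size f ≤ η * L ∧ Legs C (p : ℝ) K M ε η t f n L := by
  classical
  intro ε hε
  set e := min ε (1 / 2) with he_def
  have he : 0 < e := lt_min hε (by norm_num)
  have hee : e * e ≤ e := mul_le_of_le_one_left he.le ((min_le_right _ _).trans (by norm_num))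
  have hee' : e * e ≤ 1 := hee.trans ((min_le_right _ _).trans (by norm_num))
  have heε : e ≤ ε := min_le_left _ _
  obtain ⟨K, hKo, hK⟩ := side_exits hl hc ha Ch p h1 hθ ((e * e * (e * e)) * (e * e))
    (by positivity)
  refine ⟨K, hKo, fun C M η hη n₀ => ?_⟩
  obtain ⟨E₀, hE₀⟩ := Ch.short
  obtain ⟨ρ₀, hρ₀⟩ := hK ((M + M + (M + M)) + (M + M))
  -- constants
  set E := max E₀ 0
  have hE : ∀ x y, G.Adj x y → size (Ch.pos x - Ch.pos y) ≤ E := fun x y h =>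
    (hE₀ x y h).trans (le_max_left _ _)
  have hDE : 0 ≤ C.D + E := add_nonneg C.D_nonneg (le_max_right _ _)
  set ρ := max ρ₀ 1
  have hρ1 : 1 ≤ ρ := le_max_right _ _
  set η' := min η 1
  have hη' : 0 < η' := lt_min hη one_pos
  have hη1 : η' ≤ 1 := min_le_right _ _
  have hηη : η' ≤ η := min_le_left _ _
  set ρ' := 8 * ρ + 4 / η' + 10 * (C.D + E) + 4 with hρ'
  have h4η : 0 ≤ 4 / η' := by positivity
  obtain ⟨R₁, hR₁⟩ := hρ₀ (ρ' + C.D)
  obtain ⟨n, hn⟩ := exists_nat_ge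
    ((n₀ : ℝ) + |R₁| + 16 * (C.D + E + ρ + 1) / η')
  have h16 : 16 * (C.D + E + ρ + 1) / η' ≤ n := by
    linarith [abs_nonneg R₁, (Nat.cast_nonneg n₀ : (0 : ℝ) ≤ n₀)]
  have h16' : 16 * (C.D + E + ρ + 1) ≤ n * η' := (div_le_iff₀ hη').1 h16
  have hnη : (n : ℝ) * η' ≤ n := mul_le_of_le_one_right (Nat.cast_nonneg n) hη1
  have hn0 : (0 : ℝ) < n := by linarith
  have hnn₀ : n₀ ≤ n := by
    have : (n₀ : ℝ) ≤ n := by linarith [abs_nonneg R₁, (by positivity :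
      0 ≤ 16 * (C.D + E + ρ + 1) / η')]
    exact_mod_cast this
  have hnR : R₁ ≤ n := by
    linarith [le_abs_self R₁, (Nat.cast_nonneg n₀ : (0 : ℝ) ≤ n₀),
      (by positivity : 0 ≤ 16 * (C.D + E + ρ + 1) / η')]
  obtain ⟨R₂, hR₂⟩ := hρ₀ (2 * n + C.D)
  have hn2 : ρ ≤ n := by linarith
  set t₀ : ℝ × ℝ := (1, 0)
  have ht₀ : size t₀ = 1 := by simp [t₀, size]
  obtain ⟨L₁, s, hsw, hs, hmin⟩ := C.exists_least (M := M + M + (M + M)) (δ := e * e * (e * e))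
    (ρ' := ρ') (t := t₀) p.2 rfl (Nat.le_add_right _ (M + M))
    (mul_le_of_le_one_right (by positivity) hee') (le_max_left _ _) (by linarith) hn2 hR₂
  set f₀ : ℝ × ℝ := (s, 1)
  have hρs : ρ' ≤ ρ' * (|s| + 1) := le_mul_of_one_le_right (by linarith)
    (by linarith [abs_nonneg s])
  have hL4 : 4 ≤ (L₁ : ℝ) := by linarith
  have hsf : size f₀ = |s| + 1 := by simp [f₀, size]
  have hsf1 : ρ * size f₀ ≤ L₁ / 8 := by
    have : 8 * ρ * size f₀ ≤ ρ' * size f₀ :=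
      mul_le_mul_of_nonneg_right (by linarith) (size_nonneg _)
    rw [hsf] at this ⊢; linarith
  have hslack : (C.D + E) * size f₀ ≤ L₁ / 10 := by
    have : 10 * (C.D + E) * size f₀ ≤ ρ' * size f₀ :=
      mul_le_mul_of_nonneg_right (by linarith) (size_nonneg _)
    rw [hsf] at this ⊢; linarith
  have hsfη : size f₀ ≤ η' * L₁ / 4 := by
    have : 4 / η' * size f₀ ≤ L₁ := by
      refine le_trans (mul_le_mul_of_nonneg_right (by linarith) (size_nonneg _)) (?_ : ρ' * _ ≤ _)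
      rw [hsf]; exact hsw
    rw [div_mul_eq_mul_div, div_le_iff₀ hη'] at this
    linarith
  -- the forward sign
  obtain ⟨t, ht, hfront⟩ : ∃ t, (t = t₀ ∨ t = -t₀) ∧ ∀ k ∈ Set.Icc (n : ℝ) (2 * n),
      Likely G (p : ℝ) K (M + M) (e * e) (C.cyl t f₀ (2 * n) k L₁ L₁) (C.side t k)ᶜ := by
    rcases C.one_sign p.2 (by positivity) t₀ f₀ le_rfl le_rfl le_rfl hs with h | h
    exacts [⟨t₀, Or.inl rfl, h⟩, ⟨-t₀, Or.inr rfl, h⟩]
  have ht1 : size t = 1 := by rcases ht with rfl | rfl <;> simp [ht₀, size_neg]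
  have ht2 : t.2 = 0 ∧ |t.1| = 1 := by rcases ht with rfl | rfl <;> simp [t₀]
  -- the new lateral form
  set L : ℝ := 3 / 2 * L₁ with hL
  obtain ⟨s', d, hd, hsize, hcn, hhalf, hfwd⟩ := C.exists_shear (ρ := ρ) (ε := ε) p.2 hE
    (le_max_right _ _) he.le ((min_le_right _ _).trans (by norm_num)) hη hη' hη1 hηη heε
    (hee.trans heε) (by linarith) hn0 (by linarith) h16' ht1 ht2.1 hslack hfront
  have hηL : η' * (L₁ : ℝ) ≤ L₁ := mul_le_of_le_one_left (by positivity) hη1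
  set f : ℝ × ℝ := (s', 1)
  have hρf : ρ * size f ≤ 3 / 8 * L₁ := by
    have h := mul_le_mul_of_nonneg_left hsize (show 0 ≤ ρ by linarith)
    have h' : ρ * d ≤ η' * L₁ / 10 := le_trans ((mul_comm ρ d).trans_le
      (mul_le_mul_of_nonneg_left (by linarith) hd)) hcn
    rw [mul_add] at h; linarith
  -- the sides of a narrower box
  have hfs : size f = |s'| + 1 := by simp [f, size]
  have hL1 : 1 ≤ L₁ := by exact_mod_cast (by linarith : (1 : ℝ) ≤ L₁)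
  have hW : L / 2 ≤ ((L₁ - 1 : ℕ) : ℝ) := by
    rw [Nat.cast_sub hL1, Nat.cast_one]; linarith
  obtain ⟨f', hf', hlat'⟩ := C.exists_sides (L := L) (n := (n : ℝ)) p.2 ht₀ he.le hee'
    (le_max_left _ _) hn2 hn0.le hnR hE (by linarith) hR₁ hR₂
    (by linarith [abs_nonneg s']) (by linarith) hW (by linarith)
    (fun hbig => hmin _ (by omega) _ (hfs ▸ hbig))
  have hlat : ∀ l : ℝ, L / 4 ≤ l → l ≤ L / 2 → Likely G (p : ℝ) K M ε
      (C.cyl t f' (2 * n) (2 * n) L l)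
      {v | v ∉ C.side f' l ∧ |lin Ch.pos t v| ≤ 3 * n} := fun l hl1 hl2 =>
    (hlat' t ht l hl1 hl2).mono p.2 le_rfl heε subset_rfl fun z _ _ _ hz hzS => ⟨hz, hzS⟩
  refine ⟨t, f', n, L, ?_, ?_, hnn₀, by positivity, ?_, legs_of_sign C hf' hhalf hfwd hlat⟩
  · rcases ht with rfl | rfl <;> simp [IsAxis, t₀]
  · intro h0
    have := congrArg Prod.snd h0
    rcases hf' with rfl | rfl <;> simp at this
  · have h' : d ≤ η' * L₁ / 10 := le_trans (le_mul_of_one_le_right hd (by linarith)) hcn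
    have hηLL : η' * (L₁ : ℝ) ≤ η * L₁ := mul_le_mul_of_nonneg_right hηη (Nat.cast_nonneg L₁)
    have hηL' : η * L = η * L₁ + η * L₁ / 2 := by rw [hL]; ring
    have hηL0 : 0 ≤ η * (L₁ : ℝ) := by positivity
    rcases hf' with rfl | rfl
    · linarith
    · rw [size_neg]; linarith

end Vale.Agent.P151.Zt
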