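import Vale.Agent.P151.Zt.Compose
import Vale.Agent.P151.Zt.Direction

/-!
# Geometry of cuts, and one extension of a move

Elementary facts on positions, cuts and cylinders, and the composition of two moves through the
seeds of a plane.
-/

namespace Vale.Agent.P151.Zt

variable {V : Type} {G : SimpleGraph V}

theorem IsAxis.size_eq {t : ℝ × ℝ} (h : IsAxis t) : size t = 1 := by
  rcases h with rfl | rfl <;> simp [size]

theorem IsAxis.ne_zero {t : ℝ × ℝ} (h : IsAxis t) : t ≠ 0 := fun ht => by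
  simpa [ht, size] using h.size_eq

variable (pos : V → ℝ × ℝ)

theorem lin_comb (a b : ℝ) (f g : ℝ × ℝ) (v : V) :
    lin pos (a * f.1 + b * g.1, a * f.2 + b * g.2) v = a * lin pos f v + b * lin pos g v := by
  simp [lin]; ring

theorem abs_lin_sub_le (f : ℝ × ℝ) (x y : V) :
    |lin pos f x - lin pos f y| ≤ size f * size (pos x - pos y) := by
  have h : lin pos f x - lin pos f y
      = f.1 * ((pos x).1 - (pos y).1) + f.2 * ((pos x).2 - (pos y).2) := by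
    simp [lin]; ring
  rw [h]
  refine (abs_add_le _ _).trans ?_
  simp only [size, abs_mul, Prod.fst_sub, Prod.snd_sub]
  nlinarith [abs_nonneg f.1, abs_nonneg f.2, abs_nonneg ((pos x).1 - (pos y).1),
    abs_nonneg ((pos x).2 - (pos y).2)]

variable {pos} {Ch : Chart G}

/-- The bound on the steps of the chart. -/
def StepBound (Ch : Chart G) (l : ℝ) : Prop :=
  ∀ x y, G.Adj x y → size (Ch.pos x - Ch.pos y) ≤ l

theorem lin_adj_le {l : ℝ} (hl : StepBound Ch l) (f : ℝ × ℝ) {x y : V} (h : G.Adj x y) :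
    |lin Ch.pos f x - lin Ch.pos f y| ≤ size f * l :=
  (abs_lin_sub_le _ f x y).trans (mul_le_mul_of_nonneg_left (hl x y h) (size_nonneg f))

theorem lin_walk_le {l : ℝ} (hl : StepBound Ch l) (hl0 : 0 ≤ l) (f : ℝ × ℝ) {x y : V}
    (w : G.Walk x y) {R : ℕ} (hw : w.length ≤ R) :
    |lin Ch.pos f y - lin Ch.pos f x| ≤ size f * (R * l) := by
  suffices h : |lin Ch.pos f y - lin Ch.pos f x| ≤ w.length * (size f * l) by
    refine h.trans ?_
    have := mul_le_mul_of_nonneg_right (Nat.cast_le (α := ℝ).2 hw)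
      (mul_nonneg (size_nonneg f) hl0)
    linarith
  clear hw
  induction w with
  | nil => simp
  | @cons a b c hab w ih =>
    have h1 := lin_adj_le hl f hab
    rw [SimpleGraph.Walk.length_cons, Nat.cast_succ, abs_le]
    rw [abs_le] at h1 ih
    constructor <;> linarith

theorem Shifts.lin_eq {φ : G ≃g G} {z : ℤ × ℤ} (h : Shifts G Ch.pos φ z) (f : ℝ × ℝ) (v : V) :
    lin Ch.pos f (φ v) = lin Ch.pos f v + (f.1 * z.1 + f.2 * z.2) := by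
  simp [lin, h v, gridPt]; ring

theorem Shifts.lin_center {φ : G ≃g G} {z : ℤ × ℤ} (h : Shifts G Ch.pos φ z) (f : ℝ × ℝ) :
    lin Ch.pos f (φ Ch.o) = f.1 * z.1 + f.2 * z.2 := by
  rw [h.lin_eq, lin, Ch.pos_o]; simp

theorem Shifts.lin_add {φ : G ≃g G} {z : ℤ × ℤ} (h : Shifts G Ch.pos φ z) (f : ℝ × ℝ) (v : V) :
    lin Ch.pos f (φ v) = lin Ch.pos f v + lin Ch.pos f (φ Ch.o) := by
  rw [h.lin_eq, h.lin_center]

theorem Shifts.center_int {φ : G ≃g G} {z : ℤ × ℤ} (h : Shifts G Ch.pos φ z) {t : ℝ × ℝ}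
    (ht : IsAxis t) : ∃ k : ℤ, lin Ch.pos t (φ Ch.o) = k := by
  rw [h.lin_center]
  rcases ht with rfl | rfl
  · exact ⟨z.1, by simp⟩
  · exact ⟨-z.1, by simp⟩

variable (C : Cut Ch)

theorem Cut.shift_mem {φ : G ≃g G} {z : ℤ × ℤ} (h : Shifts G Ch.pos φ z) (f : ℝ × ℝ) (X : ℝ)
    (v : V) : φ v ∈ C.side f X ↔ v ∈ C.side f (X - lin Ch.pos f (φ Ch.o)) := by
  rw [h.lin_center]; exact C.shifts φ z h f X v

/-- A vertex just beyond a cut is within bounded distance of its level. -/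
theorem Cut.le_of_adj {l : ℝ} (hl : StepBound Ch l) {f : ℝ × ℝ} {X : ℝ} {y y' : V}
    (hy' : y' ∈ C.side f X) (h : G.Adj y' y) :
    lin Ch.pos f y ≤ X + size f * (C.D + l) := by
  have h1 := C.bounded f X y' hy'
  have h2 := (abs_le.1 (lin_adj_le hl f h)).1
  linarith

theorem Cut.mem_cyl_of_le {t f : ℝ × ℝ} {a k a' l : ℝ} {v : V} (h1 : -a ≤ lin Ch.pos t v)
    (h2 : lin Ch.pos t v ≤ k) (h3 : -a' ≤ lin Ch.pos f v) (h4 : lin Ch.pos f v ≤ l) :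
    v ∈ C.cyl t f a k a' l :=
  ⟨⟨C.le_subset _ _ _ (by rw [lin_neg]; linarith), C.le_subset _ _ _ h2⟩,
    C.le_subset _ _ _ (by rw [lin_neg]; linarith), C.le_subset _ _ _ h4⟩

theorem Cut.shift_mem_cyl {φ : G ≃g G} {z : ℤ × ℤ} (h : Shifts G Ch.pos φ z) (t f : ℝ × ℝ)
    (a k a' l : ℝ) (v : V) :
    φ v ∈ C.cyl t f a k a' l ↔ v ∈ C.cyl t f (a + lin Ch.pos t (φ Ch.o))
      (k - lin Ch.pos t (φ Ch.o)) (a' + lin Ch.pos f (φ Ch.o))
      (l - lin Ch.pos f (φ Ch.o)) := by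
  simp only [Cut.cyl, Set.mem_inter_iff, C.shift_mem h, lin_neg, sub_neg_eq_add]

/-- A move is extended through the seeds of a plane. -/
theorem extend {K : Finset V} (S : Seeding Ch K) (hoK : Ch.o ∈ K)
    (hKconn : ∀ x ∈ K, ∃ W : G.Walk Ch.o x, ∀ v ∈ W.support, v ∈ K)
    {p δ ε : ℝ} (hp : p ∈ Set.Icc (0 : ℝ) 1) (hδ : 0 < δ) {g : ℝ × ℝ} (hg : g ≠ 0) (X : ℝ)
    {P₁ Side₁ P Side : Set V} {M₁ M₀ M : ℕ}
    (hspread : ∀ s : Finset V, M₁ ≤ s.card → ∃ T ⊆ s, T.card = M₀ ∧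
      (T : Set V).Pairwise fun x y =>
        Disjoint {v | ∃ w : G.Walk x v, w.length ≤ S.R} {v | ∃ w : G.Walk y v, w.length ≤ S.R})
    (hKP : ∀ x ∈ K, x ∈ P₁) (hP₁P : P₁ ⊆ P) (hP₁ : P₁ ⊆ S.side g X)
    (hSide₁ : ∀ y ∈ Side₁, y ∉ S.side g X)
    (h1 : LikelyHit G p K M₁ ε P₁ Side₁)
    (hnear : ∀ y y' v, y ∈ Side₁ → y' ∈ P₁ → G.Adj y' y → v ∉ S.side g X →
      (∃ w : G.Walk y v, w.length ≤ S.R) → v ∈ P)
    (hnext : ∀ y y', y ∈ Side₁ → y' ∈ P₁ → G.Adj y' y → ∀ (φ : G ≃g G) (z : ℤ × ℤ),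
      Shifts G Ch.pos φ z → (∃ w : G.Walk y (φ Ch.o), w.length ≤ S.R) →
      φ Ch.o ∉ S.side g X →
      (IsAxis g → (∃ k : ℤ, X = k) → lin Ch.pos g (φ Ch.o) = X + S.ρ) →
      ∃ P₂ Side₂ : Set V, LikelyHit G p K M (δ ^ 2) P₂ Side₂ ∧ (∀ x ∈ K, x ∈ P₂) ∧
        (∀ v ∈ P₂, φ v ∈ P) ∧
        ∀ v u, v ∈ P₂ → u ∉ P₂ → u ∈ Side₂ → G.Adj v u → φ u ∉ P ∧ φ u ∈ Side) :
    LikelyHit G p K M (ε + compErr M₀ (p ^ S.m) δ) P Side := by
  refine compose hp hδ hoK hKconn hKP hP₁P hspread h1 fun y _ hyS hadj => ?_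
  obtain ⟨y', hy', ha⟩ := hadj
  have hy : y ∉ S.side g X := hSide₁ y hyS
  obtain ⟨φ, z, edges, hφ, hcard, hedges, hcen, hwalk, hax⟩ :=
    S.seed g hg X y y' hy (hP₁ hy') ha
  have hout : φ Ch.o ∉ S.side g X := by
    obtain ⟨w, hw⟩ := hwalk Ch.o hoK
    by_cases hnil : w.Nil
    · rw [← hnil.eq]; exact hy
    · obtain ⟨e, he, hoe⟩ := (w.mem_support_iff_exists_mem_edges_of_not_nil hnil).1
        w.end_mem_support
      exact ((hedges e (hw e he)).2 _ hoe).1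
  obtain ⟨P₂, Side₂, hlik, hK₂, hP₂, hS⟩ := hnext y y' hyS hy' ha φ z hφ hcen hout hax
  refine ⟨φ, edges, P₂, Side₂, hcard, fun e he => ⟨(hedges e he).1, fun v hv => ?_⟩, hwalk, hlik,
    hK₂, hP₂, hS⟩
  obtain ⟨hv1, hv2⟩ := (hedges e he).2 v hv
  exact ⟨fun h => hv1 (hP₁ h), hnear y y' v hyS hy' ha hv1 hv2, hv2⟩

end Vale.Agent.P151.Zt
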