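import Vale.Agent.P151.Zt.Forward
import Vale.Agent.P151.Zt.Geometry

/-!
# Seeds beyond fuzzy cuts

Walks along translates of the base vertex climb in every direction, uniformly, after descending a
bounded amount. The past of a level is then a cut, and every vertex outside it starts a walk that
avoids it, ends deep beyond it and reaches a translate of any finite set.
-/

namespace Vale.Agent.P151.Zt

open Vale.Agent.P165

variable {V : Type} {G : SimpleGraph V} {Ch : Chart G}

theorem Shifts.trans' {φ ψ : G ≃g G} {z z' : ℤ × ℤ} (h : Shifts G Ch.pos φ z)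
    (h' : Shifts G Ch.pos ψ z') : Shifts G Ch.pos (ψ.trans φ) (z + z') := fun v => by
  rw [show (ψ.trans φ) v = φ (ψ v) from rfl, h, h']
  simp [gridPt, Prod.ext_iff]
  constructor <;> ring

theorem Shifts.symm' {φ : G ≃g G} {z : ℤ × ℤ} (h : Shifts G Ch.pos φ z) :
    Shifts G Ch.pos φ.symm (-z) := fun v => by
  have := h (φ.symm v)
  rw [φ.apply_symm_apply] at this
  rw [this]
  simp [gridPt, Prod.ext_iff]

/-- Some unit step raises a linear form by at least half of its size. -/
theorem exists_dir (f : ℝ × ℝ) :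
    ∃ u ∈ ({(1, 0), (-1, 0), (0, 1), (0, -1)} : Finset (ℤ × ℤ)),
      size f / 2 ≤ f.1 * u.1 + f.2 * u.2 := by
  simp only [Finset.mem_insert, Finset.mem_singleton, exists_eq_or_imp, exists_eq_left, size,
    Int.cast_one, Int.cast_zero, Int.cast_neg, mul_one, mul_zero, add_zero, zero_add, mul_neg]
  rcases le_total |f.1| |f.2| with h | h <;> rcases abs_choice f.1 with h1 | h1 <;>
    rcases abs_choice f.2 with h2 | h2 <;> rw [h1, h2] at h ⊢
  all_goals first
    | (left; linarith) | (right; left; linarith) | (right; right; left; linarith)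
    | (right; right; right; linarith)

/-- Uniform steps: a translate of the base vertex is near every vertex, and unit steps from
translate to translate are short. -/
theorem exists_step (hc : G.Connected) (Ch : Chart G) :
    ∃ Δ st : ℕ,
      (∀ v : V, ∃ (φ : G ≃g G) (z : ℤ × ℤ), Shifts G Ch.pos φ z ∧
        ∃ w : G.Walk v (φ Ch.o), w.length ≤ Δ) ∧
      ∀ u ∈ ({(1, 0), (-1, 0), (0, 1), (0, -1)} : Finset (ℤ × ℤ)), ∃ ψ : G ≃g G,
        Shifts G Ch.pos ψ u ∧ ∃ w : G.Walk Ch.o (ψ Ch.o), w.length ≤ st := by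
  classical
  obtain ⟨R, hR⟩ := Ch.orbits
  choose ψ hψ using Ch.shift
  refine ⟨∑ r ∈ R, (hc.preconnected r Ch.o).some.length,
    ∑ u ∈ ({(1, 0), (-1, 0), (0, 1), (0, -1)} : Finset (ℤ × ℤ)),
      (hc.preconnected Ch.o (ψ u Ch.o)).some.length, fun v => ?_, fun u hu => ?_⟩
  · obtain ⟨φ, z, hφ, r, hr, rfl⟩ := hR v
    refine ⟨φ, z, hφ, ((hc.preconnected r Ch.o).some).map φ.toHom, ?_⟩
    rw [SimpleGraph.Walk.length_map]
    exact Finset.single_le_sum (f := fun r => (hc.preconnected r Ch.o).some.length)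
      (fun _ _ => Nat.zero_le _) hr
  · exact ⟨ψ u, hψ u, (hc.preconnected Ch.o (ψ u Ch.o)).some,
      Finset.single_le_sum (f := fun u => (hc.preconnected Ch.o (ψ u Ch.o)).some.length)
        (fun _ _ => Nat.zero_le _) hu⟩

/-- Repeated steps in one direction. -/
theorem exists_track {l : ℝ} (hl : StepBound Ch l) (hl0 : 0 ≤ l) {st : ℕ} {u : ℤ × ℤ}
    {ψ : G ≃g G} (hψ : Shifts G Ch.pos ψ u) (W : G.Walk Ch.o (ψ Ch.o)) (hW : W.length ≤ st)
    (f : ℝ × ℝ) {φ : G ≃g G} {z : ℤ × ℤ} (hφ : Shifts G Ch.pos φ z) (k : ℕ) :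
    ∃ (φ' : G ≃g G) (z' : ℤ × ℤ), Shifts G Ch.pos φ' z' ∧
      lin Ch.pos f (φ' Ch.o) = lin Ch.pos f (φ Ch.o) + k * (f.1 * u.1 + f.2 * u.2) ∧
      ∃ w : G.Walk (φ Ch.o) (φ' Ch.o), w.length ≤ k * st ∧
        (∀ x ∈ w.support, ∃ i : ℕ, i ≤ k ∧ |lin Ch.pos f x - (lin Ch.pos f (φ Ch.o) +
          i * (f.1 * u.1 + f.2 * u.2))| ≤ size f * (st * l)) ∧
        ∀ i : ℕ, i ≤ k → ∃ x ∈ w.support,
          lin Ch.pos f x = lin Ch.pos f (φ Ch.o) + i * (f.1 * u.1 + f.2 * u.2) := by
  classical
  induction k with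
  | zero =>
    refine ⟨φ, z, hφ, by simp, .nil, by simp, fun x hx => ⟨0, le_rfl, ?_⟩, fun i hi => ?_⟩
    · rw [SimpleGraph.Walk.support_nil, List.mem_singleton] at hx
      subst hx
      simpa using mul_nonneg (size_nonneg f) (mul_nonneg (Nat.cast_nonneg st) hl0)
    · obtain rfl : i = 0 := by omega
      exact ⟨φ Ch.o, by simp, by simp⟩
  | succ k ih =>
    obtain ⟨φ', z', hφ', he, w, hw, hb, hcov⟩ := ih
    have hφ'' := hφ'.trans' hψ
    have hend : lin Ch.pos f ((ψ.trans φ') Ch.o)
        = lin Ch.pos f (φ Ch.o) + ((k + 1 : ℕ) : ℝ) * (f.1 * u.1 + f.2 * u.2) := by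
      rw [show (ψ.trans φ') Ch.o = φ' (ψ Ch.o) from rfl, hφ'.lin_add, hψ.lin_center, he]
      push_cast; ring
    refine ⟨ψ.trans φ', z' + u, hφ'', hend, w.append (W.map φ'.toHom), ?_, fun x hx => ?_,
      fun i hi => ?_⟩
    · refine (SimpleGraph.Walk.length_append _ _).trans_le ?_
      rw [add_mul, one_mul]
      exact add_le_add hw ((SimpleGraph.Walk.length_map _ _).trans_le hW)
    · rcases (w.mem_support_append_iff _).1 hx with hx | hx
      · obtain ⟨i, hi, hxi⟩ := hb x hx
        exact ⟨i, hi.trans (Nat.le_succ _), hxi⟩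
      · refine ⟨k, Nat.le_succ _, ?_⟩
        rw [← he]
        refine lin_walk_le hl hl0 f ((W.map φ'.toHom).takeUntil x hx) ?_
        refine ((W.map φ'.toHom).length_takeUntil_le_length hx).trans ?_
        rw [SimpleGraph.Walk.length_map]; exact hW
    · rcases Nat.lt_or_ge i (k + 1) with hik | hik
      · obtain ⟨x, hx, hxi⟩ := hcov i (by omega)
        exact ⟨x, (w.mem_support_append_iff _).2 (Or.inl hx), hxi⟩
      · obtain rfl : i = k + 1 := by omega
        exact ⟨_, SimpleGraph.Walk.end_mem_support _, hend⟩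

/-- The walk with `k` steps in a direction that does not descend stays above its start. -/
theorem track_lower {l : ℝ} {st k : ℕ} {f : ℝ × ℝ} {d c x : ℝ} (hd : 0 ≤ d)
    (h : ∃ i : ℕ, i ≤ k ∧ |x - (c + i * d)| ≤ size f * (st * l)) :
    c - size f * (st * l) ≤ x := by
  obtain ⟨i, -, hi⟩ := h
  have := (abs_le.1 hi).1
  have : 0 ≤ (i : ℝ) * d := by positivity
  linarith

/-- Every finite set has seeds: the past of a level is a cut whose complement carries them. -/
theorem seeding_exists (hc : G.Connected) (Ch : Chart G) (K : Finset V) :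
    Nonempty (Seeding Ch K) := by
  classical
  obtain ⟨Δ, st, hnear, hstep⟩ := exists_step hc Ch
  obtain ⟨l₀, hl₀⟩ := Ch.short
  set l := max l₀ 0
  have hl : StepBound Ch l := fun x y h => (hl₀ x y h).trans (le_max_left _ _)
  have hl0 : 0 ≤ l := le_max_right _ _
  set D : ℝ := (Δ + st : ℕ) * l with hDdef
  have hD0 : 0 ≤ D := by positivity
  set κ := ∑ x ∈ K, (hc.preconnected Ch.o x).some.length with hκ
  set A : ℝ := ((Δ + st + κ + 1 : ℕ) : ℝ) * l with hA
  set H : ℝ := D + 2 * A + 1 with hH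
  have hA0 : 0 ≤ A := by positivity
  set k₁ := ⌈2 * (H + (Δ : ℝ) * l)⌉₊ with hk₁
  set Lp := Δ + k₁ * st with hLp
  set ρ := ⌈H⌉₊ with hρ
  set N := ⌈D + l + ((Lp + Δ : ℕ) : ℝ) * l + ρ + H⌉₊ with hN
  set m := Lp + Δ + N * st + K.card * κ with hm
  set R := Lp + Δ + N * st + κ + 2 * m * st with hR
  -- climbing from every vertex
  have hclimb : ∀ (f : ℝ × ℝ) (x : V), ∃ (y : V) (w : G.Walk x y), w.length ≤ Lp ∧
      (∀ v ∈ w.support, lin Ch.pos f x - D * size f ≤ lin Ch.pos f v) ∧
      lin Ch.pos f x + H * size f ≤ lin Ch.pos f y := by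
    intro f x
    obtain ⟨φ, z, hφ, w₀, hw₀⟩ := hnear x
    obtain ⟨u, hu, hdir⟩ := exists_dir f
    obtain ⟨ψ, hψ, W, hW⟩ := hstep u hu
    obtain ⟨φ', z', -, he, w, hw, hb, -⟩ := exists_track hl hl0 hψ W hW f hφ k₁
    have h0 := (abs_le.1 (lin_walk_le hl hl0 f w₀ hw₀)).1
    have hs := size_nonneg f
    have hd : 0 ≤ f.1 * u.1 + f.2 * u.2 := by linarith
    refine ⟨_, w₀.append w, ?_, fun v hv => ?_, ?_⟩
    · rw [SimpleGraph.Walk.length_append]; omega
    · have hDe : D * size f = size f * ((Δ : ℝ) * l) + size f * (st * l) := by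
        rw [hDdef]; push_cast; ring
      rcases (w₀.mem_support_append_iff _).1 hv with hv | hv
      · have h1 := (abs_le.1 (lin_walk_le hl hl0 f (w₀.takeUntil v hv)
          ((w₀.length_takeUntil_le_length hv).trans hw₀))).1
        have : 0 ≤ size f * ((st : ℝ) * l) := by positivity
        linarith
      · have := track_lower hd (hb v hv)
        linarith
    · rw [he]
      have h1 : (k₁ : ℝ) * (size f / 2) ≤ k₁ * (f.1 * u.1 + f.2 * u.2) :=
        mul_le_mul_of_nonneg_left hdir (Nat.cast_nonneg _)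
      have h2 := mul_le_mul_of_nonneg_right (Nat.le_ceil (2 * (H + (Δ : ℝ) * l)))
        (by linarith : (0 : ℝ) ≤ size f / 2)
      rw [← hk₁] at h2
      linarith
  -- the cut
  let side : ℝ × ℝ → ℝ → Set V := fun f X => past G (lin Ch.pos f) X (H * size f) Lp
  have hbounded : ∀ f X v, v ∈ side f X → lin Ch.pos f v ≤ X + D * size f := by
    intro f X v hv
    by_contra hlt
    obtain ⟨y, w, hlen, hw, hy⟩ := hclimb f v
    have := mul_nonneg hD0 (size_nonneg f)
    exact hv ⟨y, w, hlen, fun x hx => by linarith [hw x hx], by linarith⟩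
  have hshift1 : ∀ (φ : G ≃g G) (z : ℤ × ℤ), Shifts G Ch.pos φ z → ∀ f X v,
      v ∉ side f (X - (f.1 * z.1 + f.2 * z.2)) → φ v ∉ side f X := by
    intro φ z hφ f X v hv
    simp only [side, past, Set.mem_ofPred_eq, not_not] at hv ⊢
    obtain ⟨y, w, hlen, hw, hy⟩ := hv
    refine ⟨φ y, w.map φ.toHom, by rw [SimpleGraph.Walk.length_map]; exact hlen, fun x hx => ?_,
      by rw [hφ.lin_eq]; linarith⟩
    rw [SimpleGraph.Walk.support_map] at hx
    obtain ⟨x', hx', rfl⟩ := List.mem_map.1 hx
    show X < lin Ch.pos f (φ x')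
    rw [hφ.lin_eq]
    linarith [hw x' hx']
  refine ⟨{
    side := side
    D := D
    D_nonneg := hD0
    mono := fun f X X' h x hx ⟨y, w, hlen, hw, hy⟩ =>
      hx ⟨y, w, hlen, fun v hv => h.trans_lt (hw v hv), by linarith⟩
    le_subset := fun f X v h => le_subset_past _ _ _ _ h
    bounded := hbounded
    shifts := fun φ z hφ f X v => by
      constructor
      · exact fun h => by_contra fun h' => hshift1 φ z hφ f X v h' h
      · intro h
        by_contra h'
        have e : X - (f.1 * z.1 + f.2 * z.2) - (f.1 * ((-z).1 : ℤ) + f.2 * ((-z).2 : ℤ)) = X := by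
          simp only [Prod.fst_neg, Prod.snd_neg, Int.cast_neg]; ring
        have := hshift1 φ.symm (-z) hφ.symm' f (X - (f.1 * z.1 + f.2 * z.2)) (φ v)
          (by rw [e]; exact h')
        exact this (by simpa using h)
    m := m
    R := R
    ρ := ρ
    seed := fun f hf X y y' hy hy' hadj => ?_ }⟩
  have hs : 0 < size f := by
    refine lt_of_le_of_ne (size_nonneg f) fun h => hf ?_
    simp only [size] at h
    have h1 : |f.1| = 0 := by linarith [abs_nonneg f.1, abs_nonneg f.2]
    have h2 : |f.2| = 0 := by linarith [abs_nonneg f.1, abs_nonneg f.2]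
    exact Prod.ext (abs_eq_zero.1 h1) (abs_eq_zero.1 h2)
  have hdeep : ∀ v, X + D * size f < lin Ch.pos f v → v ∉ side f X := fun v hv h =>
    (hbounded f X v h).not_gt hv
  obtain ⟨z₁, w₁, hw₁l, hw₁, hz₁⟩ := exists_walk_of_notMem_past hy
  obtain ⟨φ₁, q₁, hφ₁, w₂, hw₂l⟩ := hnear z₁
  have hHA : D * size f < (H - 2 * A) * size f :=
    mul_lt_mul_of_pos_right (by linarith) hs
  have hAb : ∀ j : ℕ, j ≤ Δ + st + κ + 1 → size f * ((j : ℝ) * l) ≤ A * size f := fun j hj => by
    rw [hA, mul_comm _ (size f)]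
    exact mul_le_mul_of_nonneg_left (mul_le_mul_of_nonneg_right (Nat.cast_le.2 hj) hl0) hs.le
  have hw₂ : ∀ v ∈ w₂.support, X + H * size f - A * size f ≤ lin Ch.pos f v := fun v hv => by
    have h1 := (abs_le.1 (lin_walk_le hl hl0 f (w₂.takeUntil v hv)
      ((w₂.length_takeUntil_le_length hv).trans hw₂l))).1
    linarith [hAb Δ (by omega)]
  -- the centre, on an exact plane when the form is an axis
  obtain ⟨φ, q, hφ, w₃, hw₃l, hw₃, hcen, hax⟩ : ∃ (φ : G ≃g G) (q : ℤ × ℤ),
      Shifts G Ch.pos φ q ∧ ∃ w : G.Walk (φ₁ Ch.o) (φ Ch.o), w.length ≤ N * st ∧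
        (∀ v ∈ w.support, v ∉ side f X) ∧
        X + H * size f - A * size f ≤ lin Ch.pos f (φ Ch.o) ∧
        (IsAxis f → (∃ k : ℤ, X = k) → lin Ch.pos f (φ Ch.o) = X + ρ) := by
    have hc₁ : X + H * size f - A * size f ≤ lin Ch.pos f (φ₁ Ch.o) :=
      hw₂ _ w₂.end_mem_support
    by_cases hax : IsAxis f ∧ ∃ k : ℤ, X = k
    swap
    · refine ⟨φ₁, q₁, hφ₁, .nil, Nat.zero_le _, fun v hv => ?_, hc₁,
        fun h1 h2 => absurd ⟨h1, h2⟩ hax⟩
      rw [SimpleGraph.Walk.support_nil, List.mem_singleton] at hv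
      subst hv
      exact hdeep _ (by linarith [mul_nonneg hA0 hs.le])
    obtain ⟨hax, kX, hkX⟩ := hax
    obtain ⟨c, hc'⟩ := hφ₁.center_int hax
    have hs1 : size f = 1 := hax.size_eq
    set n : ℤ := kX + ρ - c with hn
    obtain ⟨u, hu, hfu⟩ : ∃ u ∈ ({(1, 0), (-1, 0), (0, 1), (0, -1)} : Finset (ℤ × ℤ)),
        (n.natAbs : ℝ) * (f.1 * u.1 + f.2 * u.2) = n := by
      have habs : ((n.natAbs : ℕ) : ℝ) = |(n : ℝ)| := by
        rw [← Int.cast_abs, Int.abs_eq_natAbs, Int.cast_natCast]
      rw [habs]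
      rcases le_total 0 n with h | h <;> have h' := (Int.cast_le (R := ℝ)).2 h <;>
        rw [Int.cast_zero] at h' <;> rcases hax with rfl | rfl
      · exact ⟨(1, 0), by simp, by simp [abs_of_nonneg h']⟩
      · exact ⟨(-1, 0), by simp, by simp [abs_of_nonneg h']⟩
      · exact ⟨(-1, 0), by simp, by simp [abs_of_nonpos h']⟩
      · exact ⟨(1, 0), by simp, by simp [abs_of_nonpos h']⟩
    obtain ⟨ψ, hψ, W, hW⟩ := hstep u hu
    obtain ⟨φ, q, hφ, he, w, hwl, hb, -⟩ := exists_track hl hl0 hψ W hW f hφ₁ n.natAbs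
    have hρH : H ≤ (ρ : ℝ) := Nat.le_ceil _
    have hend : lin Ch.pos f (φ Ch.o) = X + ρ := by
      rw [he, hfu, hc', hn, hkX]; push_cast; ring
    rw [hs1, mul_one, mul_one] at hc₁
    have hnN : n.natAbs ≤ N := by
      have hX1 := hbounded f X y' hy'
      have h2 := abs_le.1 (lin_adj_le hl f hadj)
      have h3 := abs_le.1 (lin_walk_le hl hl0 f (w₁.append w₂)
        (show (w₁.append w₂).length ≤ Lp + Δ by
          rw [SimpleGraph.Walk.length_append]; omega))
      rw [hs1] at hX1 h2 h3
      have : (n.natAbs : ℝ) ≤ N := by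
        rw [← Int.cast_natCast, Int.natCast_natAbs, Int.cast_abs]
        refine le_trans ?_ (Nat.le_ceil _)
        have e : (n : ℝ) = X + ρ - lin Ch.pos f (φ₁ Ch.o) := by
          rw [hn, hkX, hc']; push_cast; ring
        rw [e, abs_le]
        have : (0 : ℝ) ≤ ((Lp + Δ : ℕ) : ℝ) * l := by positivity
        constructor <;> linarith
      exact_mod_cast this
    refine ⟨φ, q, hφ, w, hwl.trans (Nat.mul_le_mul_right _ hnN), fun v hv => ?_, ?_,
      fun _ _ => hend⟩
    · obtain ⟨i, hi, hvi⟩ := hb v hv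
      apply hdeep
      have h1 := (abs_le.1 hvi).1
      have hsA := hAb st (by omega)
      rw [hs1] at h1 hsA ⊢
      rw [hs1] at hHA
      have hi' : (i : ℝ) ≤ (n.natAbs : ℕ) := Nat.cast_le.2 hi
      have hi0 : (0 : ℝ) ≤ i := Nat.cast_nonneg i
      rcases le_total 0 (f.1 * u.1 + f.2 * u.2 : ℝ) with hd | hd
      · have := mul_nonneg hi0 hd
        linarith
      · have h4 := mul_le_mul_of_nonpos_right hi' hd
        have : X + H - A ≤ lin Ch.pos f (φ₁ Ch.o) + n := by
          rw [← hfu, ← he, hend]; linarith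
        linarith
    · rw [hend, hs1]; linarith
  set core := w₁.append (w₂.append w₃) with hcore
  have hcorel : core.length ≤ Lp + Δ + N * st := by
    simp only [hcore, SimpleGraph.Walk.length_append]; omega
  have hcoreout : ∀ v ∈ core.support, v ∉ side f X := by
    intro v hv
    rcases (w₁.mem_support_append_iff _).1 hv with hv | hv
    · exact hw₁ v hv
    rcases (w₂.mem_support_append_iff _).1 hv with hv | hv
    · refine hdeep v ?_
      have := mul_nonneg hA0 hs.le
      linarith [hw₂ v hv]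
    · exact hw₃ v hv
  have hdeep' : ∀ v, lin Ch.pos f (φ Ch.o) - A * size f ≤ lin Ch.pos f v → v ∉ side f X :=
    fun v hv => hdeep v (by linarith)
  let kw : ∀ x, G.Walk (φ Ch.o) (φ x) := fun x => (hc.preconnected Ch.o x).some.map φ.toHom
  have hkw : ∀ x ∈ K, (kw x).length ≤ κ := fun x hx => by
    simp only [kw, SimpleGraph.Walk.length_map]
    exact Finset.single_le_sum (f := fun x => (hc.preconnected Ch.o x).some.length)
      (fun _ _ => Nat.zero_le _) hx
  have hkwout : ∀ x ∈ K, ∀ v ∈ (kw x).support, v ∉ side f X := fun x hx v hv => by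
    apply hdeep'
    have h1 := (abs_le.1 (lin_walk_le hl hl0 f ((kw x).takeUntil v hv)
      (((kw x).length_takeUntil_le_length hv).trans (hkw x hx)))).1
    linarith [hAb κ (by omega)]
  -- padding by climbing on
  obtain ⟨u, hu, hdir⟩ := exists_dir f
  obtain ⟨ψ, hψ, W, hW⟩ := hstep u hu
  obtain ⟨φp, qp, -, -, wp, hwpl, hbp, hcov⟩ := exists_track hl hl0 hψ W hW f hφ (2 * m)
  have hwpout : ∀ v ∈ wp.support, v ∉ side f X := fun v hv => by
    apply hdeep'
    linarith [track_lower (show (0 : ℝ) ≤ f.1 * u.1 + f.2 * u.2 by linarith) (hbp v hv),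
      hAb st (by omega)]
  set need := core.edges.toFinset ∪ K.biUnion fun x => (kw x).edges.toFinset with hneed
  set extra := wp.edges.toFinset
  have hneedm : need.card ≤ m := by
    refine (Finset.card_union_le _ _).trans (add_le_add ?_ ?_)
    · exact (List.toFinset_card_le _).trans (by rw [SimpleGraph.Walk.length_edges]; exact hcorel)
    · refine Finset.card_biUnion_le.trans ((Finset.sum_le_card_nsmul K _ κ fun x hx => ?_).trans_eq
        (smul_eq_mul _ _))
      exact (List.toFinset_card_le _).trans (by rw [SimpleGraph.Walk.length_edges]; exact hkw x hx)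
  have hextra : m ≤ extra.card := by
    choose g hg hge using fun i : Fin (2 * m + 1) => hcov i (by omega)
    have hinj : Function.Injective g := fun i j hij => by
      have h := hge i
      rw [hij, hge j] at h
      have hd : (0 : ℝ) < f.1 * u.1 + f.2 * u.2 := by linarith
      have : ((j : ℕ) : ℝ) = (i : ℕ) := mul_right_cancel₀ hd.ne' (by linarith)
      exact Fin.ext (by exact_mod_cast this.symm)
    have hsub : Finset.univ.image g ⊆ insert (φ Ch.o) (extra.biUnion fun e => e.toFinset) := by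
      intro v hv
      obtain ⟨i, -, rfl⟩ := Finset.mem_image.1 hv
      rcases (SimpleGraph.Walk.mem_support_iff_exists_mem_edges (p := wp)).1 (hg i) with
        h | ⟨e, he, hve⟩
      · have hge' := hge i
        rw [h] at hge' ⊢
        have hend := hcov (2 * m) le_rfl
        by_cases hnil : wp.Nil
        · exact Finset.mem_insert.2 (Or.inl hnil.eq.symm)
        · obtain ⟨e, he, hve⟩ := (wp.mem_support_iff_exists_mem_edges_of_not_nil hnil).1
            wp.end_mem_support
          exact Finset.mem_insert_of_mem (Finset.mem_biUnion.2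
            ⟨e, List.mem_toFinset.2 he, Sym2.mem_toFinset.2 hve⟩)
      · exact Finset.mem_insert_of_mem (Finset.mem_biUnion.2
          ⟨e, List.mem_toFinset.2 he, Sym2.mem_toFinset.2 hve⟩)
    have h1 := Finset.card_le_card hsub
    rw [Finset.card_image_of_injective _ hinj, Finset.card_univ, Fintype.card_fin] at h1
    have h2 : (extra.biUnion fun e => e.toFinset).card ≤ extra.card * 2 := by
      refine Finset.card_biUnion_le_card_mul _ _ _ fun e _ => ?_
      induction e using Sym2.ind with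
      | h a b =>
        exact (Finset.card_le_card (t := {a, b}) (fun v hv => by simpa using hv)).trans
          Finset.card_le_two
    have h3 := Finset.card_insert_le (φ Ch.o) (extra.biUnion fun e => e.toFinset)
    omega
  obtain ⟨edges, hne, hed, hcard⟩ := Finset.exists_subsuperset_card_eq
    (Finset.subset_union_left (s₁ := need) (s₂ := extra)) hneedm
    (hextra.trans (Finset.card_le_card Finset.subset_union_right))
  have hpath : ∀ {b : V} (w : G.Walk (φ Ch.o) b) (B : ℕ), w.length ≤ B →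
      Lp + Δ + N * st + B ≤ R → (∀ v ∈ w.support, v ∉ side f X) →
      ∀ e ∈ (core.append w).edges, e ∈ G.edgeSet ∧
        ∀ v ∈ e, v ∉ side f X ∧ ∃ p : G.Walk y v, p.length ≤ R := by
    intro b w B hwB hBR hout e he
    refine ⟨(core.append w).edges_subset_edgeSet he, fun v hv => ?_⟩
    have hsup : v ∈ (core.append w).support := (core.append w).mem_support_of_mem_edges he hv
    refine ⟨?_, (core.append w).takeUntil v hsup, ?_⟩
    · rcases (core.mem_support_append_iff _).1 hsup with h | h
      exacts [hcoreout v h, hout v h]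
    · refine ((core.append w).length_takeUntil_le_length hsup).trans ?_
      rw [SimpleGraph.Walk.length_append]
      omega
  refine ⟨φ, q, edges, hφ, hcard, fun e he => ?_, ⟨core, by omega⟩, fun x hx => ⟨core.append
    (kw x), fun e he => hne ?_⟩, fun h1 h2 => hax h1 h2⟩
  · rcases Finset.mem_union.1 (hed he) with he' | he'
    · rcases Finset.mem_union.1 he' with he' | he'
      · exact hpath (.nil : G.Walk (φ Ch.o) (φ Ch.o)) 0 le_rfl (by omega) (fun v hv => by
          rw [SimpleGraph.Walk.support_nil, List.mem_singleton] at hv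
          exact hv ▸ hdeep' _ (by linarith [mul_nonneg hA0 hs.le])) e
          (by rw [SimpleGraph.Walk.append_nil]; exact List.mem_toFinset.1 he')
      · obtain ⟨x, hx, he'⟩ := Finset.mem_biUnion.1 he'
        exact hpath (kw x) κ (hkw x hx) (by omega) (hkwout x hx) e
          (by rw [SimpleGraph.Walk.edges_append]; exact List.mem_append.2 (Or.inr
            (List.mem_toFinset.1 he')))
    · exact hpath wp (2 * m * st) hwpl (by omega) hwpout e
        (by rw [SimpleGraph.Walk.edges_append]; exact List.mem_append.2 (Or.inr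
          (List.mem_toFinset.1 he')))
  · rw [SimpleGraph.Walk.edges_append] at he
    rcases List.mem_append.1 he with h | h
    · exact Finset.mem_union_left _ (List.mem_toFinset.2 h)
    · exact Finset.mem_union_right _ (Finset.mem_biUnion.2 ⟨x, hx, List.mem_toFinset.2 h⟩)

end Vale.Agent.P151.Zt
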