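import Vale.Agent.P151.Zt.Final
import Vale.Agent.P151.Zt.Moves
import Vale.Agent.P151.Zt.SeedPath

/-!
# No percolation at the critical point of an amenable graph with a chart
-/

namespace Vale.Agent.P151.Zt

open Vale.Agent.P165

variable {V ι : Type} [Fintype ι] {G : SimpleGraph V} {nb : V → ι → V}

/-- On a connected locally finite amenable graph with a chart and `pc < 1` there is no infinite
cluster at `pc`. -/
theorem critical_of_chart (hl : Listing G nb) (hc : G.Connected) (ha : Zd.Amenable G)
    (Ch : Chart G) (hpc : pc G < 1) (p : unitInterval) (hp : (p : ℝ) = pc G) :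
    perc G p (hasInfinite G) = 0 :=
  critical_of_criterion hl hc Ch (fun K _ => seeding_exists hc Ch K)
    (fun p h0 h1 hθ => steer_of_infinite hl hc ha Ch p h0 h1 hθ)
    (fun K hK S => base hl hc Ch K hK S) hpc p hp

end Vale.Agent.P151.Zt
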