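import Vale.Agent.P151.Zd.Local

/-!
# Few exits are cut off at bounded cost

The exits of a finite set `K` from a region `P` are the first vertices outside `P` met by the open
paths from `K`. Few exits can all be cut off at a bounded price, which leaves a finite cluster
that meets the outside of `P`; so if no infinite cluster lives next to `P`, few exits are rare
when `P` is large.
-/

open MeasureTheory ProbabilityTheory Filter Topology

namespace Vale.Agent.P151.Zt

open Vale.Agent.P165

variable {V : Type} {G : SimpleGraph V}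

/-- The points joined to `K` inside `P`. -/
def inner (G : SimpleGraph V) (P : Set V) (K : Finset V) (ω : Config G) : Set V :=
  {y | ∃ x ∈ K, ω ∈ Zd.reachWithin G P x y}

/-- The first points outside `P` of the open paths from `K`. -/
def exits (G : SimpleGraph V) (P : Set V) (K : Finset V) (ω : Config G) : Set V :=
  {z | z ∉ P ∧ ∃ y ∈ inner G P K ω, (openGraph G ω).Adj y z}

/-- A set with its outer boundary. -/
def nearby (G : SimpleGraph V) (P : Set V) : Set V := {v | v ∈ P ∨ ∃ u ∈ P, G.Adj u v}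

/-- Some cluster of `K` is infinite and stays in `A`. -/
def infInside (G : SimpleGraph V) (A : Set V) (K : Finset V) : Set (Config G) :=
  ⋃ x ∈ K, infAt G x ∩ {ω | ∀ z, (openGraph G ω).Reachable x z → z ∈ A}

/-- Some cluster of `K` leaves `P` and all are finite. -/
def leaveFinite (G : SimpleGraph V) (P : Set V) (K : Finset V) : Set (Config G) :=
  (⋃ x ∈ K, Zd.arm G P x) \ ⋃ x ∈ K, infAt G x

theorem inner_subset {P : Set V} {K : Finset V} {ω : Config G} : inner G P K ω ⊆ P := by
  rintro y ⟨x, -, w, hw⟩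
  exact hw y w.end_mem_support

theorem mem_inner_of_adj {P : Set V} {K : Finset V} {ω : Config G} {y v : V}
    (hy : y ∈ inner G P K ω) (h : (openGraph G ω).Adj y v) (hv : v ∈ P) :
    v ∈ inner G P K ω := by
  obtain ⟨x, hx, w, hw⟩ := hy
  refine ⟨x, hx, w.concat h, fun z hz => ?_⟩
  rw [SimpleGraph.Walk.support_concat] at hz
  simp only [List.concat_eq_append, List.mem_append, List.mem_singleton] at hz
  rcases hz with hz | hz
  · exact hw z hz
  · exact hz ▸ hv

/-- Changing an edge with no end in the explored set changes nothing. -/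
theorem inner_congr_subset {P : Set V} {K : Finset V} {ω ω' : Config G}
    (h : ∀ e : G.edgeSet, (∃ v ∈ (e : Sym2 V), v ∈ inner G P K ω) → ω e = ω' e) :
    inner G P K ω ⊆ inner G P K ω' := by
  rintro y ⟨x, hx, w, hw⟩
  suffices H : ∀ {a b : V} (w : (openGraph G ω).Walk a b), (∀ z ∈ w.support, z ∈ P) →
      a ∈ inner G P K ω → a ∈ inner G P K ω' → b ∈ inner G P K ω' by
    refine H w hw ⟨x, hx, .nil, fun z hz => ?_⟩ ⟨x, hx, .nil, fun z hz => ?_⟩ <;>
    · rw [SimpleGraph.Walk.support_nil, List.mem_singleton] at hz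
      exact hz ▸ hw x w.start_mem_support
  intro a b w
  induction w with
  | nil => intro _ _ h'; exact h'
  | @cons a c b hac w ih =>
    intro hs ha ha'
    have hc : c ∈ P := hs c (List.mem_cons_of_mem _ w.start_mem_support)
    have hac' : (openGraph G ω').Adj a c := by
      obtain ⟨hG, ho⟩ := hac
      exact ⟨hG, by rw [← h _ ⟨a, Sym2.mem_mk_left a c, ha⟩]; exact ho⟩
    exact ih (fun z hz => hs z (List.mem_cons_of_mem _ hz)) (mem_inner_of_adj ha hac hc)
      (mem_inner_of_adj ha' hac' hc)

theorem exits_congr {P : Set V} {K : Finset V} {ω ω' : Config G}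
    (h : ∀ e : G.edgeSet, (∃ v ∈ (e : Sym2 V), v ∈ inner G P K ω) → ω e = ω' e) :
    inner G P K ω' = inner G P K ω ∧ exits G P K ω' = exits G P K ω := by
  have hsub : inner G P K ω ⊆ inner G P K ω' := inner_congr_subset h
  have hsup : inner G P K ω' ⊆ inner G P K ω := by
    rintro y ⟨x, hx, w, hw⟩
    suffices H : ∀ {a b : V} (w : (openGraph G ω').Walk a b), (∀ z ∈ w.support, z ∈ P) →
        a ∈ inner G P K ω → b ∈ inner G P K ω by
      refine H w hw ⟨x, hx, .nil, fun z hz => ?_⟩
      rw [SimpleGraph.Walk.support_nil, List.mem_singleton] at hz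
      exact hz ▸ hw x w.start_mem_support
    intro a b w
    induction w with
    | nil => intro _ h'; exact h'
    | @cons a c b hac w ih =>
      intro hs ha
      have hc : c ∈ P := hs c (List.mem_cons_of_mem _ w.start_mem_support)
      have hac' : (openGraph G ω).Adj a c := by
        obtain ⟨hG, ho⟩ := hac
        exact ⟨hG, by rw [h _ ⟨a, Sym2.mem_mk_left a c, ha⟩]; exact ho⟩
      exact ih (fun z hz => hs z (List.mem_cons_of_mem _ hz)) (mem_inner_of_adj ha hac' hc)
  have he : inner G P K ω' = inner G P K ω := hsup.antisymm hsub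
  refine ⟨he, Set.ext fun z => and_congr_right fun _ => ?_⟩
  rw [he]
  constructor
  · rintro ⟨y, hy, hG, ho⟩
    exact ⟨y, hy, hG, by rw [h _ ⟨y, Sym2.mem_mk_left y z, hy⟩]; exact ho⟩
  · rintro ⟨y, hy, hG, ho⟩
    exact ⟨y, hy, hG, by rw [← h _ ⟨y, Sym2.mem_mk_left y z, hy⟩]; exact ho⟩

/-- The edge is closed unless it enters the explored set. -/
def cutAt (G : SimpleGraph V) (P : Set V) (K : Finset V) (e : G.edgeSet) : Set (Config G) :=
  {ω | ω e = false ∨ ∃ v ∈ (e : Sym2 V), v ∈ inner G P K ω}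

/-- With all edges at the exits cut, the clusters of `K` stay within the exits and `P`. -/
theorem reach_subset_of_cut {P : Set V} {K : Finset V} (hK : ∀ x ∈ K, x ∈ P) {ω : Config G}
    (hcut : ∀ e : G.edgeSet, (∃ z ∈ (e : Sym2 V), z ∈ exits G P K ω) → ω ∈ cutAt G P K e)
    {x z : V} (hx : x ∈ K) (hz : (openGraph G ω).Reachable x z) :
    z ∈ inner G P K ω ∨ z ∈ exits G P K ω := by
  obtain ⟨w⟩ := hz
  suffices H : ∀ {a b : V}, (openGraph G ω).Walk a b →
      (a ∈ inner G P K ω ∨ a ∈ exits G P K ω) → (b ∈ inner G P K ω ∨ b ∈ exits G P K ω) by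
    refine H w (Or.inl ⟨x, hx, .nil, fun y hy => ?_⟩)
    rw [SimpleGraph.Walk.support_nil, List.mem_singleton] at hy
    exact hy ▸ hK x hx
  intro a b w
  induction w with
  | nil => exact id
  | @cons a c b hac w ih =>
    intro ha
    refine ih ?_
    rcases ha with ha | ha
    · by_cases hc : c ∈ P
      · exact Or.inl (mem_inner_of_adj ha hac hc)
      · exact Or.inr ⟨hc, a, ha, hac⟩
    · obtain ⟨hG, ho⟩ := hac
      rcases hcut ⟨s(a, c), hG⟩ ⟨a, Sym2.mem_mk_left a c, ha⟩ with hf | ⟨v, hv, hvi⟩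
      · rw [ho] at hf; exact Bool.noConfusion hf
      · rcases Sym2.mem_iff.1 hv with rfl | rfl
        · exact absurd (inner_subset hvi) ha.1
        · exact Or.inl hvi

section

variable {ι : Type} [Fintype ι] [DecidableEq V] [Countable V] {nb : V → ι → V}

theorem measurableSet_mem_inner (hl : Listing G nb) (P : Set V) (K : Finset V) (y : V) :
    MeasurableSet {ω : Config G | y ∈ inner G P K ω} := by
  have : {ω : Config G | y ∈ inner G P K ω} = ⋃ x ∈ K, Zd.reachWithin G P x y := by
    ext ω; simp [inner]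
  rw [this]
  exact MeasurableSet.biUnion (Finset.countable_toSet K) fun x _ =>
    Zd.measurableSet_reachWithin hl P x y

theorem measurableSet_mem_exits (hl : Listing G nb) (P : Set V) (K : Finset V) (z : V) :
    MeasurableSet {ω : Config G | z ∈ exits G P K ω} := by
  have : {ω : Config G | z ∈ exits G P K ω}
      = ⋃ y, ⋃ hA : G.Adj y z, {_ω : Config G | z ∉ P} ∩
          ({ω : Config G | y ∈ inner G P K ω} ∩ {ω | ω ⟨s(y, z), hA⟩ = true}) := by
    ext ω
    simp only [exits, openGraph, Set.mem_ofPred_eq, Set.mem_iUnion, Set.mem_inter_iff]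
    constructor
    · rintro ⟨hz, y, hy, hA, ho⟩; exact ⟨y, hA, hz, hy, ho⟩
    · rintro ⟨y, hA, hz, hy, ho⟩; exact ⟨hz, y, hy, hA, ho⟩
  rw [this]
  exact MeasurableSet.iUnion fun y => MeasurableSet.iUnion fun hA =>
    (MeasurableSet.const _).inter
      ((measurableSet_mem_inner hl P K y).inter (Zd.measurableSet_edge _ _))

theorem measurableSet_exits_eq (hl : Listing G nb) (P : Set V) (K : Finset V) (S : Finset V) :
    MeasurableSet {ω : Config G | exits G P K ω = ↑S} := by
  have : {ω : Config G | exits G P K ω = ↑S}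
      = ⋂ z, {ω : Config G | z ∈ exits G P K ω ↔ z ∈ S} := by
    ext ω; simp [Set.ext_iff]
  rw [this]
  refine MeasurableSet.iInter fun z => ?_
  by_cases hz : z ∈ S
  · simpa [hz] using measurableSet_mem_exits hl P K z
  · rw [show {ω : Config G | z ∈ exits G P K ω ↔ z ∈ S}
        = {ω : Config G | z ∈ exits G P K ω}ᶜ by ext; simp [hz]]
    exact (measurableSet_mem_exits hl P K z).compl

theorem measurableSet_cutAt (hl : Listing G nb) (P : Set V) (K : Finset V) (e : G.edgeSet) :
    MeasurableSet (cutAt G P K e) := by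
  have : cutAt G P K e = {ω | ω e = false} ∪
      ⋃ v, ⋃ _ : v ∈ (e : Sym2 V), {ω : Config G | v ∈ inner G P K ω} := by
    ext ω; simp [cutAt]
  rw [this]
  exact (Zd.measurableSet_edge e false).union (MeasurableSet.iUnion fun v =>
    MeasurableSet.iUnion fun _ => measurableSet_mem_inner hl P K v)

/-- Cutting edges keeps an event that only looks at the explored set and its exits. -/
theorem cut_gen (hl : Listing G nb) (p : unitInterval) (P : Set V) (K : Finset V)
    (A : Set (Config G)) (hAm : MeasurableSet A)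
    (hA : ∀ ω ω', inner G P K ω' = inner G P K ω → exits G P K ω' = exits G P K ω →
      (ω' ∈ A ↔ ω ∈ A))
    (F : Finset G.edgeSet) :
    (1 - (p : ℝ)) ^ F.card * (perc G p).real A
      ≤ (perc G p).real (A ∩ ⋂ e ∈ F, cutAt G P K e) := by
  classical
  haveI : IsProbabilityMeasure (perc G p) := by unfold perc; infer_instance
  induction F using Finset.induction with
  | empty => simp
  | @insert e F he ih =>
    set N := A ∩ ⋂ i ∈ F, cutAt G P K i with hNdef
    set E := {ω : Config G | ∃ v ∈ (e : Sym2 V), v ∈ inner G P K ω} with hEdef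
    have hEm : MeasurableSet E := by
      have : E = ⋃ v, ⋃ _ : v ∈ (e : Sym2 V), {ω : Config G | v ∈ inner G P K ω} := by
        ext ω; simp [hEdef]
      rw [this]
      exact MeasurableSet.iUnion fun v => MeasurableSet.iUnion fun _ =>
        measurableSet_mem_inner hl P K v
    have hNm : MeasurableSet N := hAm.inter
      (MeasurableSet.biInter (Finset.countable_toSet F) fun i _ => measurableSet_cutAt hl P K i)
    have hset : ∀ (ω : Config G) (b : Bool) (i : G.edgeSet), i ≠ e → Zd.setEdge e b ω i = ω i :=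
      fun ω b i h => @Function.update_of_ne _ _ (_) _ _ h _ _
    have inv : ∀ ω (b : Bool), ω ∉ E → (inner G P K (Zd.setEdge e b ω) = inner G P K ω ∧
        exits G P K (Zd.setEdge e b ω) = exits G P K ω) := fun ω b hω => by
      refine exits_congr fun i hi => ?_
      have : i ≠ e := by rintro rfl; exact hω hi
      exact (hset ω b i this).symm
    have invE : ∀ ω (b : Bool), (Zd.setEdge e b ω ∉ E ↔ ω ∉ E) := by
      intro ω b
      constructor
      · intro h hω
        apply h
        have h2 := inv (Zd.setEdge e b ω) (ω e) h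
        simp only [Zd.setEdge, Function.update_idem, Function.update_eq_self] at h2
        obtain ⟨v, hv, hvi⟩ := hω
        exact ⟨v, hv, by rw [h2.1] at hvi; exact hvi⟩
      · intro h hω
        obtain ⟨v, hv, hvi⟩ := hω
        exact h ⟨v, hv, (inv ω b h).1 ▸ hvi⟩
    have hpre : Zd.setEdge e false ⁻¹' (N \ E) = N \ E := by
      ext ω
      simp only [Set.mem_preimage, Set.mem_sdiff, invE]
      refine and_congr_left fun hω => ?_
      obtain ⟨h1, h2⟩ := inv ω false hω
      simp only [hNdef, Set.mem_inter_iff, hA ω _ h1 h2, Set.mem_iInter, cutAt, Set.mem_ofPred_eq, h1]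
      refine and_congr_right fun _ => forall₂_congr fun i hi => ?_
      have : i ≠ e := fun h => he (h ▸ hi)
      rw [hset ω false i this]
    have hfac := Zd.measure_inter_edge p e false (hNm.diff hEm)
    rw [hpre] at hfac
    have hb : ((bernoulliMeasure true false p) {false}).toReal = 1 - (p : ℝ) := by
      rw [← measureReal_def]; simp
    have h1 : (perc G p).real ((N \ E) ∩ {ω | ω e = false})
        = (1 - (p : ℝ)) * (perc G p).real (N \ E) := by
      simp only [measureReal_def, hfac, ENNReal.toReal_mul, hb]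
    have hsplit : (perc G p).real N = (perc G p).real (N ∩ E) + (perc G p).real (N \ E) :=
      (measureReal_inter_add_sdiff hEm (measure_ne_top _ _)).symm
    have htarget : (N ∩ E) ∪ ((N \ E) ∩ {ω | ω e = false})
        ⊆ A ∩ ⋂ i ∈ insert e F, cutAt G P K i := by
      rintro ω (⟨hN, hE⟩ | ⟨⟨hN, -⟩, hc⟩)
      · exact ⟨hN.1, Set.mem_iInter₂.2 fun i hi => (Finset.mem_insert.1 hi).elim
          (fun h => h ▸ Or.inr hE) (Set.mem_iInter₂.1 hN.2 i)⟩
      · exact ⟨hN.1, Set.mem_iInter₂.2 fun i hi => (Finset.mem_insert.1 hi).elim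
          (fun h => h ▸ Or.inl hc) (Set.mem_iInter₂.1 hN.2 i)⟩
    have hdis : Disjoint (N ∩ E) ((N \ E) ∩ {ω | ω e = false}) :=
      Set.disjoint_left.2 fun ω h h' => h'.1.2 h.2
    have h2 := measureReal_union (μ := perc G p) hdis
      ((hNm.diff hEm).inter (Zd.measurableSet_edge e false))
    refine le_trans ?_ (measureReal_mono htarget (measure_ne_top _ _))
    rw [h2, h1, Finset.card_insert_of_notMem he, pow_succ']
    have hq0 : 0 ≤ 1 - (p : ℝ) := sub_nonneg.2 p.2.2
    have hq1 : 1 - (p : ℝ) ≤ 1 := by linarith [p.2.1]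
    have hIE : 0 ≤ (perc G p).real (N ∩ E) := measureReal_nonneg
    calc (1 - (p : ℝ)) * (1 - (p : ℝ)) ^ F.card * _
        = (1 - (p : ℝ)) * ((1 - (p : ℝ)) ^ F.card * _) := by ring
      _ ≤ (1 - (p : ℝ)) * (perc G p).real N := mul_le_mul_of_nonneg_left ih hq0
      _ ≤ _ := by rw [hsplit, mul_add]; nlinarith

/-- Cutting off one given set of exits. -/
theorem cut_one (hl : Listing G nb) (p : unitInterval) (P : Set V) (K : Finset V)
    (S : Finset V) (F : Finset G.edgeSet) :
    (1 - (p : ℝ)) ^ F.card * (perc G p).real {ω | exits G P K ω = ↑S}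
      ≤ (perc G p).real ({ω | exits G P K ω = ↑S} ∩ ⋂ e ∈ F, cutAt G P K e) :=
  cut_gen hl p P K _ (measurableSet_exits_eq hl P K S)
    (fun ω ω' _ h => by simp [h]) F

/-- Few exits, at the price of one cut. -/
theorem exits_few_bound (hl : Listing G nb) (p : unitInterval) (P : Set V) (K : Finset V)
    (hK : ∀ x ∈ K, x ∈ P) (t : ℕ) :
    (1 - (p : ℝ)) ^ (Fintype.card ι * t) * (perc G p).real
        {ω | (exits G P K ω).Nonempty ∧ (exits G P K ω).encard ≤ t}
      ≤ (perc G p).real (leaveFinite G P K) + (perc G p).real (infInside G (nearby G P) K) := by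
  classical
  haveI : IsProbabilityMeasure (perc G p) := by unfold perc; infer_instance
  set μ := perc G p
  have hq0 : 0 ≤ 1 - (p : ℝ) := sub_nonneg.2 p.2.2
  let idx := {S : Finset V // S.Nonempty ∧ S.card ≤ t}
  let cutE : Finset V → Finset G.edgeSet := fun S =>
    (S ×ˢ (Finset.univ : Finset ι)).image fun q =>
      (⟨s(q.1, nb q.1 q.2), (SimpleGraph.mem_edgeSet _).2 (hl.adj_nb q.1 q.2)⟩ : G.edgeSet)
  let B : idx → Set (Config G) := fun S =>
    {ω | exits G P K ω = ↑S.1} ∩ ⋂ e ∈ cutE S.1, cutAt G P K e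
  have hBm : ∀ S, MeasurableSet (B S) := fun S => (measurableSet_exits_eq hl P K _).inter
    (MeasurableSet.biInter (Finset.countable_toSet _) fun i _ => measurableSet_cutAt hl P K i)
  have hsub : (⋃ S, B S) ⊆ leaveFinite G P K ∪ infInside G (nearby G P) K := by
    intro ω hω
    obtain ⟨S, hS, hcut⟩ := Set.mem_iUnion.1 hω
    have hreach : ∀ x ∈ K, ∀ z, (openGraph G ω).Reachable x z →
        z ∈ inner G P K ω ∨ z ∈ exits G P K ω := fun x hx z hz => by
      refine reach_subset_of_cut hK (fun e ⟨v, hv, hve⟩ => ?_) hx hz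
      rw [show exits G P K ω = ↑S.1 from hS, Finset.mem_coe] at hve
      obtain ⟨u, hu⟩ := Sym2.mem_iff_exists.1 hv
      have hA : G.Adj v u := by
        have := e.2
        rwa [hu, SimpleGraph.mem_edgeSet] at this
      obtain ⟨i, rfl⟩ := (hl.adj v u).1 hA
      exact Set.mem_iInter₂.1 hcut e (Finset.mem_image.2
        ⟨(v, i), Finset.mem_product.2 ⟨hve, Finset.mem_univ _⟩, Subtype.ext hu.symm⟩)
    by_cases hinf : ∃ x ∈ K, ω ∈ infAt G x
    · obtain ⟨x, hx, hxi⟩ := hinf
      refine Or.inr (Set.mem_iUnion₂.2 ⟨x, hx, hxi, fun z hz => ?_⟩)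
      rcases hreach x hx z hz with h | ⟨-, y, hy, hA, -⟩
      · exact Or.inl (inner_subset h)
      · exact Or.inr ⟨y, inner_subset hy, hA⟩
    · obtain ⟨z, hz⟩ := S.2.1
      have hz' : z ∈ exits G P K ω := by rw [show exits G P K ω = ↑S.1 from hS]; exact hz
      obtain ⟨hzP, y, ⟨x, hx, w, -⟩, hA⟩ := hz'
      refine Or.inl ⟨Set.mem_iUnion₂.2 ⟨x, hx, z, hzP, w.reachable.trans hA.reachable⟩, ?_⟩
      simpa using hinf
  have hdis : Pairwise (Function.onFun Disjoint B) := fun S S' hne =>
    Set.disjoint_left.2 fun ω h h' =>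
      hne (Subtype.ext (Finset.coe_injective (h.1.symm.trans h'.1)))
  have hfew : {ω | (exits G P K ω).Nonempty ∧ (exits G P K ω).encard ≤ t}
      = ⋃ S : idx, {ω | exits G P K ω = ↑S.1} := by
    ext ω
    simp only [Set.mem_ofPred_eq, Set.mem_iUnion]
    constructor
    · rintro ⟨hne, hle⟩
      have hfin : (exits G P K ω).Finite := Set.finite_of_encard_le_coe hle
      refine ⟨⟨hfin.toFinset, by simpa using hne, ?_⟩, by simp⟩
      rw [hfin.encard_eq_coe_toFinset_card] at hle
      exact_mod_cast hle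
    · rintro ⟨S, hS⟩
      rw [hS, Set.encard_coe_eq_coe_finsetCard]
      exact ⟨Finset.coe_nonempty.2 S.2.1, by exact_mod_cast S.2.2⟩
  have key : ∀ S : idx, ENNReal.ofReal ((1 - (p : ℝ)) ^ (Fintype.card ι * t)) *
      μ {ω | exits G P K ω = ↑S.1} ≤ μ (B S) := by
    intro S
    have h := cut_one hl p P K S.1 (cutE S.1)
    have hc : (cutE S.1).card ≤ Fintype.card ι * t := by
      refine Finset.card_image_le.trans ?_
      rw [Finset.card_product, Finset.card_univ, Nat.mul_comm]
      exact Nat.mul_le_mul le_rfl S.2.2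
    have h2 : (1 - (p : ℝ)) ^ (Fintype.card ι * t) * μ.real {ω | exits G P K ω = ↑S.1}
        ≤ μ.real (B S) := le_trans
      (mul_le_mul_of_nonneg_right (pow_le_pow_of_le_one hq0 (by linarith [p.2.1]) hc)
        measureReal_nonneg) h
    rw [← ofReal_measureReal (μ := μ) (measure_ne_top _ _), ← ENNReal.ofReal_mul (pow_nonneg hq0 _),
      ← ofReal_measureReal (μ := μ) (s := B S) (measure_ne_top _ _)]
    exact ENNReal.ofReal_le_ofReal h2
  have main : ENNReal.ofReal ((1 - (p : ℝ)) ^ (Fintype.card ι * t)) *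
      μ {ω | (exits G P K ω).Nonempty ∧ (exits G P K ω).encard ≤ t} ≤ μ (⋃ S, B S) := by
    rw [hfew, measure_iUnion hdis hBm]
    calc _ ≤ ENNReal.ofReal _ * ∑' S : idx, μ {ω | exits G P K ω = ↑S.1} :=
          mul_le_mul' le_rfl (measure_iUnion_le _)
      _ ≤ _ := by rw [← ENNReal.tsum_mul_left]; exact ENNReal.tsum_le_tsum key
  have main' := ENNReal.toReal_mono (measure_ne_top _ _) main
  rw [ENNReal.toReal_mul, ENNReal.toReal_ofReal (pow_nonneg hq0 _)] at main'
  exact main'.trans ((measureReal_mono hsub (measure_ne_top _ _)).trans (measureReal_union_le _ _))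

/-- Many exits from a large region. -/
theorem many_exits (hl : Listing G nb) (p : unitInterval) (hp : (p : ℝ) < 1) (K : Finset V)
    (P : ℕ → Set V) (hmono : Monotone P) (hcover : ∀ v, ∃ n, v ∈ P n)
    (hnull : ∀ n, perc G p (infInside G (nearby G (P n)) K) = 0) (t : ℕ) {η : ℝ} (hη : 0 < η) :
    ∃ n0, ∀ n, n0 ≤ n → (perc G p).real {ω | (exits G (P n) K ω).encard ≤ t}
      ≤ (perc G p).real (⋃ x ∈ K, infAt G x)ᶜ + η := by
  classical
  haveI : IsProbabilityMeasure (perc G p) := by unfold perc; infer_instance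
  set μ := perc G p
  have hev : ∀ S : Finset V, ∃ n1, ∀ n, n1 ≤ n → ∀ x ∈ S, x ∈ P n := by
    intro S
    choose f hf using hcover
    exact ⟨S.sup f, fun n hn x hx => hmono ((Finset.le_sup hx).trans hn) (hf x)⟩
  obtain ⟨n1, hn1⟩ := hev K
  have hm : ∀ n, MeasurableSet (leaveFinite G (P n) K) := fun n =>
    (MeasurableSet.biUnion (Finset.countable_toSet _) fun x _ => by
      rw [Zd.arm_eq]
      exact MeasurableSet.iUnion fun z => MeasurableSet.iUnion fun _ =>
        measurableSet_reach hl x z).diff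
    (MeasurableSet.biUnion (Finset.countable_toSet _) fun x _ => measurableSet_infAt hl x)
  have hanti : Antitone fun n => leaveFinite G (P n) K := fun a b hab =>
    Set.sdiff_subset_sdiff_left (Set.iUnion₂_mono fun x _ ω ⟨z, hz, hr⟩ =>
      ⟨z, fun h => hz (hmono hab h), hr⟩)
  have hempty : (⋂ n, leaveFinite G (P n) K) = ∅ := by
    refine Set.eq_empty_iff_forall_notMem.2 fun ω hω => ?_
    rw [Set.mem_iInter] at hω
    have hfin : ∀ x ∈ K, {z | (openGraph G ω).Reachable x z}.Finite := fun x hx => by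
      refine Set.not_infinite.1 fun hi => (hω 0).2 ?_
      exact Set.mem_iUnion₂.2 ⟨x, hx, hi⟩
    set U : Set V := ⋃ x ∈ K, {z | (openGraph G ω).Reachable x z}
    have hU : U.Finite := K.finite_toSet.biUnion hfin
    obtain ⟨n2, hn2⟩ := hev hU.toFinset
    obtain ⟨x, hx, z, hz, hr⟩ := Set.mem_iUnion₂.1 (hω n2).1
    exact hz (hn2 n2 le_rfl z (hU.mem_toFinset.2 (Set.mem_iUnion₂.2 ⟨x, hx, hr⟩)))
  have hlim : Tendsto (fun n => μ.real (leaveFinite G (P n) K)) atTop (𝓝 0) := by
    have := tendsto_measure_iInter_atTop (μ := μ) (fun n => (hm n).nullMeasurableSet) hanti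
      ⟨0, measure_ne_top _ _⟩
    rw [hempty, measure_empty] at this
    exact (ENNReal.tendsto_toReal ENNReal.zero_ne_top).comp this
  have hc : 0 < (1 - (p : ℝ)) ^ (Fintype.card ι * t) := pow_pos (sub_pos.2 hp) _
  obtain ⟨n2, hn2⟩ := eventually_atTop.1 (hlim.eventually (eventually_le_nhds (mul_pos hc hη)))
  refine ⟨max n1 n2, fun n hn => ?_⟩
  have hb := exits_few_bound hl p (P n) K (hn1 n (le_of_max_le_left hn)) t
  have h0 : μ.real (infInside G (nearby G (P n)) K) = 0 := by
    rw [measureReal_def, hnull n, ENNReal.toReal_zero]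
  rw [h0, add_zero] at hb
  have hfew := le_of_mul_le_mul_left (hb.trans (hn2 n (le_of_max_le_right hn))) hc
  have hsub : {ω | (exits G (P n) K ω).encard ≤ t} ⊆
      ((⋃ x ∈ K, infAt G x)ᶜ ∪ infInside G (nearby G (P n)) K) ∪
        {ω | (exits G (P n) K ω).Nonempty ∧ (exits G (P n) K ω).encard ≤ t} := by
    intro ω hω
    by_cases hne : (exits G (P n) K ω).Nonempty
    · exact Or.inr ⟨hne, hω⟩
    refine Or.inl ?_
    by_cases hinf : ∃ x ∈ K, ω ∈ infAt G x
    · obtain ⟨x, hx, hxi⟩ := hinf
      refine Or.inr (Set.mem_iUnion₂.2 ⟨x, hx, hxi, fun z hz => ?_⟩)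
      rcases reach_subset_of_cut (hn1 n (le_of_max_le_left hn))
        (fun e ⟨v, _, hve⟩ => absurd ⟨v, hve⟩ hne) hx hz with h | h
      · exact Or.inl (inner_subset h)
      · exact absurd ⟨z, h⟩ hne
    · exact Or.inl (by simpa using hinf)
  refine (measureReal_mono hsub (measure_ne_top _ _)).trans ?_
  refine (measureReal_union_le _ _).trans (add_le_add ?_ hfew)
  refine (measureReal_union_le _ _).trans ?_
  rw [h0, add_zero]

end

end Vale.Agent.P151.Zt
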