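import Mathlib

/-!
# Filling the pockets of a set

With a position in the plane: the filling of `P` consists of the vertices without a short walk
avoiding `P` to a vertex at distance more than `D` from `P`. Walks that climb by translations
show that escapes can be continued to any prescribed integer shift.
-/

namespace Vale.Agent.P151.Zt

variable {V : Type} {G : SimpleGraph V}

/-- The vertices whose position is within `D` of the position of a vertex of `P`. -/
def thicken (pos : V → ℝ × ℝ) (D : ℝ) (P : Set V) : Set V :=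
  {x | ∃ y ∈ P, |(pos x).1 - (pos y).1| ≤ D ∧ |(pos x).2 - (pos y).2| ≤ D}

/-- The filling of `P`. -/
def fill (G : SimpleGraph V) (pos : V → ℝ × ℝ) (D : ℝ) (Lp : ℕ) (P : Set V) : Set V :=
  {x | ¬ ∃ (z : V) (w : G.Walk x z),
    w.length ≤ Lp ∧ (∀ y ∈ w.support, y ∉ P) ∧ z ∉ thicken pos D P}

variable {pos : V → ℝ × ℝ} {D : ℝ} {Lp : ℕ} {P P' : Set V}

theorem fill_mono (h : P ⊆ P') : fill G pos D Lp P ⊆ fill G pos D Lp P' := by
  rintro x hx ⟨z, w, hl, hw, hz⟩
  exact hx ⟨z, w, hl, fun y hy hy' => hw y hy (h hy'),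
    fun ⟨y, hy, hd⟩ => hz ⟨y, h hy, hd⟩⟩

theorem subset_fill (P : Set V) : P ⊆ fill G pos D Lp P :=
  fun _ hx ⟨_, w, _, hw, _⟩ => hw _ w.start_mem_support hx

theorem fill_subset_thicken (hD : 0 ≤ D) (P : Set V) :
    fill G pos D Lp P ⊆ thicken pos D P := by
  intro x hx
  by_contra h
  refine hx ⟨x, .nil, Nat.zero_le _, fun y hy hyP => h ?_, h⟩
  rw [SimpleGraph.Walk.support_nil, List.mem_singleton] at hy
  exact ⟨x, hy ▸ hyP, by simpa using hD, by simpa using hD⟩

/-- A short walk avoiding `P` to a far vertex avoids the filling. -/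
theorem notMem_fill_of_walk {x z : V} (w : G.Walk x z) (hl : w.length ≤ Lp)
    (hw : ∀ y ∈ w.support, y ∉ P) (hz : z ∉ thicken pos D P) :
    ∀ y ∈ w.support, y ∉ fill G pos D Lp P := by
  classical
  exact fun y hy hp => hp ⟨z, w.dropUntil y hy, (w.length_dropUntil_le_length hy).trans hl,
    fun u hu => hw u (w.support_dropUntil_subset_support hy hu), hz⟩

/-- Outside the filling a short walk avoiding it escapes. -/
theorem exists_escape {x : V} (hx : x ∉ fill G pos D Lp P) :
    ∃ (z : V) (w : G.Walk x z), w.length ≤ Lp ∧ (∀ y ∈ w.support, y ∉ fill G pos D Lp P) ∧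
      z ∉ thicken pos D P := by
  simp only [fill, Set.mem_ofPred_eq, not_not] at hx
  obtain ⟨z, w, hl, hw, hz⟩ := hx
  exact ⟨z, w, hl, notMem_fill_of_walk w hl hw hz, hz⟩

/-- An integer point of the plane. -/
def shift (m : ℤ × ℤ) : ℝ × ℝ := ((m.1 : ℝ), (m.2 : ℝ))

variable (pos)

/-- Translations give walks to every shift; repeated, they climb along a segment. -/
theorem exists_climb_shift (hconn : G.Connected) (R : Finset V)
    (hR : ∀ v, ∃ (φ : G ≃g G) (n : ℤ × ℤ), (∀ x, pos (φ x) = pos x + shift n) ∧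
      ∃ r ∈ R, φ r = v)
    (hplane : ∀ n : ℤ × ℤ, ∃ φ : G ≃g G, ∀ x, pos (φ x) = pos x + shift n) (m : ℤ × ℤ) :
    ∃ (D : ℝ) (L : ℕ), 0 ≤ D ∧ ∀ (x : V) (j : ℕ), ∃ (z : V) (w : G.Walk x z),
      w.length ≤ j * L ∧ pos z = pos x + (j : ℝ) • shift m ∧ ∀ y ∈ w.support, ∃ i : ℕ, i ≤ j ∧
        |(pos y).1 - ((pos x).1 + i * (m.1 : ℝ))| ≤ D ∧
        |(pos y).2 - ((pos x).2 + i * (m.2 : ℝ))| ≤ D := by
  classical
  obtain ⟨ψ, hψ⟩ := hplane m
  let w : ∀ r : V, G.Walk r (ψ r) := fun r => (hconn.preconnected r (ψ r)).some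
  let dev : V → ℝ := fun r =>
    ((w r).support.map fun y => |(pos y).1 - (pos r).1| + |(pos y).2 - (pos r).2|).sum
  have hdev : ∀ r, 0 ≤ dev r := fun r => List.sum_nonneg fun _ hx => by
    obtain ⟨y, -, rfl⟩ := List.mem_map.1 hx
    exact add_nonneg (abs_nonneg _) (abs_nonneg _)
  set D : ℝ := ∑ r ∈ R, dev r with hD
  set L : ℕ := ∑ r ∈ R, (w r).length with hL
  have hD0 : 0 ≤ D := Finset.sum_nonneg fun r _ => hdev r
  have one : ∀ x, ∃ (z : V) (u : G.Walk x z), u.length ≤ L ∧ pos z = pos x + shift m ∧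
      ∀ y ∈ u.support, |(pos y).1 - (pos x).1| ≤ D ∧ |(pos y).2 - (pos x).2| ≤ D := by
    intro x
    obtain ⟨φ, n, hn, r, hr, rfl⟩ := hR x
    refine ⟨φ (ψ r), (w r).map φ.toHom, ?_, ?_, fun y hy => ?_⟩
    · rw [SimpleGraph.Walk.length_map]
      exact Finset.single_le_sum (f := fun r => (w r).length) (fun _ _ => Nat.zero_le _) hr
    · rw [hn, hn, hψ]; abel
    · rw [SimpleGraph.Walk.support_map] at hy
      obtain ⟨u, hu, rfl⟩ := List.mem_map.1 hy
      have h1 : |(pos u).1 - (pos r).1| + |(pos u).2 - (pos r).2| ≤ dev r :=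
        List.single_le_sum (l := (w r).support.map fun y =>
            |(pos y).1 - (pos r).1| + |(pos y).2 - (pos r).2|)
          (fun _ hx => by
            obtain ⟨y, -, rfl⟩ := List.mem_map.1 hx
            exact add_nonneg (abs_nonneg _) (abs_nonneg _)) _ (List.mem_map.2 ⟨u, hu, rfl⟩)
      have h2 : dev r ≤ D := Finset.single_le_sum (fun r _ => hdev r) hr
      change |(pos (φ u)).1 - (pos (φ r)).1| ≤ D ∧ |(pos (φ u)).2 - (pos (φ r)).2| ≤ D
      rw [hn, hn]
      simp only [Prod.fst_add, Prod.snd_add, add_sub_add_right_eq_sub]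
      constructor <;>
        linarith [abs_nonneg ((pos u).1 - (pos r).1), abs_nonneg ((pos u).2 - (pos r).2)]
  refine ⟨D, L, hD0, fun x j => ?_⟩
  induction j with
  | zero =>
    refine ⟨x, .nil, by simp, by simp, fun y hy => ⟨0, le_rfl, ?_⟩⟩
    rw [SimpleGraph.Walk.support_nil, List.mem_singleton] at hy
    subst hy
    simpa using hD0
  | succ j ih =>
    obtain ⟨z, u, hlu, hz, hu⟩ := ih
    obtain ⟨z', u', hlu', hz', hu'⟩ := one z
    refine ⟨z', u.append u', ?_, ?_, fun y hy => ?_⟩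
    · rw [SimpleGraph.Walk.length_append, add_mul, one_mul]
      omega
    · rw [hz', hz]
      push_cast
      rw [add_smul, one_smul, add_assoc]
    · rcases (u.mem_support_append_iff u').1 hy with hy | hy
      · obtain ⟨i, hi, h⟩ := hu y hy
        exact ⟨i, hi.trans (Nat.le_succ j), h⟩
      · refine ⟨j, Nat.le_succ j, ?_⟩
        simpa [hz, shift] using hu' y hy

end Vale.Agent.P151.Zt
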