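import Vale.Agent.P151.Zt.Compose
import Vale.Agent.P151.Zt.Conclude

/-!
# No percolation at the critical point of a graph with a chart

The finitely many likely events of the finite criterion are continuous in the parameter, so the
criterion, and with it percolation, survives a small decrease of the parameter.
-/

open Finset MeasureTheory ProbabilityTheory

namespace Vale.Agent.P151.Zt

open Glue0 Vale.Agent.P165

variable {V ι : Type} [Fintype ι] {G : SimpleGraph V} {nb : V → ι → V}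

/-- Percolation needs a positive parameter. -/
theorem pos_of_infAt (hl : Listing G nb) {q : unitInterval} {x : V}
    (h : 0 < perc G q (infAt G x)) : 0 < (q : ℝ) := by
  classical
  rcases q.2.1.eq_or_lt with h0 | h0
  · refine absurd (measure_mono_null (t := ⋃ a, openOn G {s(x, nb x a)})
      (fun ω hω => ?_) (measure_iUnion_null fun a => ?_)) h.ne'
    · obtain ⟨u, hu, hne⟩ := Set.Infinite.exists_notMem_finset hω {x}
      obtain ⟨w⟩ := hu
      cases w with
      | nil => simp at hne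
      | cons hab _ =>
        obtain ⟨hG, hw⟩ := hab
        obtain ⟨a, rfl⟩ := (hl.adj _ _).1 hG
        refine Set.mem_iUnion.2 ⟨a, fun e he => ?_⟩
        have : e = ⟨s(x, nb x a), hG⟩ := Subtype.ext (mem_singleton.1 he)
        rw [this]
        exact hw
    · have h' := real_openOn (G := G) q (S := {s(x, nb x a)})
        (by simpa using hl.adj_nb x a)
      rw [card_singleton, pow_one, ← h0, measureReal_def, ENNReal.toReal_eq_zero_iff] at h'
      exact h'.resolve_right (measure_ne_top _ _)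
  · exact h0

/-- The hop error is small when the expected number of open seeds among `M` is of order `L`. -/
theorem hopErr_le {M : ℕ} {π δ L : ℝ} (hπ : π ≤ 1) (hδ : 0 ≤ δ) (h1 : L ≤ M * π)
    (h2 : M * π ≤ 2 * L + 1) :
    hopErr M π π δ 3 ≤ Real.exp (-L) + δ * (6 * L + 4) := by
  have h3 : (1 - π) ^ M ≤ Real.exp (-L) := by
    refine le_trans ?_ (Real.exp_le_exp.2 (neg_le_neg h1))
    rw [← mul_neg, Real.exp_nat_mul]
    refine pow_le_pow_left₀ (sub_nonneg.2 hπ) ?_ _
    have := Real.add_one_le_exp (-π)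
    linarith
  have h4 : (M : ℝ) * π * δ ≤ (2 * L + 1) * δ := mul_le_mul_of_nonneg_right h2 hδ
  unfold hopErr
  push_cast
  nlinarith

/-- A finite criterion at `p` holds at all parameters in some interval ending at `p`, with the
error doubled. -/
theorem steer_open [DecidableEq V] {Ch : Chart G} {C : Cut Ch} {p : unitInterval}
    (hp : 0 < (p : ℝ)) {K : Finset V} {M : ℕ} {ε : ℝ} (hε : 0 < ε) {t s : ℝ × ℝ} {T : ℕ}
    (h : Steer C (p : ℝ) K M ε t s T) :
    ∃ q : unitInterval, 0 < (q : ℝ) ∧ (q : ℝ) < p ∧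
      ∀ q' : unitInterval, q ≤ q' → Steer C (q' : ℝ) K M (2 * ε) t s T := by
  classical
  set P : ℤ → Set V := fun d => C.cyl t s T T (40 - min (0 : ℝ) d) (40 + max (0 : ℝ) d) with hP
  set Side : ℤ → Set V := fun d => {v | v ∉ C.side t T ∧ |lin Ch.pos s v - d| ≤ 2} with hSide
  have h' : ∀ d ∈ Finset.Icc (-150 : ℤ) 150, ∃ Λ : Finset V,
      1 - ε ≤ Pr (fun _ : WE G Λ => (p : ℝ)) (hitEv G Λ (P d) (Side d) K M) := fun d hd =>
    h d (abs_le.2 (Finset.mem_Icc.1 hd))
  choose! Λ hΛ using h'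
  obtain ⟨q, hq0, hqp, hq⟩ := Zd.exists_lt_preserving (G := G) (Finset.Icc (-150 : ℤ) 150)
    (fun d => (Λ d).sym2) (fun d => wEv G (Λ d) (hitEv G (Λ d) (P d) (Side d) K M))
    (fun d _ => dependsOn_wEv _) (fun _ => 1 - 2 * ε) p hp
    (fun d hd => by rw [perc_wEv]; linarith [hΛ d hd])
  refine ⟨q, hq0, hqp, fun q' hqq' d hd => ?_⟩
  have hd' : d ∈ Finset.Icc (-150 : ℤ) 150 := Finset.mem_Icc.2 (abs_le.1 hd)
  have h1 := hq d hd'
  rw [perc_wEv] at h1
  refine ⟨Λ d, h1.le.trans (Pr_weights_mono (fun _ => q.2) (fun _ => q'.2)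
    (fun _ => hqq') (hitEv_upper ..))⟩

/-- The criterion at `pc` with all error bounds gives percolation below `pc`: there is none. -/
theorem critical_of_criterion (hl : Listing G nb) (hc : G.Connected) (Ch : Chart G)
    (hseed : ∀ K : Finset V, Ch.o ∈ K → Nonempty (Seeding Ch K))
    (hsteer : ∀ p : unitInterval, 0 < (p : ℝ) → (p : ℝ) < 1 → 0 < perc G p (hasInfinite G) →
      ∀ ε > (0 : ℝ), ∃ K : Finset V, Ch.o ∈ K ∧ ∀ (S : Seeding Ch K) (M : ℕ) (η : ℝ), 0 < η →
        ∀ T₀ : ℕ, ∃ (t s : ℝ × ℝ) (T : ℕ), IsAxis t ∧ s ≠ 0 ∧ T₀ ≤ T ∧ size s ≤ η ∧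
          Steer S.toCut (p : ℝ) K M ε t s T)
    (hbase : ∀ (K : Finset V), Ch.o ∈ K → ∀ S : Seeding Ch K,
      ∃ (D T₀ : ℕ) (η : ℝ), 0 < η ∧
        ∀ (q : unitInterval) (δ : ℝ) (M : ℕ) (t s : ℝ × ℝ) (T : ℕ), 0 < (q : ℝ) → 0 < δ → δ < 1 →
          IsAxis t → s ≠ 0 → T₀ ≤ T → size s ≤ η →
          Steer S.toCut (q : ℝ) K (D * M) (δ ^ 2) t s T →
          80000 * hopErr M ((q : ℝ) ^ S.m) ((q : ℝ) ^ S.m) δ 3 ≤ 1 →
          0 < perc G q (infAt G Ch.o))
    (hpc : pc G < 1) (p : unitInterval) (hp : (p : ℝ) = pc G) :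
    perc G p (hasInfinite G) = 0 := by
  classical
  have : Countable V := countable_of_connected hl hc
  refine (no_percolation_at_pc (fun p' o hθ => ?_) p hp).1
  -- percolation at one is also open: it is witnessed below `pc < 1` or at `p'` itself
  rcases eq_or_lt_of_le p'.2.2 with h1 | h1
  · obtain ⟨_, ⟨r, hr, rfl⟩, hrlt⟩ := exists_lt_of_csInf_lt
      (s := Subtype.val '' {p : unitInterval | 0 < perc G p (hasInfinite G)})
      ⟨_, p', hθ.trans_le (measure_mono (by
        rw [hasInfinite_eq]; exact Set.subset_iUnion (fun y => infAt G y) o)), rfl⟩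
      (show sInf _ < 1 from hpc)
    obtain ⟨y, hy⟩ : ∃ y, 0 < perc G r (infAt G y) := by
      by_contra hcon
      push Not at hcon
      refine (show 0 < perc G r (hasInfinite G) from hr).ne' ?_
      rw [hasInfinite_eq]
      exact measure_iUnion_null fun y => le_zero_iff.1 (hcon y)
    exact ⟨r, y, hrlt.trans_eq h1.symm, hy⟩
  have h0 : 0 < (p' : ℝ) := pos_of_infAt hl hθ
  have hθ' : 0 < perc G p' (hasInfinite G) := hθ.trans_le (measure_mono (by
    rw [hasInfinite_eq]; exact Set.subset_iUnion (fun y => infAt G y) o))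
  -- the confidence, then the seed, then the number of hits
  set η₀ : ℝ := 1 / 80000 with hη₀
  obtain ⟨L, hL0, hL⟩ : ∃ L : ℝ, 0 ≤ L ∧ Real.exp (-L) ≤ η₀ / 2 := by
    refine ⟨max 0 (-Real.log (η₀ / 2)), le_max_left _ _, ?_⟩
    calc Real.exp (-max 0 (-Real.log (η₀ / 2))) ≤ Real.exp (Real.log (η₀ / 2)) :=
          Real.exp_le_exp.2 (by linarith [le_max_right (0 : ℝ) (-Real.log (η₀ / 2))])
      _ = η₀ / 2 := Real.exp_log (by positivity)
  set δ : ℝ := η₀ / (2 * (6 * L + 4)) with hδdef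
  have hδ : 0 < δ := by positivity
  have hδη : δ * (6 * L + 4) = η₀ / 2 := by
    rw [hδdef]
    field_simp
  have hδ1 : δ < 1 := by nlinarith
  obtain ⟨K, hK, hsteer⟩ := hsteer p' h0 h1 hθ' (δ ^ 2 / 2) (by positivity)
  obtain ⟨S⟩ := hseed K hK
  obtain ⟨D, T₀, η, hη, hperc⟩ := hbase K hK S
  set π : ℝ := (p' : ℝ) ^ S.m with hπdef
  have hπ0 : 0 < π := pow_pos h0 _
  set M := ⌈2 * L / π⌉₊ with hM
  have hMπ : 2 * L ≤ M * π := by
    have := Nat.le_ceil (2 * L / π)
    rwa [div_le_iff₀ hπ0] at this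
  have hMπ' : M * π ≤ 2 * L + 1 := by
    have h := (Nat.ceil_lt_add_one (div_nonneg (by linarith) hπ0.le : 0 ≤ 2 * L / π)).le
    have h2 := mul_le_mul_of_nonneg_right h hπ0.le
    have h3 : π ≤ 1 := pow_le_one₀ h0.le p'.2.2
    rw [add_mul, div_mul_cancel₀ _ hπ0.ne', one_mul] at h2
    linarith
  obtain ⟨t, s, T, ht, hs, hT, hsz, hst⟩ := hsteer S (D * M) η hη T₀
  obtain ⟨q, hq0, hqp, hq⟩ := steer_open h0 (by positivity) hst
  -- a parameter so close to `p'` that a seed loses at most half its probability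
  set x : ℝ := max (q : ℝ) ((p' : ℝ) * (1 - 1 / (2 * S.m + 2))) with hx
  have hu : (1 : ℝ) / (2 * S.m + 2) ≤ 1 / 2 := by
    rw [div_le_div_iff₀ (by positivity) two_pos]
    linarith [(Nat.cast_nonneg S.m : (0 : ℝ) ≤ S.m)]
  have hu0 : 0 < (1 : ℝ) / (2 * S.m + 2) := by positivity
  have hxp : x < p' := max_lt hqp (by nlinarith)
  have hx0 : 0 < x := hq0.trans_le (le_max_left _ _)
  set q' : unitInterval := ⟨x, hx0.le, hxp.le.trans p'.2.2⟩
  have hπ' : π / 2 ≤ x ^ S.m := by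
    refine le_trans ?_ (pow_le_pow_left₀ (mul_nonneg h0.le (by linarith)) (le_max_right _ _) _)
    have h2 : (1 : ℝ) / 2 ≤ (1 - 1 / (2 * S.m + 2)) ^ S.m := by
      refine le_trans ?_ ((sub_eq_add_neg (1 : ℝ) (1 / (2 * S.m + 2))).symm ▸
        one_add_mul_le_pow (by linarith : (-2 : ℝ) ≤ -(1 / (2 * S.m + 2))) S.m)
      have : (S.m : ℝ) * (1 / (2 * S.m + 2)) ≤ 1 / 2 := by
        rw [mul_one_div, div_le_div_iff₀ (by positivity) two_pos]
        linarith
      linarith
    rw [mul_pow]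
    nlinarith
  refine ⟨q', Ch.o, hxp, hperc q' δ M t s T hx0 hδ hδ1 ht hs hT hsz ?_ ?_⟩
  · have := hq q' (le_max_left (q : ℝ) _)
    rwa [mul_div_cancel₀ _ (two_ne_zero' ℝ)] at this
  · have hle : (x : ℝ) ^ S.m ≤ π := pow_le_pow_left₀ hx0.le hxp.le _
    have := hopErr_le (M := M) (L := L) (π := x ^ S.m) (δ := δ)
      (pow_le_one₀ hx0.le (hxp.le.trans p'.2.2)) hδ.le
      (by nlinarith [(Nat.cast_nonneg M : (0 : ℝ) ≤ M)])
      (by nlinarith [(Nat.cast_nonneg M : (0 : ℝ) ≤ M)])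
    show 80000 * hopErr M (x ^ S.m) (x ^ S.m) δ 3 ≤ 1
    linarith

end Vale.Agent.P151.Zt
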