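import Mathlib

/-!
# Completing an exit by a path that stays ahead

The past of a level `c` consists of the vertices without a short walk above `c` up to a much
higher level. It lies within bounded height of `c`, and from every vertex outside it a short walk
that never enters it climbs to the higher level.
-/

namespace Vale.Agent.P151.Zt

variable {V : Type} {G : SimpleGraph V}

/-- The vertices with no walk of length at most `Lp` above `c` to the height `c + H`. -/
def past (G : SimpleGraph V) (h : V → ℝ) (c H : ℝ) (Lp : ℕ) : Set V :=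
  {x | ¬ ∃ (z : V) (w : G.Walk x z),
    w.length ≤ Lp ∧ (∀ y ∈ w.support, c < h y) ∧ c + H ≤ h z}

theorem le_subset_past (h : V → ℝ) (c H : ℝ) (Lp : ℕ) : {x | h x ≤ c} ⊆ past G h c H Lp := by
  rintro x hx ⟨z, w, -, hw, -⟩
  exact absurd (hw x w.start_mem_support) (not_lt.2 hx)

/-- Outside the past a short walk that avoids it climbs. -/
theorem exists_walk_of_notMem_past {h : V → ℝ} {c H : ℝ} {Lp : ℕ} {x : V}
    (hx : x ∉ past G h c H Lp) : ∃ (z : V) (w : G.Walk x z),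
      w.length ≤ Lp ∧ (∀ y ∈ w.support, y ∉ past G h c H Lp) ∧ c + H ≤ h z := by
  classical
  simp only [past, Set.mem_ofPred_eq, not_not] at hx
  obtain ⟨z, w, hl, hw, hz⟩ := hx
  refine ⟨z, w, hl, fun y hy hp => hp ⟨z, w.dropUntil y hy, ?_, fun u hu => ?_, hz⟩, hz⟩
  · exact (w.length_dropUntil_le_length hy).trans hl
  · exact hw u (w.support_dropUntil_subset_support hy hu)

variable (h : V → ℝ)

/-- A rising walk from every vertex, from one for each orbit. -/
theorem exists_rise (R : Finset V)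
    (hR : ∀ v, ∃ φ : G ≃g G, ∃ c : ℝ, (∀ x, h (φ x) = h x + c) ∧ ∃ r ∈ R, φ r = v)
    (hup : ∀ r ∈ R, ∃ z, G.Reachable r z ∧ h r < h z) :
    ∃ g : ℝ, 0 < g ∧ ∃ (D : ℝ) (L : ℕ), 0 ≤ D ∧ ∀ x, ∃ (z : V) (w : G.Walk x z),
      w.length ≤ L ∧ (∀ y ∈ w.support, h x - D ≤ h y) ∧ h x + g ≤ h z := by
  classical
  choose! z hz hlt using hup
  let w : ∀ r, r ∈ R → G.Walk r (z r) := fun r hr => (hz r hr).some
  let low : R → ℝ := fun r => ((w r r.2).support.map fun y => |h y - h r|).sum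
  obtain ⟨g, hg, hgr⟩ : ∃ g : ℝ, 0 < g ∧ ∀ r ∈ R, g ≤ h (z r) - h r := by
    by_cases hne : R.Nonempty
    · refine ⟨R.inf' hne fun r => h (z r) - h r, ?_, fun r hr => Finset.inf'_le _ hr⟩
      exact (Finset.lt_inf'_iff _).2 fun r hr => by linarith [hlt r hr]
    · exact ⟨1, one_pos, fun r hr => absurd ⟨r, hr⟩ hne⟩
  have hlow : ∀ r : R, 0 ≤ low r := fun r => List.sum_nonneg fun _ hx => by
    obtain ⟨y, -, rfl⟩ := List.mem_map.1 hx
    exact abs_nonneg _
  refine ⟨g, hg, ∑ r : R, low r, ∑ r : R, (w r r.2).length,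
    Finset.sum_nonneg fun r _ => hlow r, fun x => ?_⟩
  obtain ⟨φ, c, hc, r, hr, rfl⟩ := hR x
  refine ⟨φ (z r), (w r hr).map φ.toHom, ?_, fun y hy => ?_, ?_⟩
  · rw [SimpleGraph.Walk.length_map]
    exact Finset.single_le_sum (f := fun r : R => (w r r.2).length) (fun _ _ => Nat.zero_le _)
      (Finset.mem_univ (⟨r, hr⟩ : R))
  · rw [SimpleGraph.Walk.support_map] at hy
    obtain ⟨u, hu, rfl⟩ := List.mem_map.1 hy
    have h1 : |h u - h r| ≤ low ⟨r, hr⟩ :=
      List.single_le_sum (l := (w r hr).support.map fun y => |h y - h r|) (fun _ hx => by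
        obtain ⟨y, -, rfl⟩ := List.mem_map.1 hx
        exact abs_nonneg _) _ (List.mem_map.2 ⟨u, hu, rfl⟩)
    have h2 : low ⟨r, hr⟩ ≤ ∑ r : R, low r :=
      Finset.single_le_sum (fun r _ => hlow r) (Finset.mem_univ _)
    change h (φ r) - ∑ r : R, low r ≤ h (φ u)
    rw [hc, hc]
    linarith [(abs_le.1 h1).1]
  · rw [hc, hc]
    linarith [hgr r hr]

/-- Repeated rises climb as high as wanted without falling more than one rise. -/
theorem exists_climb (R : Finset V)
    (hR : ∀ v, ∃ φ : G ≃g G, ∃ c : ℝ, (∀ x, h (φ x) = h x + c) ∧ ∃ r ∈ R, φ r = v)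
    (hup : ∀ r ∈ R, ∃ z, G.Reachable r z ∧ h r < h z) :
    ∃ D : ℝ, 0 ≤ D ∧ ∀ H : ℝ, ∃ Lp : ℕ, ∀ x, ∃ (z : V) (w : G.Walk x z),
      w.length ≤ Lp ∧ (∀ y ∈ w.support, h x - D ≤ h y) ∧ h x + H ≤ h z := by
  obtain ⟨g, hg, D, L, hD, hrise⟩ := exists_rise h R hR hup
  refine ⟨D, hD, fun H => ⟨⌈H / g⌉₊ * L, fun x => ?_⟩⟩
  have key : ∀ k : ℕ, ∃ (z : V) (w : G.Walk x z),
      w.length ≤ k * L ∧ (∀ y ∈ w.support, h x - D ≤ h y) ∧ h x + k * g ≤ h z := by
    intro k
    induction k with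
    | zero =>
      refine ⟨x, .nil, by simp, fun y hy => ?_, by simp⟩
      rw [SimpleGraph.Walk.support_nil, List.mem_singleton] at hy
      rw [hy]
      linarith
    | succ k ih =>
      obtain ⟨z, w, hl, hw, hz⟩ := ih
      obtain ⟨z', w', hl', hw', hz'⟩ := hrise z
      refine ⟨z', w.append w', ?_, fun y hy => ?_, by push_cast; linarith⟩
      · rw [SimpleGraph.Walk.length_append, add_mul, one_mul]
        omega
      · rcases (w.mem_support_append_iff w').1 hy with hy | hy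
        · exact hw y hy
        · have := hw' y hy
          have : 0 ≤ (k : ℝ) * g := by positivity
          linarith
  obtain ⟨z, w, hl, hw, hz⟩ := key ⌈H / g⌉₊
  have := Nat.le_ceil (H / g)
  rw [div_le_iff₀ hg] at this
  exact ⟨z, w, hl, hw, by linarith⟩

/-- The past stays within bounded height of its level. -/
theorem past_bounded (R : Finset V)
    (hR : ∀ v, ∃ φ : G ≃g G, ∃ c : ℝ, (∀ x, h (φ x) = h x + c) ∧ ∃ r ∈ R, φ r = v)
    (hup : ∀ r ∈ R, ∃ z, G.Reachable r z ∧ h r < h z) :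
    ∃ D : ℝ, 0 ≤ D ∧ ∀ H : ℝ, ∃ Lp : ℕ, ∀ c, past G h c H Lp ⊆ {x | h x ≤ c + D} := by
  obtain ⟨D, hD, hclimb⟩ := exists_climb h R hR hup
  refine ⟨D, hD, fun H => ?_⟩
  obtain ⟨Lp, hLp⟩ := hclimb H
  refine ⟨Lp, fun c x hx => ?_⟩
  by_contra hc
  simp only [Set.mem_ofPred_eq, not_le] at hc
  obtain ⟨z, w, hl, hw, hz⟩ := hLp x
  exact hx ⟨z, w, hl, fun y hy => by linarith [hw y hy], by linarith⟩

end Vale.Agent.P151.Zt
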