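import Vale.Agent.P151.Zt.Geometry

/-!
# Straight moves and sideways moves

From the elementary moves at one scale, chains of steered halves give a forward move of every
length up to many scales in a tube, and chains of sideways moves reach parallel lines.
-/

namespace Vale.Agent.P151.Zt

variable {V : Type} {G : SimpleGraph V} {Ch : Chart G} {K : Finset V}

/-- A glue step of error at most `e` from `M₁` hits. -/
def Glue (S : Seeding Ch K) (p δ e : ℝ) (M₁ : ℕ) : Prop :=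
  ∃ M₀ : ℕ, compErr M₀ (p ^ S.m) δ ≤ e ∧ ∀ s : Finset V, M₁ ≤ s.card → ∃ T ⊆ s, T.card = M₀ ∧
    (T : Set V).Pairwise fun x y =>
      Disjoint {v | ∃ w : G.Walk x v, w.length ≤ S.R} {v | ∃ w : G.Walk y v, w.length ≤ S.R}

/-- The standing assumptions at one scale. -/
structure Scale (S : Seeding Ch K) (K₀ : Finset V) (p δ₀ e : ℝ) (M₁ : ℕ) (l k₀ η : ℝ)
    (t f : ℝ × ℝ) (n : ℕ) (L : ℝ) : Prop where
  conn : ∀ x ∈ K, ∃ W : G.Walk Ch.o x, ∀ v ∈ W.support, v ∈ K
  hK₀ : K₀ ⊆ K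
  base : Ch.o ∈ K
  near : ∀ x ∈ K, size (Ch.pos x) ≤ k₀
  hl : StepBound Ch l
  l_nonneg : 0 ≤ l
  prob : p ∈ Set.Icc (0 : ℝ) 1
  δ_pos : 0 < δ₀
  glue : Glue S p δ₀ e M₁
  axis : IsAxis t
  f_ne : f ≠ 0
  L_pos : 0 < L
  η_pos : 0 < η
  slope : size f ≤ η * L
  small : η * (S.D + l + S.R * l + S.ρ + k₀ + 1) ≤ 1 / 100000
  large : 10 * (S.D + l + S.R * l + S.ρ + k₀ + 1) ≤ n
  legs : Legs S.toCut p K₀ M₁ (δ₀ ^ 2) η t f n L

variable {S : Seeding Ch K} {K₀ : Finset V} {p δ₀ e : ℝ} {M₁ : ℕ} {l k₀ η : ℝ} {t f : ℝ × ℝ}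
  {n : ℕ} {L : ℝ}

namespace Scale

variable (h : Scale S K₀ p δ₀ e M₁ l k₀ η t f n L)
include h

theorem k_nonneg : 0 ≤ k₀ := (size_nonneg _).trans (h.near _ h.base)

theorem bounds : 0 ≤ S.D ∧ 0 ≤ l ∧ 0 ≤ S.R * l ∧ (0 : ℝ) ≤ S.ρ ∧ 0 ≤ k₀ ∧
    10 * (S.D + l + S.R * l + S.ρ + k₀) ≤ n ∧ 0 ≤ size f ∧ size f ≤ L / 100000 ∧
    size f * S.D ≤ L / 100000 ∧ size f * l ≤ L / 100000 ∧
    size f * (S.R * l) ≤ L / 100000 ∧ size f * k₀ ≤ L / 100000 ∧
    size f * (S.D + l) ≤ L / 100000 ∧ S.D * size f ≤ L / 100000 := by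
  have hD := S.D_nonneg
  have hl := h.l_nonneg
  have hk := h.k_nonneg
  have hR : 0 ≤ (S.R : ℝ) * l := by positivity
  have hρ : (0 : ℝ) ≤ S.ρ := Nat.cast_nonneg _
  have hs := size_nonneg f
  have key : ∀ c, 0 ≤ c → c ≤ S.D + l + S.R * l + S.ρ + k₀ + 1 →
      size f * c ≤ L / 100000 := fun c hc hc' =>
    calc size f * c ≤ η * L * c := mul_le_mul_of_nonneg_right h.slope hc
      _ ≤ η * L * (S.D + l + S.R * l + S.ρ + k₀ + 1) :=
        mul_le_mul_of_nonneg_left hc' (mul_nonneg h.η_pos.le h.L_pos.le)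
      _ = L * (η * (S.D + l + S.R * l + S.ρ + k₀ + 1)) := by ring
      _ ≤ L * (1 / 100000) := mul_le_mul_of_nonneg_left h.small h.L_pos.le
      _ = L / 100000 := by ring
  refine ⟨hD, hl, hR, hρ, hk, by linarith [h.large], hs, ?_, key _ hD (by linarith),
    key _ hl (by linarith), key _ hR (by linarith), key _ hk (by linarith),
    key _ (add_nonneg hD hl) (by linarith), ?_⟩
  · simpa using key 1 zero_le_one (by linarith)
  · rw [mul_comm]; exact key _ hD (by linarith)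

theorem K_cyl {a k a' b : ℝ} (ha : k₀ ≤ a) (hk : k₀ ≤ k) (ha' : L / 100000 ≤ a')
    (hb : L / 100000 ≤ b) {x : V} (hx : x ∈ K) : x ∈ S.cyl t f a k a' b := by
  have h1 : ∀ g : ℝ × ℝ, |lin Ch.pos g x| ≤ size g * k₀ := fun g => by
    have := abs_lin_sub_le Ch.pos g x Ch.o
    simp only [lin, Ch.pos_o, Prod.fst_zero, Prod.snd_zero, mul_zero, add_zero, sub_zero] at this
    exact this.trans (mul_le_mul_of_nonneg_left (h.near x hx) (size_nonneg g))
  have ht := abs_le.1 (h1 t)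
  rw [h.axis.size_eq, one_mul] at ht
  have hf := abs_le.1 (h1 f)
  obtain ⟨-, -, -, -, -, -, -, -, -, -, -, hk0, -⟩ := h.bounds
  exact S.mem_cyl_of_le (by linarith) (by linarith) (by linarith) (by linarith)

/-- The error of a leg, or of one more. -/
theorem extend_le {ε ε' δ e' : ℝ} (hε : ε + e' ≤ ε') (hδ : 0 < δ) (hG : Glue S p δ e' M₁)
    {g : ℝ × ℝ} (hg : g ≠ 0) (X : ℝ) {P₁ Side₁ P Side : Set V} {M : ℕ}
    (hKP : ∀ x ∈ K, x ∈ P₁) (hP₁P : P₁ ⊆ P) (hP₁ : P₁ ⊆ S.side g X)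
    (hSide₁ : ∀ y ∈ Side₁, y ∉ S.side g X)
    (h1 : LikelyHit G p K M₁ ε P₁ Side₁)
    (hnear : ∀ y y' v, y ∈ Side₁ → y' ∈ P₁ → G.Adj y' y → v ∉ S.side g X →
      (∃ w : G.Walk y v, w.length ≤ S.R) → v ∈ P)
    (hnext : ∀ y y', y ∈ Side₁ → y' ∈ P₁ → G.Adj y' y → ∀ (φ : G ≃g G) (z : ℤ × ℤ),
      Shifts G Ch.pos φ z → (∃ w : G.Walk y (φ Ch.o), w.length ≤ S.R) →
      φ Ch.o ∉ S.side g X →
      (IsAxis g → (∃ k : ℤ, X = k) → lin Ch.pos g (φ Ch.o) = X + S.ρ) →
      ∃ P₂ Side₂ : Set V, LikelyHit G p K M (δ ^ 2) P₂ Side₂ ∧ (∀ x ∈ K, x ∈ P₂) ∧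
        (∀ v ∈ P₂, φ v ∈ P) ∧
        ∀ v u, v ∈ P₂ → u ∉ P₂ → u ∈ Side₂ → G.Adj v u → φ u ∉ P ∧ φ u ∈ Side) :
    LikelyHit G p K M ε' P Side := by
  obtain ⟨M₀, hM₀, hsp⟩ := hG
  exact (extend S h.base h.conn h.prob hδ hg X hsp hKP hP₁P hP₁ hSide₁ h1 hnear hnext).mono h.prob
    (Finset.Subset.refl _) (fun x hx => hP₁P (hKP x hx)) subset_rfl
    (fun _ _ _ hz hs _ => ⟨hz, hs⟩) le_rfl (by linarith)

/-- A leg forward. -/
theorem leg (k : ℕ) (h1 : n ≤ k) (h2 : k ≤ 2 * n) :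
    LikelyHit G p K M₁ (δ₀ ^ 2) (S.cyl t f (2 * n) k (3 * L) (3 * L))
      {v | v ∉ S.side t k ∧ |lin Ch.pos f v| ≤ 4 * L} := by
  obtain ⟨-, -, -, -, hk, hn, -⟩ := h.bounds
  have hn' : k₀ ≤ (n : ℝ) := by linarith [h.bounds.1, h.bounds.2.1, h.bounds.2.2.1,
    h.bounds.2.2.2.1]
  have h1' : (n : ℝ) ≤ k := Nat.cast_le.2 h1
  refine (h.legs.2.1 k h1 h2).toHit h.prob h.hK₀ (fun x hx => ?_) subset_rfl
    (fun _ _ _ hz hs _ => ⟨hz, hs⟩) le_rfl le_rfl
  exact h.K_cyl (by linarith) (by linarith) (by linarith [h.L_pos]) (by linarith [h.L_pos])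
    (h.hK₀ hx)

/-- A half forward. -/
theorem half (b : Bool) :
    LikelyHit G p K M₁ (δ₀ ^ 2) (S.cyl t f (2 * n) n (3 * L) (3 * L))
      {v | v ∉ S.side t n ∧ |lin Ch.pos f v| ≤ 4 * L ∧
        (if b then lin Ch.pos f v ≤ η * L else -(η * L) ≤ lin Ch.pos f v)} := by
  obtain ⟨hD, hl, hR, hρ, hk, hn, -⟩ := h.bounds
  refine (h.legs.1 b).toHit h.prob h.hK₀ (fun x hx => ?_) subset_rfl
    (fun _ _ _ hz hs _ => ⟨hz, hs⟩) le_rfl le_rfl
  exact h.K_cyl (by linarith) (by linarith) (by linarith [h.L_pos]) (by linarith [h.L_pos])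
    (h.hK₀ hx)

/-- A leg to the side. -/
theorem sideLeg (b : ℝ) (h1 : L / 4 ≤ b) (h2 : b ≤ L / 2) :
    LikelyHit G p K M₁ (δ₀ ^ 2) (S.cyl t f (2 * n) (2 * n) L b)
      {v | v ∉ S.side f b ∧ |lin Ch.pos t v| ≤ 3 * n} := by
  obtain ⟨hD, hl, hR, hρ, hk, hn, -⟩ := h.bounds
  refine (h.legs.2.2 b h1 h2).toHit h.prob h.hK₀ (fun x hx => ?_) subset_rfl
    (fun _ _ _ hz hs _ => ⟨hz, hs⟩) le_rfl le_rfl
  exact h.K_cyl (by linarith) (by linarith) (by linarith [h.L_pos]) (by linarith [h.L_pos])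
    (h.hK₀ hx)

/-- A chain of halves, steered towards the middle line. -/
theorem straight_chain (k : ℕ) (hk1 : n ≤ k) (hk2 : k ≤ 2 * n) : ∀ j : ℕ, j ≤ 3200 →
    LikelyHit G p K M₁ (δ₀ ^ 2 + j * e)
      (S.cyl t f (2 * n) ((k + j * (S.ρ + n) : ℕ) : ℝ) (10 * L) (10 * L))
      {v | v ∉ S.side t ((k + j * (S.ρ + n) : ℕ) : ℝ) ∧
        |lin Ch.pos f v| ≤ 4 * L + j * (L / 10000)} := by
  obtain ⟨hD, hl, hR, hρ, hk0, hn, hs, hs1, hsD, hsl, hsR, hsk, hsDl, hDs⟩ := h.bounds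
  have hL := h.L_pos
  have hkn : (n : ℝ) ≤ k := Nat.cast_le.2 hk1
  intro j
  induction j with
  | zero =>
    intro _
    simp only [Nat.cast_zero, zero_mul, add_zero]
    refine (h.leg k hk1 hk2).mono h.prob (Finset.Subset.refl _) (fun x hx => ?_)
      (S.cyl_mono _ _ le_rfl le_rfl (by linarith) (by linarith))
      (fun v z _ _ hz _ => ⟨fun hz' => hz.1 hz'.1.2, hz⟩) le_rfl le_rfl
    exact h.K_cyl (by linarith) (by linarith) (by linarith) (by linarith) hx
  | succ j ih =>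
    intro hj
    have hj' : (j : ℝ) * (L / 10000) ≤ 3200 * (L / 10000) := by
      refine mul_le_mul_of_nonneg_right ?_ (by positivity)
      exact_mod_cast Nat.le_of_succ_le hj
    set X : ℕ := k + j * (S.ρ + n) with hX
    have hX' : k + (j + 1) * (S.ρ + n) = X + S.ρ + n := by rw [hX]; ring
    rw [hX']
    have hXk : (n : ℝ) ≤ X := hkn.trans (Nat.cast_le.2 (by omega))
    refine h.extend_le (by push_cast; linarith : δ₀ ^ 2 + (j : ℝ) * e + e ≤ _) h.δ_pos h.glue
      h.axis.ne_zero (X : ℝ) (fun x hx => ?_) (S.cyl_mono _ _ le_rfl ?_ le_rfl le_rfl)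
      (fun v hv => hv.1.2) (fun y hy => hy.1) (ih (Nat.le_of_succ_le hj))
      (fun y y' v hy hy' ha hv hw => ?_) (fun y y' hy hy' ha φ z hφ hw hout hax => ?_)
    · exact h.K_cyl (by linarith) (by linarith) (by linarith) (by linarith) hx
    · push_cast; linarith
    · obtain ⟨w, hw⟩ := hw
      have h1 := S.lt_of_notMem hv
      have h2 := S.le_of_adj h.hl hy'.1.2 ha
      have h3 := abs_le.1 (lin_walk_le h.hl hl t w hw)
      have h4 := abs_le.1 (lin_walk_le h.hl hl f w hw)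
      have h5 := abs_le.1 hy.2
      rw [h.axis.size_eq, one_mul] at h2 h3
      exact S.mem_cyl_of_le (by linarith) (by push_cast; linarith) (by linarith) (by linarith)
    · obtain ⟨w, hw⟩ := hw
      have hc : lin Ch.pos t (φ Ch.o) = X + S.ρ := hax h.axis ⟨X, by simp⟩
      have h4 := abs_le.1 (lin_walk_le h.hl hl f w hw)
      have h5 := abs_le.1 hy.2
      refine ⟨_, _, h.half (decide (0 ≤ lin Ch.pos f (φ Ch.o))), fun x hx =>
        h.K_cyl (by linarith) (by linarith) (by linarith) (by linarith) hx, fun v hv => ?_,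
        fun v u _ _ hu _ => ?_⟩
      · rw [S.shift_mem_cyl hφ, hc]
        exact S.cyl_mono _ _ (by linarith) (by push_cast; linarith) (by linarith) (by linarith) hv
      · obtain ⟨hu1, hu2, hu3⟩ := hu
        have hout' : φ u ∉ S.side t ((X + S.ρ + n : ℕ) : ℝ) := by
          rw [S.shift_mem hφ, hc]
          push_cast
          simpa using hu1
        refine ⟨fun h' => hout' h'.1.2, hout', ?_⟩
        rw [hφ.lin_add, abs_le]
        rw [abs_le] at hu2
        push_cast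
        have hηL : η * L ≤ L / 100000 := by
          have h1 := mul_le_mul_of_nonneg_right h.small hL.le
          have : η * L * 1 ≤ η * L * (S.D + l + S.R * l + S.ρ + k₀ + 1) :=
            mul_le_mul_of_nonneg_left (by linarith) (mul_nonneg h.η_pos.le hL.le)
          linarith
        have hj0 : (0 : ℝ) ≤ (j : ℝ) * (L / 10000) := by positivity
        by_cases hpos : 0 ≤ lin Ch.pos f (φ Ch.o)
        · simp only [hpos, decide_true, if_true] at hu3
          constructor <;> linarith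
        · simp only [hpos, decide_false, Bool.false_eq_true, if_false] at hu3
          constructor <;> linarith

/-- A straight move of every length. -/
theorem straight (he : 0 ≤ e) (k : ℕ) (hk1 : 4 * n ≤ k) (hk2 : k ≤ 3200 * n) :
    LikelyHit G p K M₁ (δ₀ ^ 2 + 3202 * e) (S.cyl t f (2 * n) k (10 * L) (10 * L))
      {v | v ∉ S.side t k ∧ |lin Ch.pos f v| ≤ 10 * L} := by
  obtain ⟨hD, hl, hR, hρ, hk0, hn, hs, hs1, hsD, hsl, hsR, hsk, hsDl, hDs⟩ := h.bounds
  have hL := h.L_pos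
  have hρn : S.ρ ≤ n := by
    have : (S.ρ : ℝ) ≤ n := by linarith
    exact_mod_cast this
  have hn0 : 0 < S.ρ + n := by
    have : (0 : ℝ) < n := by linarith [h.large]
    have : 0 < n := by exact_mod_cast this
    omega
  set rest := k - (2 * n + S.ρ) with hrest
  set j := rest / (S.ρ + n) with hj
  set r := rest % (S.ρ + n) with hr
  have hjr : j * (S.ρ + n) + r = rest := by rw [hj, hr]; exact Nat.div_add_mod' _ _
  have hr' : r < S.ρ + n := Nat.mod_lt _ hn0
  have hj3 : j ≤ 3200 := by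
    rw [hj]
    refine Nat.div_le_of_le_mul ?_
    calc rest ≤ 3200 * n := by omega
      _ ≤ (S.ρ + n) * 3200 := by rw [Nat.mul_comm]; exact Nat.mul_le_mul_right _ (by omega)
  set k' := n + min r n with hk'
  set k'' := n + (r - min r n) with hk''
  set X : ℕ := k' + j * (S.ρ + n) with hX
  have hXk : X + S.ρ + k'' = k := by omega
  have hXr : (X : ℝ) + S.ρ + k'' = k := by exact_mod_cast hXk
  have hk''n : (n : ℝ) ≤ k'' := Nat.cast_le.2 (by omega)
  have hXn : (n : ℝ) ≤ X := Nat.cast_le.2 (by omega)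
  have hj' : (j : ℝ) * (L / 10000) ≤ 3200 * (L / 10000) := by
    refine mul_le_mul_of_nonneg_right ?_ (by positivity)
    exact_mod_cast hj3
  have hje : (j : ℝ) * e ≤ 3200 * e :=
    mul_le_mul_of_nonneg_right (by exact_mod_cast hj3) he
  refine h.extend_le (by linarith : δ₀ ^ 2 + (j : ℝ) * e + e ≤ _) h.δ_pos h.glue h.axis.ne_zero
    (X : ℝ) (fun x hx => ?_) (S.cyl_mono _ _ le_rfl (by linarith) le_rfl le_rfl)
    (fun v hv => hv.1.2) (fun y hy => hy.1)
    (h.straight_chain k' (by omega) (by omega) j hj3)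
    (fun y y' v hy hy' ha hv hw => ?_) (fun y y' hy hy' ha φ z hφ hw hout hax => ?_)
  · exact h.K_cyl (by linarith) (by linarith) (by linarith) (by linarith) hx
  · obtain ⟨w, hw⟩ := hw
    have h1 := S.lt_of_notMem hv
    have h2 := S.le_of_adj h.hl hy'.1.2 ha
    have h3 := abs_le.1 (lin_walk_le h.hl hl t w hw)
    have h4 := abs_le.1 (lin_walk_le h.hl hl f w hw)
    have h5 := abs_le.1 hy.2
    rw [h.axis.size_eq, one_mul] at h2 h3
    exact S.mem_cyl_of_le (by linarith) (by linarith) (by linarith) (by linarith)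
  · obtain ⟨w, hw⟩ := hw
    have hc : lin Ch.pos t (φ Ch.o) = X + S.ρ := hax h.axis ⟨X, by simp⟩
    have h4 := abs_le.1 (lin_walk_le h.hl hl f w hw)
    have h5 := abs_le.1 hy.2
    refine ⟨_, _, h.leg k'' (by omega) (by omega), fun x hx =>
      h.K_cyl (by linarith) (by linarith) (by linarith) (by linarith) hx, fun v hv => ?_,
      fun v u _ _ hu _ => ?_⟩
    · rw [S.shift_mem_cyl hφ, hc]
      exact S.cyl_mono _ _ (by linarith) (by linarith) (by linarith) (by linarith) hv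
    · obtain ⟨hu1, hu2⟩ := hu
      have hout' : φ u ∉ S.side t (k : ℝ) := by
        rw [S.shift_mem hφ, hc]
        rwa [show (k : ℝ) - (X + S.ρ) = k'' by linarith]
      refine ⟨fun h' => hout' h'.1.2, hout', ?_⟩
      rw [hφ.lin_add, abs_le]
      rw [abs_le] at hu2
      constructor <;> linarith

/-- A chain of sideways legs to the lines `i L / 2`. -/
theorem aside : ∀ i : ℕ, i ≤ 400 →
    LikelyHit G p K M₁ (δ₀ ^ 2 + i * e)
      (S.cyl t f ((4 * i + 2) * n) ((4 * i + 2) * n) L ((i + 1) * (L / 2)))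
      {v | v ∉ S.side f ((i + 1) * (L / 2)) ∧ |lin Ch.pos t v| ≤ (4 * i + 3) * n} := by
  obtain ⟨hD, hl, hR, hρ, hk0, hn, hs, hs1, hsD, hsl, hsR, hsk, hsDl, hDs⟩ := h.bounds
  have hL := h.L_pos
  have hn0 : (0 : ℝ) ≤ n := Nat.cast_nonneg _
  intro i
  induction i with
  | zero =>
    intro _
    simp only [Nat.cast_zero, zero_mul, mul_zero, add_zero, zero_add, one_mul]
    refine (h.sideLeg (L / 2) (by linarith) le_rfl).mono h.prob (Finset.Subset.refl _)
      (fun x hx => ?_) subset_rfl (fun _ _ _ hz hs _ => ⟨hz, hs⟩) le_rfl le_rfl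
    exact h.K_cyl (by linarith) (by linarith) (by linarith) (by linarith) hx
  | succ i ih =>
    intro hi
    set F : ℝ := (i + 1) * (L / 2) with hF
    have hF2 : ((i + 1 : ℕ) + 1 : ℝ) * (L / 2) = F + L / 2 := by rw [hF]; push_cast; ring
    rw [hF2]
    have hin : (0 : ℝ) ≤ i * n := by positivity
    have hFL : L / 2 ≤ F := by
      have : (0 : ℝ) ≤ i * (L / 2) := by positivity
      rw [hF]; linarith
    refine h.extend_le (by push_cast; linarith : δ₀ ^ 2 + (i : ℝ) * e + e ≤ _) h.δ_pos h.glue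
      h.f_ne F (fun x hx => ?_) (S.cyl_mono _ _ ?_ ?_ le_rfl (by linarith))
      (fun v hv => hv.2.2) (fun y hy => hy.1) (ih (Nat.le_of_succ_le hi))
      (fun y y' v hy hy' ha hv hw => ?_) (fun y y' hy hy' ha φ z hφ hw hout hax => ?_)
    · exact h.K_cyl (by linarith) (by linarith) (by linarith) (by linarith) hx
    · push_cast; linarith
    · push_cast; linarith
    · obtain ⟨w, hw⟩ := hw
      have h1 := S.lt_of_notMem hv
      have h2 := S.le_of_adj h.hl hy'.2.2 ha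
      have h3 := abs_le.1 (lin_walk_le h.hl hl t w hw)
      have h4 := abs_le.1 (lin_walk_le h.hl hl f w hw)
      have h5 := abs_le.1 hy.2
      rw [h.axis.size_eq, one_mul] at h3
      exact S.mem_cyl_of_le (by push_cast; linarith) (by push_cast; linarith) (by linarith)
        (by linarith)
    · obtain ⟨w, hw⟩ := hw
      have h1 := S.lt_of_notMem hout
      have h2 := S.le_of_adj h.hl hy'.2.2 ha
      have h3 := abs_le.1 (lin_walk_le h.hl hl t w hw)
      have h4 := abs_le.1 (lin_walk_le h.hl hl f w hw)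
      have h5 := abs_le.1 hy.2
      rw [h.axis.size_eq, one_mul] at h3
      set c := lin Ch.pos f (φ Ch.o) with hc
      refine ⟨_, _, h.sideLeg (F + L / 2 - c) (by linarith) (by linarith), fun x hx =>
        h.K_cyl (by linarith) (by linarith) (by linarith) (by linarith) hx, fun v hv => ?_,
        fun v u _ _ hu _ => ?_⟩
      · rw [S.shift_mem_cyl hφ, ← hc]
        exact S.cyl_mono _ _ (by push_cast; linarith) (by push_cast; linarith) (by linarith)
          (by linarith) hv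
      · obtain ⟨hu1, hu2⟩ := hu
        have hout' : φ u ∉ S.side f (F + L / 2) := by
          rw [S.shift_mem hφ, ← hc]; exact hu1
        refine ⟨fun h' => hout' h'.2.2, hout', ?_⟩
        rw [hφ.lin_add, abs_le]
        rw [abs_le] at hu2
        push_cast
        constructor <;> linarith

end Scale

end Vale.Agent.P151.Zt
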