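import Vale.Agent.P151.Zt.Critical

/-!
# The critical point of a graph with a chart is below one

At the parameter one the finite criterion holds: straight tracks from the base vertex give any
number of hits with any lateral aim. By openness it then holds at some smaller parameter, where
the renormalisation gives percolation.
-/

namespace Vale.Agent.P151.Zt

open Glue0 Vale.Agent.P165 MeasureTheory

variable {V : Type} {G : SimpleGraph V} {Ch : Chart G}

/-- A straight track in both coordinates. -/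
theorem exists_line {l : ℝ} (hl : StepBound Ch l) (hl0 : 0 ≤ l) {st : ℕ} {u : ℤ × ℤ}
    {ψ : G ≃g G} (hψ : Shifts G Ch.pos ψ u) (W : G.Walk Ch.o (ψ Ch.o)) (hW : W.length ≤ st)
    {φ : G ≃g G} {z : ℤ × ℤ} (hφ : Shifts G Ch.pos φ z) (k : ℕ) :
    ∃ φ' : G ≃g G, Shifts G Ch.pos φ' (z + (k : ℤ) • u) ∧
      ∃ w : G.Walk (φ Ch.o) (φ' Ch.o), ∀ x ∈ w.support, ∃ i : ℕ, i ≤ k ∧
        |(Ch.pos x).1 - (z.1 + i * u.1)| ≤ st * l ∧
        |(Ch.pos x).2 - (z.2 + i * u.2)| ≤ st * l := by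
  classical
  induction k with
  | zero =>
    refine ⟨φ, by simpa using hφ, .nil, fun x hx => ⟨0, le_rfl, ?_⟩⟩
    rw [SimpleGraph.Walk.support_nil, List.mem_singleton] at hx
    subst hx
    have hp : Ch.pos (φ Ch.o) = gridPt z := by rw [hφ, Ch.pos_o, zero_add]
    simp [hp, gridPt, mul_nonneg (Nat.cast_nonneg st) hl0]
  | succ k ih =>
    obtain ⟨φ', hφ', w, hw⟩ := ih
    refine ⟨ψ.trans φ', ?_, w.append (W.map φ'.toHom), fun x hx => ?_⟩
    · have h := hφ'.trans' hψ
      have e : z + (k : ℤ) • u + u = z + ((k + 1 : ℕ) : ℤ) • u := by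
        rw [Nat.cast_succ, add_smul, one_smul, add_assoc]
      rwa [e] at h
    · rcases (w.mem_support_append_iff _).1 hx with hx | hx
      · obtain ⟨i, hi, h⟩ := hw x hx
        exact ⟨i, hi.trans k.le_succ, h⟩
      · refine ⟨k, k.le_succ, ?_⟩
        have hlen : ((W.map φ'.toHom).takeUntil x hx).length ≤ st := by
          refine ((W.map φ'.toHom).length_takeUntil_le_length hx).trans ?_
          rw [SimpleGraph.Walk.length_map]
          exact hW
        have h1 := lin_walk_le hl hl0 (1, 0) ((W.map φ'.toHom).takeUntil x hx) hlen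
        have h2 := lin_walk_le hl hl0 (0, 1) ((W.map φ'.toHom).takeUntil x hx) hlen
        have hp : Ch.pos (φ' Ch.o) = gridPt (z + (k : ℤ) • u) := by
          rw [hφ', Ch.pos_o, zero_add]
        simp only [lin, size, RelIso.coe_toRelEmbedding, RelEmbedding.coe_toRelHom,
          hp, gridPt, Prod.fst_add, Prod.snd_add, Prod.smul_fst, Prod.smul_snd,
          Int.cast_natCast, Int.cast_add, Int.cast_mul, one_mul, zero_mul,
          add_zero, zero_add, abs_one, abs_zero, smul_eq_mul] at h1 h2 ⊢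
        exact ⟨h1, h2⟩

/-- The all-open configuration has full weight at the parameter one. -/
theorem Pr_one {E : Type} [Fintype E] [DecidableEq E] {A : Set (E → Bool)}
    (h : (fun _ => true) ∈ A) : Pr (fun _ : E => (1 : ℝ)) A = 1 := by
  classical
  rw [Pr, Ev, Finset.sum_eq_single (fun _ : E => true)]
  · simp [wgt, h]
  · intro w _ hw
    obtain ⟨e, he⟩ := Function.ne_iff.1 hw
    rw [show wgt (fun _ : E => (1 : ℝ)) w = 0 from
      Finset.prod_eq_zero (Finset.mem_univ e) (by simp_all)]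
    simp
  · simp

/-- With everything open, a walk leaves a region through an edge that touches it. -/
theorem first_hit {Λ : Finset V} (P : Set V) {a b : V} (w : G.Walk a b) :
    ∀ hΛ : ∀ x ∈ w.support, x ∈ Λ, b ∉ P → ∃ z, ∃ hz : z ∈ w.support, z ∉ P ∧
      (⟨z, hΛ z hz⟩ : WV Λ) ∈ cluster (wEnds G Λ) (shut (touching G Λ P)ᶜ fun _ => true)
        ⟨a, hΛ a w.start_mem_support⟩ := by
  induction w with
  | nil => exact fun hΛ hb => ⟨_, by simp, hb, mem_cluster_self _ _⟩
  | @cons a c b hac w ih =>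
    intro hΛ hb
    by_cases ha : a ∈ P
    · have hw : ∀ x ∈ w.support, x ∈ Λ := fun x hx => hΛ x (List.mem_cons_of_mem _ hx)
      obtain ⟨z, hz, hzP, hc⟩ := ih hw hb
      refine ⟨z, List.mem_cons_of_mem _ hz, hzP, Relation.ReflTransGen.head ?_ hc⟩
      let e : WE G Λ := ⟨⟨s(a, c), hac⟩, fun x hx => by
        rcases Sym2.mem_iff.1 hx with rfl | rfl
        · exact hΛ _ (by simp)
        · exact hw _ w.start_mem_support⟩
      have hend := Sym2.eq_iff.1 (wEnds_sym2 e)
      have ht : e ∈ touching G Λ P := by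
        rcases hend with ⟨h1, h2⟩ | ⟨h1, h2⟩
        · exact Or.inl (by rw [h1]; exact ha)
        · exact Or.inr (by rw [h2]; exact ha)
      refine ⟨e, by simp [shut, ht], ?_⟩
      rcases hend with ⟨h1, h2⟩ | ⟨h1, h2⟩
      · exact Or.inl (Prod.ext (Subtype.ext h1) (Subtype.ext h2))
      · exact Or.inr (Prod.ext (Subtype.ext h1) (Subtype.ext h2))
    · exact ⟨a, by simp, ha, mem_cluster_self _ _⟩

/-- At the parameter one the finite criterion holds. -/
theorem steer_one (hc : G.Connected) (Ch : Chart G) (C : Cut Ch) (M T₀ : ℕ) {η : ℝ}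
    (hη : 0 < η) :
    ∃ (t s : ℝ × ℝ) (T : ℕ), IsAxis t ∧ s ≠ 0 ∧ T₀ ≤ T ∧ size s ≤ η ∧
      ∀ ε : ℝ, 0 ≤ ε → Steer C 1 {Ch.o} M ε t s T := by
  classical
  obtain ⟨Δ, st, -, hstep⟩ := exists_step hc Ch
  obtain ⟨l₀, hl₀⟩ := Ch.short
  set l := max l₀ 0
  have hl : StepBound Ch l := fun x y h => (hl₀ x y h).trans (le_max_left _ _)
  have hl0 : 0 ≤ l := le_max_right _ _
  set B : ℝ := (st : ℝ) * l with hB
  have hB0 : 0 ≤ B := by positivity
  set sp : ℕ := ⌈2 * B + 1⌉₊ with hsp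
  have hspB : 2 * B + 1 ≤ sp := Nat.le_ceil _
  set T : ℕ := max T₀ ⌈B⌉₊ with hT
  have hTB : B ≤ (T : ℝ) := (Nat.le_ceil B).trans (Nat.cast_le.2 (le_max_right _ _))
  set σ : ℕ := ⌈max (1 / η) ((sp : ℝ) * M + B + 1)⌉₊ with hσdef
  have hσ1 : 1 / η ≤ σ := (le_max_left _ _).trans (Nat.le_ceil _)
  have hσ2 : (sp : ℝ) * M + B + 1 ≤ σ := (le_max_right _ _).trans (Nat.le_ceil _)
  have hσ : (0 : ℝ) < σ := by
    have : (0 : ℝ) ≤ (sp : ℝ) * M := by positivity
    linarith
  have hs : size ((0 : ℝ), 1 / (σ : ℝ)) = 1 / σ := by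
    simp [size]
  refine ⟨(1, 0), (0, 1 / (σ : ℝ)), T, Or.inl rfl, ?_, le_max_left _ _, ?_, fun ε hε d hd => ?_⟩
  · simp [Prod.ext_iff, hσ.ne']
  · rw [hs, one_div_le hσ hη]
    exact hσ1
  set t : ℝ × ℝ := (1, 0) with ht
  set s : ℝ × ℝ := (0, 1 / (σ : ℝ)) with hsdef
  have hlt : ∀ v, lin Ch.pos t v = (Ch.pos v).1 := fun v => by simp [lin, ht]
  have hls : ∀ v, lin Ch.pos s v * σ = (Ch.pos v).2 := fun v => by
    simp [lin, hsdef]
    field_simp
  set P : Set V := C.cyl t s T T (40 - min (0 : ℝ) d) (40 + max (0 : ℝ) d) with hP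
  set k : ℕ := ⌈(T : ℝ) + C.D + B⌉₊ + 1 with hk
  have hk' : (T : ℝ) + C.D + B < k := by
    rw [hk, Nat.cast_succ]
    linarith [Nat.le_ceil ((T : ℝ) + C.D + B)]
  set aim : ℕ → ℤ := fun i => d * σ + sp * i with haim
  have htrack : ∀ i : ℕ, i ≤ M → ∃ (b : V) (w : G.Walk Ch.o b), b ∉ P ∧
      ∀ x ∈ w.support, x ∈ P ∨ (x ∉ C.side t T ∧ |lin Ch.pos s x - d| ≤ 2 ∧
        |(Ch.pos x).2 - aim i| ≤ B) := by
    intro i hi
    obtain ⟨u, hu, hu1, hu2⟩ : ∃ u ∈ ({(1, 0), (-1, 0), (0, 1), (0, -1)} : Finset (ℤ × ℤ)),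
        u.1 = 0 ∧ (|aim i| : ℤ) * u.2 = aim i := by
      rcases le_total 0 (aim i) with h | h
      · exact ⟨(0, 1), by simp, rfl, by simp [abs_of_nonneg h]⟩
      · exact ⟨(0, -1), by simp, rfl, by simp [abs_of_nonpos h]⟩
    obtain ⟨ψ, hψ, W, hW⟩ := hstep u hu
    obtain ⟨ψ', hψ', W', hW'⟩ := hstep (1, 0) (by simp)
    have hid : Shifts G Ch.pos (RelIso.refl _) 0 := fun v => by simp [gridPt]
    obtain ⟨φ₁, hφ₁, w₁, hw₁⟩ := exists_line hl hl0 hψ W hW hid (aim i).natAbs
    obtain ⟨φ₂, hφ₂, w₂, hw₂⟩ := exists_line hl hl0 hψ' W' hW' hφ₁ k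
    have hz : (0 : ℤ × ℤ) + ((aim i).natAbs : ℤ) • u = (0, aim i) := by
      refine Prod.ext ?_ ?_
      · simp [hu1]
      · simp only [zero_add, Prod.smul_snd, smul_eq_mul, Int.natCast_natAbs]
        exact hu2
    rw [hz] at hφ₂ hw₂
    have hy : ∀ j : ℕ, j ≤ (aim i).natAbs →
        min (0 : ℝ) (aim i) ≤ j * (u.2 : ℝ) ∧ j * (u.2 : ℝ) ≤ max (0 : ℝ) (aim i) := by
      intro j hj
      have hn : ((aim i).natAbs : ℝ) * (u.2 : ℝ) = (aim i : ℝ) := by
        have := congrArg (Int.cast (R := ℝ)) hu2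
        rwa [Int.cast_mul, ← Int.natCast_natAbs, Int.cast_natCast] at this
      have hj' : (j : ℝ) ≤ (aim i).natAbs := Nat.cast_le.2 hj
      have hj0 : (0 : ℝ) ≤ j := j.cast_nonneg
      rcases le_total 0 (u.2 : ℝ) with h | h
      · exact ⟨(min_le_left _ _).trans (mul_nonneg hj0 h),
          le_max_of_le_right ((mul_le_mul_of_nonneg_right hj' h).trans_eq hn)⟩
      · exact ⟨min_le_of_right_le (hn.symm.trans_le (mul_le_mul_of_nonpos_right hj' h)),
          (mul_nonpos_of_nonneg_of_nonpos hj0 h).trans (le_max_left _ _)⟩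
    have haim' : (aim i : ℝ) = (d : ℝ) * σ + (sp : ℝ) * i := by simp [haim]
    have hi' : (sp : ℝ) * i ≤ (sp : ℝ) * M :=
      mul_le_mul_of_nonneg_left (Nat.cast_le.2 hi) (Nat.cast_nonneg _)
    have hi0 : (0 : ℝ) ≤ (sp : ℝ) * i := by positivity
    -- the range of every point of the track
    have hrange : ∀ x ∈ (w₁.append w₂).support,
        -B ≤ (Ch.pos x).1 ∧ min (0 : ℝ) (aim i) - B ≤ (Ch.pos x).2 ∧
          (Ch.pos x).2 ≤ max (0 : ℝ) (aim i) + B ∧
          ((Ch.pos x).1 ≤ B ∨ |(Ch.pos x).2 - aim i| ≤ B) := by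
      intro x hx
      rcases (w₁.mem_support_append_iff _).1 hx with hx | hx
      · obtain ⟨j, hj, h1, h2⟩ := hw₁ x hx
        simp only [hu1, Prod.fst_zero, Prod.snd_zero, Int.cast_zero, mul_zero, zero_add,
          sub_zero] at h1 h2
        rw [abs_le] at h1 h2
        obtain ⟨h3, h4⟩ := hy j hj
        exact ⟨h1.1, by linarith, by linarith, Or.inl h1.2⟩
      · obtain ⟨j, -, h1, h2⟩ := hw₂ x hx
        simp only [Int.cast_zero, Int.cast_one, mul_one, mul_zero, zero_add, add_zero] at h1 h2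
        have h2' := abs_le.1 h2
        have := (abs_le.1 h1).1
        exact ⟨by linarith [(Nat.cast_nonneg j : (0 : ℝ) ≤ j)],
          by linarith [min_le_right (0 : ℝ) (aim i)], by linarith [le_max_right (0 : ℝ) (aim i)],
          Or.inr h2⟩
    refine ⟨φ₂ Ch.o, w₁.append w₂, fun hb => ?_, fun x hx => ?_⟩
    · have h := C.bounded t T _ hb.1.2
      rw [hlt, hφ₂, Ch.pos_o] at h
      simp [gridPt, ht, size] at h
      linarith
    · by_cases hxP : x ∈ P
      · exact Or.inl hxP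
      obtain ⟨h1, h2, h3, h4⟩ := hrange x hx
      have hmin : min (0 : ℝ) d * σ = min 0 ((d : ℝ) * σ) := by
        rw [min_mul_of_nonneg _ _ hσ.le, zero_mul]
      have hmax : max (0 : ℝ) d * σ = max 0 ((d : ℝ) * σ) := by
        rw [max_mul_of_nonneg _ _ hσ.le, zero_mul]
      have hlo : min 0 ((d : ℝ) * σ) ≤ min (0 : ℝ) (aim i) :=
        min_le_min le_rfl (by linarith)
      have hhi : max (0 : ℝ) (aim i) ≤ max 0 ((d : ℝ) * σ) + sp * i := by
        refine max_le ?_ ?_
        · linarith [le_max_left (0 : ℝ) ((d : ℝ) * σ)]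
        · linarith [le_max_right (0 : ℝ) ((d : ℝ) * σ)]
      have hout : x ∉ C.side t T := by
        intro hin
        refine hxP ⟨⟨C.le_subset _ _ _ ?_, hin⟩, C.le_subset _ _ _ ?_, C.le_subset _ _ _ ?_⟩
        · rw [lin_neg, hlt]
          linarith
        · rw [lin_neg]
          refine le_of_mul_le_mul_right ?_ hσ
          rw [neg_mul, hls, sub_mul, hmin]
          linarith
        · refine le_of_mul_le_mul_right ?_ hσ
          rw [hls, add_mul, hmax]
          linarith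
      have hx1 : (T : ℝ) < (Ch.pos x).1 := by
        rw [← hlt]
        exact not_le.1 fun h => hout (C.le_subset _ _ _ h)
      have h5 : |(Ch.pos x).2 - aim i| ≤ B := h4.resolve_left (by linarith)
      refine Or.inr ⟨hout, ?_, h5⟩
      rw [abs_le] at h5 ⊢
      constructor <;> refine le_of_mul_le_mul_right ?_ hσ <;> rw [sub_mul, hls] <;> linarith
  choose b w hb hw using fun i : Fin M => htrack i i.2.le
  set Λ : Finset V := insert Ch.o (Finset.univ.biUnion fun i : Fin M => (w i).support.toFinset)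
    with hΛdef
  have hsub : ∀ i, ∀ x ∈ (w i).support, x ∈ Λ := fun i x hx =>
    Finset.mem_insert_of_mem (Finset.mem_biUnion.2
      ⟨i, Finset.mem_univ _, List.mem_toFinset.2 hx⟩)
  refine ⟨Λ, ?_⟩
  rw [Pr_one ?_]
  · linarith
  show M ≤ (hitSet G Λ P _ {Ch.o} fun _ => true).ncard
  choose z hz hzP hzc using fun i : Fin M =>
    first_hit P (w i) (hsub i) (hb i)
  have hgood : ∀ i : Fin M, z i ∉ C.side t T ∧ |lin Ch.pos s (z i) - d| ≤ 2 ∧
      |(Ch.pos (z i)).2 - aim i| ≤ B := fun i =>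
    (hw i (z i) (hz i)).resolve_left (hzP i)
  let f : Fin M → WV Λ := fun i => ⟨z i, hsub i _ (hz i)⟩
  have hf : Function.Injective f := by
    intro i j hij
    have he : z i = z j := congrArg Subtype.val hij
    have hi := abs_le.1 (hgood i).2.2
    have hj := abs_le.1 (hgood j).2.2
    rw [he] at hi
    simp only [haim, Int.cast_add, Int.cast_mul, Int.cast_natCast] at hi hj
    by_contra hne
    rcases lt_or_gt_of_ne (fun h => hne (Fin.ext h) : (i : ℕ) ≠ (j : ℕ)) with h | h <;>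
      have h' := mul_le_mul_of_nonneg_left (Nat.cast_le (α := ℝ).2 (Nat.succ_le_of_lt h))
        (Nat.cast_nonneg sp) <;> push_cast at h' <;> linarith
  calc M = (Set.range f).ncard := by
        rw [← Set.image_univ, Set.ncard_image_of_injective _ hf, Set.ncard_univ, Nat.card_eq_fintype_card,
          Fintype.card_fin]
    _ ≤ _ := by
      refine Set.ncard_le_ncard ?_ (Set.toFinite _)
      rintro _ ⟨i, rfl⟩
      exact ⟨hzP i, ⟨(hgood i).1, (hgood i).2.1⟩, ⟨Ch.o, Finset.mem_insert_self _ _⟩,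
        Finset.mem_singleton_self _, hzc i⟩

/-- The critical point of a connected graph with a chart is below one. -/
theorem pc_lt_one {ι : Type} [Fintype ι] {nb : V → ι → V} (hl : Listing G nb) (hc : G.Connected)
    (Ch : Chart G) : pc G < 1 := by
  classical
  have : Countable V := countable_of_connected hl hc
  obtain ⟨S⟩ := seeding_exists hc Ch {Ch.o}
  obtain ⟨D, T₀, η, hη, hperc⟩ := base hl hc Ch {Ch.o} (Finset.mem_singleton_self _) S
  obtain ⟨t, s, T, ht, hs, hT, hsz, hst⟩ := steer_one hc Ch S.toCut (D * 32) T₀ hη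
  set δ : ℝ := 1 / 100000000 with hδ
  obtain ⟨q, hq0, hq1, hq⟩ := steer_open (p := 1) (by norm_num) (ε := δ ^ 2 / 2)
    (by positivity) (hst _ (by positivity))
  set x : ℝ := max (q : ℝ) (1 - 1 / (2 * S.m + 2)) with hx
  have hu0 : 0 < (1 : ℝ) / (2 * S.m + 2) := by positivity
  have hx1 : x < 1 := max_lt hq1 (by linarith)
  have hx0 : 0 < x := hq0.trans_le (le_max_left _ _)
  set q' : unitInterval := ⟨x, hx0.le, hx1.le⟩ with hq'
  have hπ : (1 : ℝ) / 2 ≤ x ^ S.m := by
    have hu : (1 : ℝ) / (2 * S.m + 2) ≤ 1 / 2 := by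
      rw [div_le_div_iff₀ (by positivity) two_pos]
      linarith [(Nat.cast_nonneg S.m : (0 : ℝ) ≤ S.m)]
    refine le_trans ?_ (pow_le_pow_left₀ (by linarith) (le_max_right _ _) _)
    refine le_trans ?_ ((sub_eq_add_neg (1 : ℝ) (1 / (2 * S.m + 2))).symm ▸
      one_add_mul_le_pow (by linarith : (-2 : ℝ) ≤ -(1 / (2 * S.m + 2))) S.m)
    have : (S.m : ℝ) * (1 / (2 * S.m + 2)) ≤ 1 / 2 := by
      rw [mul_one_div, div_le_div_iff₀ (by positivity) two_pos]
      linarith
    linarith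
  have hπ1 : x ^ S.m ≤ 1 := pow_le_one₀ hx0.le hx1.le
  have hinf : 0 < perc G q' (infAt G Ch.o) := by
    refine hperc q' δ 32 t s T hx0 (by positivity) (by norm_num [hδ]) ht hs hT hsz ?_ ?_
    · have := hq q' (le_max_left (q : ℝ) _)
      rwa [mul_div_cancel₀ _ (two_ne_zero' ℝ)] at this
    · show 80000 * hopErr 32 (x ^ S.m) (x ^ S.m) δ 3 ≤ 1
      have h := pow_le_pow_left₀ (by linarith) (show 1 - x ^ S.m ≤ 1 / 2 by linarith) 32
      have h' := mul_le_mul_of_nonneg_right hπ1 (show (0 : ℝ) ≤ δ by norm_num [hδ])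
      unfold hopErr
      norm_num [hδ] at h h' ⊢
      linarith
  refine lt_of_le_of_lt (b := x) ?_ hx1
  refine csInf_le ⟨0, ?_⟩ ⟨q', ?_, rfl⟩
  · rintro _ ⟨r, -, rfl⟩
    exact r.2.1
  · refine hinf.trans_le (measure_mono ?_)
    rw [hasInfinite_eq]
    exact Set.subset_iUnion (fun y => infAt G y) _

end Vale.Agent.P151.Zt
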