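import Vale.Agent.P151.Zt.Exits
import Vale.Agent.P151.Zt.Window
import Vale.Agent.P151.Zt.Move
import Vale.Agent.P151.Renorm.Transfer

/-!
# Exits in a finite window

Many exits in the infinite graph are many exits in every large enough finite window, and a window
event moves along automorphisms into every window that contains the image.
-/

open MeasureTheory ProbabilityTheory Filter Topology

namespace Vale.Agent.P151.Zt

open Glue0 Vale.Agent.P165

variable {V : Type} {G : SimpleGraph V} {Λ Λ' : Finset V}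

/-- The edges of the window with an end in `P`. -/
def touching (G : SimpleGraph V) (Λ : Finset V) (P : Set V) : Set (WE G Λ) :=
  {e | ((wEnds G Λ e).1 : V) ∈ P ∨ ((wEnds G Λ e).2 : V) ∈ P}

/-- The edges of the window inside `P`. -/
def within (G : SimpleGraph V) (Λ : Finset V) (P : Set V) : Set (WE G Λ) :=
  {e | ((wEnds G Λ e).1 : V) ∈ P ∧ ((wEnds G Λ e).2 : V) ∈ P}

/-- The exits of `K` from `P` on `Side`, seen in the window. -/
def wExits (G : SimpleGraph V) (Λ : Finset V) (P Side : Set V) (K : Finset V)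
    (w : WE G Λ → Bool) : Set (WV Λ) :=
  {z | (z : V) ∉ P ∧ (z : V) ∈ Side ∧ ∃ x : WV Λ, (x : V) ∈ K ∧ ∃ y : WV Λ, (y : V) ∈ P ∧
    y ∈ cluster (wEnds G Λ) (shut (within G Λ P)ᶜ w) x ∧ openAdj (wEnds G Λ) w y z}

/-- At least `M` exits. -/
def exitHits (G : SimpleGraph V) (Λ : Finset V) (P Side : Set V) (K : Finset V) (M : ℕ) :
    Set (WE G Λ → Bool) :=
  {w | (M : ℕ∞) ≤ (wExits G Λ P Side K w).encard}

theorem exitHits_upper (G : SimpleGraph V) (Λ : Finset V) (P Side : Set V) (K : Finset V)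
    (M : ℕ) : IsUpperSet (exitHits G Λ P Side K M) := fun w w' h hw => by
  refine le_trans (show (M : ℕ∞) ≤ _ from hw) (Set.encard_le_encard ?_)
  rintro z ⟨hz, hs, x, hx, y, hy, hc, e, he, hee⟩
  exact ⟨hz, hs, x, hx, y, hy, cluster_mono (shut_mono _ h) x hc, e,
    le_antisymm le_top (he ▸ h e), hee⟩

theorem exitHits_local (G : SimpleGraph V) (Λ : Finset V) (P Side : Set V) (K : Finset V)
    (M : ℕ) : LocalEv (touching G Λ P) (exitHits G Λ P Side K M) := by
  intro w w' h
  have hsh : shut (within G Λ P)ᶜ w = shut (within G Λ P)ᶜ w' :=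
    Renorm.shut_compl_eq fun e he => h e (Or.inl he.1)
  have : wExits G Λ P Side K w = wExits G Λ P Side K w' := by
    ext z
    refine and_congr_right fun _ => and_congr_right fun _ => exists_congr fun x =>
      and_congr_right fun _ => exists_congr fun y => and_congr_right fun hy => ?_
    rw [hsh]
    refine and_congr_right fun _ => exists_congr fun e => ?_
    constructor <;> rintro ⟨he, hee⟩ <;> refine ⟨?_, hee⟩
    · rw [← h e ?_]; · exact he
      rcases hee with r | r <;> simp [touching, r, hy]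
    · rw [h e ?_]; · exact he
      rcases hee with r | r <;> simp [touching, r, hy]
  simp only [exitHits, Set.mem_ofPred_eq, this]

theorem wEv_exitHits_subset (P Side : Set V) (K : Finset V) (M : ℕ) :
    wEv G Λ (exitHits G Λ P Side K M)
      ⊆ {ω | (M : ℕ∞) ≤ (exits G P K ω ∩ Side).encard} := by
  intro ω hω
  refine le_trans (show (M : ℕ∞) ≤ _ from hω) ?_
  rw [← Subtype.val_injective.encard_image (wExits G Λ P Side K (wConf G Λ ω))]
  refine Set.encard_le_encard ?_
  rintro _ ⟨z, ⟨hz, hs, x, hx, y, hy, hc, hadj⟩, rfl⟩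
  refine ⟨⟨hz, y, ⟨x, hx, ?_⟩, ?_⟩, hs⟩
  · change Relation.ReflTransGen
      (openAdj (wEnds G Λ) (shut (within G Λ P)ᶜ (wConf G Λ ω))) x y at hc
    have hxP : (x : V) ∈ P := by
      induction hc using Relation.ReflTransGen.head_induction_on with
      | refl => exact hy
      | head h _ _ =>
        obtain ⟨e, he, hee⟩ := h
        have hw : e ∈ within G Λ P := by
          by_contra hne
          simp [shut, hne] at he
        rcases hee with r | r <;> simp [within, r] at hw
        exacts [hw.1, hw.2]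
    clear hy hadj
    induction hc with
    | refl =>
      exact ⟨.nil, fun v hv => by
        rw [SimpleGraph.Walk.support_nil, List.mem_singleton] at hv
        exact hv ▸ hxP⟩
    | @tail b c _ hbc ih =>
      obtain ⟨e, he, hee⟩ := hbc
      have hw : e ∈ within G Λ P := by
        by_contra hne
        simp [shut, hne] at he
      have he' : wConf G Λ ω e = true := by simpa [shut, hw] using he
      have hcP : (c : V) ∈ P := by
        rcases hee with r | r <;> simp [within, r] at hw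
        exacts [hw.2, hw.1]
      obtain ⟨w, hw'⟩ := reachWithin_of_cluster (x := b) (y := c)
        (Relation.ReflTransGen.single ⟨e, he', hee⟩)
      obtain ⟨wk, hwk⟩ := ih
      have hadj' : (openGraph G ω).Adj (b : V) c := by
        have hsub : (⟨s(((wEnds G Λ e).1 : V), ((wEnds G Λ e).2 : V)), adj_wEnds e⟩ : G.edgeSet)
            = e.1 := Subtype.ext (wEnds_sym2 e)
        have ho : (openGraph G ω).Adj ((wEnds G Λ e).1 : V) (wEnds G Λ e).2 :=
          ⟨adj_wEnds e, by rw [hsub]; exact he'⟩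
        rcases hee with r | r <;> rw [r] at ho
        exacts [ho, ho.symm]
      refine ⟨wk.concat hadj', fun v hv => ?_⟩
      rw [SimpleGraph.Walk.support_concat] at hv
      simp only [List.concat_eq_append, List.mem_append, List.mem_singleton] at hv
      rcases hv with hv | hv
      · exact hwk v hv
      · exact hv ▸ hcP
  · obtain ⟨e, he, hee⟩ := hadj
    have hsub : (⟨s(((wEnds G Λ e).1 : V), ((wEnds G Λ e).2 : V)), adj_wEnds e⟩ : G.edgeSet)
        = e.1 := Subtype.ext (wEnds_sym2 e)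
    have ho : (openGraph G ω).Adj ((wEnds G Λ e).1 : V) (wEnds G Λ e).2 :=
      ⟨adj_wEnds e, by rw [hsub]; exact he⟩
    rcases hee with r | r <;> rw [r] at ho
    exacts [ho, ho.symm]

/-- An exit of the graph is an exit of every window that holds one of its paths. -/
theorem exists_window_exit [DecidableEq V] {P Side : Set V} {K : Finset V} {ω : Config G} {z : V}
    (hz : z ∈ exits G P K ω ∩ Side) :
    ∃ U : Finset V, z ∈ U ∧ ∀ Λ, U ⊆ Λ → ∀ h : z ∈ Λ,
      (⟨z, h⟩ : WV Λ) ∈ wExits G Λ P Side K (wConf G Λ ω) := by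
  obtain ⟨⟨hzP, y, ⟨x, hx, walk, hwalk⟩, hA⟩, hs⟩ := hz
  refine ⟨insert z walk.support.toFinset, Finset.mem_insert_self _ _, fun Λ hΛ h => ?_⟩
  have hin : ∀ v ∈ walk.support, v ∈ Λ := fun v hv =>
    hΛ (Finset.mem_insert_of_mem (List.mem_toFinset.2 hv))
  have hxΛ : x ∈ Λ := hin x walk.start_mem_support
  have hyΛ : y ∈ Λ := hin y walk.end_mem_support
  refine ⟨hzP, hs, ⟨x, hxΛ⟩, hx, ⟨y, hyΛ⟩, hwalk y walk.end_mem_support, ?_, ?_⟩
  · suffices H : ∀ {a b : V} (wk : (openGraph G ω).Walk a b) (ha : a ∈ Λ) (hb : b ∈ Λ),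
        (∀ v ∈ wk.support, v ∈ Λ ∧ v ∈ P) → (⟨b, hb⟩ : WV Λ)
          ∈ cluster (wEnds G Λ) (shut (within G Λ P)ᶜ (wConf G Λ ω)) ⟨a, ha⟩ from
      H walk hxΛ hyΛ fun v hv => ⟨hin v hv, hwalk v hv⟩
    intro a b wk
    induction wk with
    | nil => intro ha hb _; exact mem_cluster_self _ _
    | @cons a c b hac wk ih =>
      intro ha hb hs'
      obtain ⟨hc, hcP⟩ := hs' c (List.mem_cons_of_mem _ wk.start_mem_support)
      obtain ⟨-, haP⟩ := hs' a (List.mem_cons_self ..)
      obtain ⟨hG, hop⟩ := hac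
      let e : WE G Λ := ⟨⟨s(a, c), (SimpleGraph.mem_edgeSet _).2 hG⟩, fun v hv => by
        rcases Sym2.mem_iff.1 hv with rfl | rfl
        · exact ha
        · exact hc⟩
      have hee : wEnds G Λ e = (⟨a, ha⟩, ⟨c, hc⟩) ∨ wEnds G Λ e = (⟨c, hc⟩, ⟨a, ha⟩) := by
        rcases Sym2.eq_iff.1 (wEnds_sym2 e) with ⟨h1, h2⟩ | ⟨h1, h2⟩
        · exact Or.inl (Prod.ext (Subtype.ext h1) (Subtype.ext h2))
        · exact Or.inr (Prod.ext (Subtype.ext h1) (Subtype.ext h2))
      have hw : e ∈ within G Λ P := by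
        rcases hee with r | r <;> simp [within, r, haP, hcP]
      refine Relation.ReflTransGen.head ⟨e, ?_, hee⟩
        (ih hc hb fun v hv => hs' v (List.mem_cons_of_mem _ hv))
      simpa [shut, hw] using (show wConf G Λ ω e = true from hop)
  · obtain ⟨hG, hop⟩ := hA
    let e : WE G Λ := ⟨⟨s(y, z), (SimpleGraph.mem_edgeSet _).2 hG⟩, fun v hv => by
      rcases Sym2.mem_iff.1 hv with rfl | rfl
      · exact hyΛ
      · exact h⟩
    refine ⟨e, hop, ?_⟩
    rcases Sym2.eq_iff.1 (wEnds_sym2 e) with ⟨h1, h2⟩ | ⟨h1, h2⟩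
    · exact Or.inl (Prod.ext (Subtype.ext h1) (Subtype.ext h2))
    · exact Or.inr (Prod.ext (Subtype.ext h1) (Subtype.ext h2))

/-- Many exits show in every large enough window. -/
theorem exists_window [Countable V] (p : unitInterval) (P Side : Set V) (K : Finset V) (M : ℕ)
    {ε η : ℝ} (hη : 0 < η)
    (h : (perc G p).real {ω | (exits G P K ω ∩ Side).encard < M} ≤ ε) :
    ∃ Λ₀ : Finset V, ∀ Λ, Λ₀ ⊆ Λ →
      1 - ε - η ≤ Pr (fun _ : WE G Λ => (p : ℝ)) (exitHits G Λ P Side K M) := by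
  classical
  haveI : IsProbabilityMeasure (perc G p) := by unfold perc; infer_instance
  set μ := perc G p
  obtain ⟨f, hf⟩ := exists_injective_nat V
  let U : ℕ → Finset V := fun n =>
    (Finset.range n).preimage f (Set.injOn_of_injective hf)
  let B : ℕ → Set (Config G) := fun n =>
    ⋂ Λ : {Λ : Finset V // U n ⊆ Λ}, wEv G Λ.1 (exitHits G Λ.1 P Side K M)
  have hBmono : Monotone B := fun a b hab ω hω => Set.mem_iInter.2 fun Λ =>
    Set.mem_iInter.1 hω ⟨Λ.1, fun x hx => Λ.2 (by
      simp only [U, Finset.mem_preimage, Finset.mem_range] at hx ⊢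
      omega)⟩
  have hBm : ∀ n, MeasurableSet (B n) := fun n =>
    MeasurableSet.iInter fun _ => measurableSet_wEv _
  have hcov : {ω : Config G | (M : ℕ∞) ≤ (exits G P K ω ∩ Side).encard} ⊆ ⋃ n, B n := by
    intro ω hω
    obtain ⟨S, hS, hcard⟩ := Set.exists_subset_encard_eq hω
    have hSfin : S.Finite := Set.finite_of_encard_le_coe hcard.le
    choose W hWz hW using fun z : hSfin.toFinset =>
      exists_window_exit (G := G) (hS (hSfin.mem_toFinset.1 z.2))
    let T : Finset V := Finset.univ.biUnion W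
    refine Set.mem_iUnion.2 ⟨T.sup f + 1, Set.mem_iInter.2 fun Λ => ?_⟩
    have hT : T ⊆ Λ.1 := fun x hx => Λ.2 (by
      simp only [U, Finset.mem_preimage, Finset.mem_range]
      exact Nat.lt_succ_of_le (Finset.le_sup hx))
    have hWL : ∀ z, W z ⊆ Λ.1 := fun z =>
      (Finset.subset_biUnion_of_mem W (Finset.mem_univ z)).trans hT
    show (M : ℕ∞) ≤ _
    rw [← hcard, ← Subtype.val_injective.encard_image (wExits G Λ.1 P Side K _)]
    refine Set.encard_le_encard fun z hz => ?_
    let z' : hSfin.toFinset := ⟨z, hSfin.mem_toFinset.2 hz⟩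
    have hzΛ : z ∈ Λ.1 := hWL z' (hWz z')
    exact ⟨⟨z, hzΛ⟩, hW z' Λ.1 (hWL z') hzΛ, rfl⟩
  have hlim : Tendsto (fun n => μ.real (B n)) atTop (𝓝 (μ.real (⋃ n, B n))) :=
    (ENNReal.tendsto_toReal (measure_ne_top _ _)).comp (tendsto_measure_iUnion_atTop hBmono)
  have hge : 1 - ε ≤ μ.real (⋃ n, B n) := by
    have h2 : μ.real Set.univ ≤ μ.real (⋃ n, B n) + μ.real {ω | (exits G P K ω ∩ Side).encard < M} :=
      (measureReal_mono (fun ω _ => by
        by_cases hω : (M : ℕ∞) ≤ (exits G P K ω ∩ Side).encard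
        · exact Or.inl (hcov hω)
        · exact Or.inr (not_le.1 hω)) (measure_ne_top _ _)).trans (measureReal_union_le _ _)
    rw [probReal_univ] at h2
    linarith
  obtain ⟨n, hn⟩ := (hlim.eventually (eventually_gt_nhds (show μ.real (⋃ n, B n) - η
    < μ.real (⋃ n, B n) by linarith))).exists
  refine ⟨U n, fun Λ hΛ => ?_⟩
  rw [← perc_wEv p]
  have : μ.real (B n) ≤ μ.real (wEv G Λ (exitHits G Λ P Side K M)) :=
    measureReal_mono (Set.iInter_subset _ (⟨Λ, hΛ⟩ : {Λ : Finset V // U n ⊆ Λ}))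
      (measure_ne_top _ _)
  linarith

theorem openAdj_moveE (φ : G ≃g G) (h : ∀ x ∈ Λ, φ x ∈ Λ') {w : WE G Λ' → Bool} {a b : WV Λ}
    {e : WE G Λ} (he : w (moveE φ h e) = true)
    (hee : wEnds G Λ e = (a, b) ∨ wEnds G Λ e = (b, a)) :
    openAdj (wEnds G Λ') w ⟨φ a, h a a.2⟩ ⟨φ b, h b b.2⟩ := by
  refine ⟨moveE φ h e, he, ?_⟩
  have h0 := wEnds_sym2 (moveE φ h e)
  have h1 : s(((wEnds G Λ' (moveE φ h e)).1 : V), ((wEnds G Λ' (moveE φ h e)).2 : V))
      = s(φ a, φ b) := by
    rw [h0]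
    show Sym2.map φ (e.1 : Sym2 V) = _
    rw [← wEnds_sym2 e]
    rcases hee with r | r <;> rw [r]
    · rfl
    · exact Sym2.eq_swap
  rcases Sym2.eq_iff.1 h1 with ⟨h1, h2⟩ | ⟨h1, h2⟩
  · exact Or.inl (Prod.ext (Subtype.ext h1) (Subtype.ext h2))
  · exact Or.inr (Prod.ext (Subtype.ext h1) (Subtype.ext h2))

/-- Exits move along automorphisms into larger windows. -/
theorem exitHits_map (φ : G ≃g G) (h : ∀ x ∈ Λ, φ x ∈ Λ') (P Side : Set V) (K : Finset V)
    (K' : Finset V) (hK : ∀ x ∈ K, φ x ∈ K') (M : ℕ) :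
    {w : WE G Λ' → Bool | w ∘ moveE φ h ∈ exitHits G Λ P Side K M}
      ⊆ exitHits G Λ' (φ '' P) (φ '' Side) K' M := by
  intro w hw
  refine le_trans (show (M : ℕ∞) ≤ _ from hw) ?_
  let g : WV Λ → WV Λ' := fun a => ⟨φ a, h a a.2⟩
  have hg : Function.Injective g := fun a b hab =>
    Subtype.ext (φ.injective (congrArg Subtype.val hab))
  rw [← hg.encard_image (wExits G Λ P Side K (w ∘ moveE φ h))]
  refine Set.encard_le_encard ?_
  rintro _ ⟨z, ⟨hz, hs, x, hx, y, hy, hc, e, he, hee⟩, rfl⟩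
  refine ⟨fun hz' => hz ?_, ⟨z, hs, rfl⟩, g x, hK _ hx, g y, ⟨y, hy, rfl⟩, ?_,
    openAdj_moveE φ h he hee⟩
  · obtain ⟨u, hu, huz⟩ := hz'
    exact φ.injective huz ▸ hu
  · change Relation.ReflTransGen
      (openAdj (wEnds G Λ) (shut (within G Λ P)ᶜ (w ∘ moveE φ h))) x y at hc
    refine Relation.ReflTransGen.lift g (fun a b hab => ?_) _ _ hc
    obtain ⟨e', he', hee'⟩ := hab
    have hw' : e' ∈ within G Λ P := by
      by_contra hne
      simp [shut, hne] at he'
    have ho : w (moveE φ h e') = true := by simpa [shut, hw'] using he'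
    obtain ⟨f, hf, hff⟩ := openAdj_moveE φ h ho hee'
    refine ⟨f, ?_, hff⟩
    have hab' : (a : V) ∈ P ∧ (b : V) ∈ P := by
      rcases hee' with r | r <;> simp [within, r] at hw'
      exacts [hw', hw'.symm]
    have : f ∈ within G Λ' (φ '' P) := by
      rcases hff with r | r <;> simp [within, r, g, hab'.1, hab'.2]
    simpa [shut, this] using hf

/-- The chance of exits moves along automorphisms. -/
theorem Pr_exitHits_map (p : ℝ) (hp : p ∈ Set.Icc (0 : ℝ) 1) (φ : G ≃g G)
    (h : ∀ x ∈ Λ, φ x ∈ Λ') (P Side : Set V) (K K' : Finset V) (hK : ∀ x ∈ K, φ x ∈ K')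
    (M : ℕ) :
    Pr (fun _ : WE G Λ => p) (exitHits G Λ P Side K M)
      ≤ Pr (fun _ : WE G Λ' => p) (exitHits G Λ' (φ '' P) (φ '' Side) K' M) := by
  have := Renorm.Pr_comp (fun _ : WE G Λ' => p) (moveE_injective φ h) (exitHits G Λ P Side K M)
  refine le_trans (le_of_eq ?_) (Pr_mono (fun _ => hp) (exitHits_map φ h P Side K K' hK M))
  exact this.symm

end Vale.Agent.P151.Zt
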